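import Vale.Agent.P127.U.Pin

/-!
# P127 / U / Mic : collision probabilities (helper420)

`colp P X Z = E [P (X = own value | Z)]` is the probability that two copies of `X`, independent given
`Z`, agree.

* `colp_mono_cond` : fewer conditions, fewer collisions. `colp_mono_var` : finer variable, fewer
  collisions.
* `pair_shift_le`, `pair_near_le` : probability that two copies of an integer variable are at distance
  `≤ k` is at most `(2 k + 1) colp`.
* `colp_off` : change of the condition off an event.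
* `colp_dom` : change of the law by a bounded density; `colp_event` : conditioning on an event.
* `av_pair*`, `nondeg` : four copies given `D`, in the form of `TV.mstep`.
-/

set_option autoImplicit false

namespace Vale.Agent.P127.U.Mic

open Finset Vale.Agent.P127 Vale.Agent.P127.Stk Vale.Agent.P127.U.Pin

section defs

variable {Ω : Type} [Fintype Ω] {S T : Type*} (P : Law Ω)

/-- conditional probability `P(X = x | Z = z)` -/
noncomputable def cq (X : Ω → S) (Z : Ω → T) (x : S) (z : T) : ℝ :=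
  P.pr (fun ω => (X ω, Z ω)) (x, z) / P.pr Z z

/-- collision probability of two copies of `X` given `Z` -/
noncomputable def colp (X : Ω → S) (Z : Ω → T) : ℝ := P.ex fun ω => cq P X Z (X ω) (Z ω)

end defs

variable {Ω : Type} [Fintype Ω] {S S' T T' U : Type*} (P : Law Ω)

theorem cq_nonneg (X : Ω → S) (Z : Ω → T) (x : S) (z : T) : 0 ≤ cq P X Z x z :=
  div_nonneg (P.pr_nonneg _ _) (P.pr_nonneg _ _)

theorem cq_le_one (X : Ω → S) (Z : Ω → T) (x : S) (z : T) : cq P X Z x z ≤ 1 := by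
  unfold cq
  refine div_le_one_of_le₀ ?_ (P.pr_nonneg _ _)
  exact pr_le_pr P fun ω h => congrArg Prod.snd h

theorem cq_eq_cond (X : Ω → S) (Z : Ω → T) (x : S) {z : T} (hz : 0 < P.pr Z z) :
    cq P X Z x z = (P.cond Z z).pr X x := (P.cond_pr Z z hz X x).symm

theorem cq_zero (X : Ω → S) (Z : Ω → T) {x : S} (z : T) (hx : x ∉ img X) : cq P X Z x z = 0 := by
  have h : P.pr (fun ω => (X ω, Z ω)) (x, z) = 0 := by
    unfold Law.pr
    refine Finset.sum_eq_zero fun ω hω => ?_
    have h2 : (X ω, Z ω) = (x, z) := by simpa using hω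
    exact absurd (mem_img.2 ⟨ω, (Prod.mk.inj h2).1⟩) hx
  unfold cq
  rw [h, zero_div]

theorem colp_nonneg (X : Ω → S) (Z : Ω → T) : 0 ≤ colp P X Z :=
  P.ex_nonneg fun _ _ => cq_nonneg P X Z _ _

theorem colp_le_one (X : Ω → S) (Z : Ω → T) : colp P X Z ≤ 1 := by
  have h := P.ex_mono (f := fun ω => cq P X Z (X ω) (Z ω)) (g := fun _ => 1)
    fun _ _ => cq_le_one P X Z _ _
  rwa [P.ex_const] at h

/-- tower property -/
theorem ex_ind_mul (X : Ω → S) (Z : Ω → T) (g : Ω → ℝ)
    (hg : ∀ ω ω', 0 < P.w ω → 0 < P.w ω' → Z ω = Z ω' → g ω = g ω') (x : S) :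
    P.ex (fun ω => Law.ind (X ω = x) * g ω) = P.ex (fun ω => cq P X Z x (Z ω) * g ω) := by
  rw [← ex_cond P Z (fun ω => Law.ind (X ω = x) * g ω)]
  refine P.ex_congr fun ω hω => ?_
  have hz := P.pr_pos Z hω
  rw [cq_eq_cond P X Z x hz, Law.pr_eq_ex, mul_comm, ← Law.ex_const_mul]
  refine Law.ex_congr _ fun ω' h' => ?_
  obtain ⟨h1, h2⟩ := cond_supp P Z hz h'
  rw [hg ω' ω h2 hω h1, mul_comm]

/-- decomposition along the own value -/
theorem ex_own_aux (X : Ω → S) (h : S → Ω → ℝ) :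
    P.ex (fun ω => h (X ω) ω) = ∑ x ∈ img X, P.ex (fun ω => Law.ind (X ω = x) * h x ω) := by
  unfold Law.ex
  rw [Finset.sum_comm]
  refine Finset.sum_congr rfl fun ω _ => ?_
  rw [Finset.sum_eq_single (X ω)]
  · beta_reduce
    rw [Law.ind_of (p := X ω = X ω) rfl, one_mul]
  · intro x _ hx
    beta_reduce
    rw [Law.ind_not (p := X ω = x) (fun h => hx h.symm)]
    ring
  · intro hx
    exact absurd (mem_img.2 ⟨ω, rfl⟩) hx

theorem ex_own (X : Ω → S) (Z : Ω → T) (h : S → Ω → ℝ)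
    (hh : ∀ x ω ω', 0 < P.w ω → 0 < P.w ω' → Z ω = Z ω' → h x ω = h x ω') :
    P.ex (fun ω => h (X ω) ω) = ∑ x ∈ img X, P.ex (fun ω => cq P X Z x (Z ω) * h x ω) := by
  rw [ex_own_aux P X h]
  exact Finset.sum_congr rfl fun x _ => ex_ind_mul P X Z (h x) (hh x) x

theorem colp_eq_sum (X : Ω → S) (Z : Ω → T) :
    colp P X Z = ∑ x ∈ img X, P.ex (fun ω => cq P X Z x (Z ω) * cq P X Z x (Z ω)) := by
  unfold colp
  exact ex_own P X Z (fun x ω => cq P X Z x (Z ω)) fun x ω ω' _ _ e => by rw [e]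

/-- fewer conditions, fewer collisions -/
theorem colp_mono_cond (X : Ω → S) {Z : Ω → T} {Z' : Ω → T'} (hZ : Fn P Z' Z) :
    colp P X Z' ≤ colp P X Z := by
  have h1 := colp_eq_sum P X Z
  have h2 := colp_eq_sum P X Z'
  have h3 : colp P X Z' = ∑ x ∈ img X, P.ex (fun ω => cq P X Z x (Z ω) * cq P X Z' x (Z' ω)) := by
    unfold colp
    exact ex_own P X Z (fun x ω => cq P X Z' x (Z' ω)) fun x ω ω' p p' e => by
      rw [hZ ω ω' p p' e]
  have h4 : 0 ≤ ∑ x ∈ img X, P.ex (fun ω =>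
      (cq P X Z x (Z ω) - cq P X Z' x (Z' ω)) * (cq P X Z x (Z ω) - cq P X Z' x (Z' ω))) :=
    Finset.sum_nonneg fun x _ => P.ex_nonneg fun ω _ => mul_self_nonneg _
  have h5 : ∑ x ∈ img X, P.ex (fun ω =>
      (cq P X Z x (Z ω) - cq P X Z' x (Z' ω)) * (cq P X Z x (Z ω) - cq P X Z' x (Z' ω))) =
      colp P X Z - 2 * colp P X Z' + colp P X Z' := by
    have h6 : ∀ x, P.ex (fun ω =>
        (cq P X Z x (Z ω) - cq P X Z' x (Z' ω)) * (cq P X Z x (Z ω) - cq P X Z' x (Z' ω))) =
        P.ex (fun ω => cq P X Z x (Z ω) * cq P X Z x (Z ω)) -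
        2 * P.ex (fun ω => cq P X Z x (Z ω) * cq P X Z' x (Z' ω)) +
        P.ex (fun ω => cq P X Z' x (Z' ω) * cq P X Z' x (Z' ω)) := by
      intro x
      rw [← P.ex_const_mul, ← P.ex_sub, ← P.ex_add]
      exact P.ex_congr fun ω _ => by ring
    simp only [h6]
    rw [Finset.sum_add_distrib, Finset.sum_sub_distrib, ← Finset.mul_sum, ← h1, ← h2, ← h3]
  linarith

/-- finer variable, fewer collisions -/
theorem colp_mono_var {X : Ω → S} {X' : Ω → S'} (Z : Ω → T)
    (hX : Fn P X' (fun ω => (X ω, Z ω))) : colp P X Z ≤ colp P X' Z := by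
  classical
  refine P.ex_mono fun ω hω => ?_
  unfold cq
  refine div_le_div_of_nonneg_right ?_ (P.pr_nonneg _ _)
  unfold Law.pr
  rw [Finset.sum_filter, Finset.sum_filter]
  refine Finset.sum_le_sum fun ω' _ => ?_
  rcases (P.nn ω').eq_or_lt with h0 | h0
  · rw [← h0]; simp
  · by_cases hx : (X ω', Z ω') = (X ω, Z ω)
    · rw [if_pos hx, if_pos (Prod.ext (hX ω' ω h0 hω hx) (Prod.mk.inj hx).2)]
    · rw [if_neg hx]
      split_ifs
      · exact h0.le
      · exact le_rfl

theorem colp_congr {X : Ω → S} {X' : Ω → S'} {Z : Ω → T} {Z' : Ω → T'}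
    (h1 : Fn P X (fun ω => (X' ω, Z ω))) (h2 : Fn P X' (fun ω => (X ω, Z ω)))
    (h3 : Fn P Z Z') (h4 : Fn P Z' Z) : colp P X Z = colp P X' Z' := by
  refine le_antisymm ?_ ?_
  · exact (colp_mono_var P Z h2).trans (colp_mono_cond P X' h3)
  · exact (colp_mono_cond P X' h4).trans (colp_mono_var P Z h1)

/-! ### pairs of copies -/

/-- the collision probability as an average over two copies -/
theorem pair_eq (X : Ω → S) (Z : Ω → T) :
    P.ex (fun ω => (P.cond Z (Z ω)).ex (fun ω' => Law.ind (X ω' = X ω))) = colp P X Z := by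
  refine P.ex_congr fun ω hω => ?_
  rw [cq_eq_cond P X Z _ (P.pr_pos Z hω), Law.pr_eq_ex]

/-- two copies differ by a given amount -/
theorem pair_shift_le (X : Ω → ℤ) (Z : Ω → T) (j : ℤ) :
    P.ex (fun ω => cq P X Z (X ω + j) (Z ω)) ≤ colp P X Z := by
  classical
  have h1 : P.ex (fun ω => cq P X Z (X ω + j) (Z ω)) =
      ∑ x ∈ img X, P.ex (fun ω => cq P X Z x (Z ω) * cq P X Z (x + j) (Z ω)) :=
    ex_own P X Z (fun x ω => cq P X Z (x + j) (Z ω)) fun x ω ω' _ _ e => by rw [e]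
  have h2 := colp_eq_sum P X Z
  set F : ℤ → ℝ := fun x => P.ex (fun ω => cq P X Z x (Z ω) * cq P X Z x (Z ω)) with hF
  have hF0 : ∀ x, 0 ≤ F x := fun x => P.ex_nonneg fun ω _ => mul_self_nonneg _
  have h3 : ∀ x, P.ex (fun ω => cq P X Z x (Z ω) * cq P X Z (x + j) (Z ω)) ≤
      (F x + F (x + j)) / 2 := by
    intro x
    have h4 : P.ex (fun ω => cq P X Z x (Z ω) * cq P X Z (x + j) (Z ω)) ≤
        P.ex (fun ω => (1 / 2 : ℝ) * (cq P X Z x (Z ω) * cq P X Z x (Z ω) +
          cq P X Z (x + j) (Z ω) * cq P X Z (x + j) (Z ω))) :=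
      P.ex_mono fun ω _ => by
        nlinarith [mul_self_nonneg (cq P X Z x (Z ω) - cq P X Z (x + j) (Z ω))]
    rw [P.ex_const_mul, P.ex_add] at h4
    simp only [hF]
    linarith
  have h5 : ∑ x ∈ img X, F (x + j) ≤ ∑ x ∈ img X, F x := by
    have h6 : ∑ x ∈ img X, F (x + j) = ∑ y ∈ (img X).image (fun x => x + j), F y := by
      rw [Finset.sum_image]
      intro a _ b _ hab
      simpa using hab
    have h7 : ∑ y ∈ (img X).image (fun x => x + j), F y =
        ∑ y ∈ ((img X).image (fun x => x + j)).filter (fun y => y ∈ img X), F y := by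
      symm
      refine Finset.sum_subset (Finset.filter_subset _ _) fun y hy hy' => ?_
      have : y ∉ img X := fun h => hy' (Finset.mem_filter.2 ⟨hy, h⟩)
      simp only [hF, cq_zero P X Z _ this, mul_zero, P.ex_const]
    rw [h6, h7]
    refine Finset.sum_le_sum_of_subset_of_nonneg ?_ fun y _ _ => hF0 y
    intro y hy
    exact (Finset.mem_filter.1 hy).2
  rw [h1, h2]
  calc ∑ x ∈ img X, P.ex (fun ω => cq P X Z x (Z ω) * cq P X Z (x + j) (Z ω))
      ≤ ∑ x ∈ img X, (F x + F (x + j)) / 2 := Finset.sum_le_sum fun x _ => h3 x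
    _ = (∑ x ∈ img X, F x + ∑ x ∈ img X, F (x + j)) / 2 := by
        rw [← Finset.sum_add_distrib, Finset.sum_div]
    _ ≤ ∑ x ∈ img X, F x := by linarith

/-- two copies are at distance at most `k` -/
theorem pair_near_le (X : Ω → ℤ) (Z : Ω → T) (k : ℕ) :
    P.ex (fun ω => (P.cond Z (Z ω)).ex (fun ω' => Law.ind (|X ω - X ω'| ≤ k))) ≤
      (2 * k + 1) * colp P X Z := by
  classical
  have h1 : ∀ ω ω', Law.ind (|X ω - X ω'| ≤ k) =
      ∑ j ∈ Finset.Icc (-(k : ℤ)) k, Law.ind (X ω' = X ω + j) := by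
    intro ω ω'
    by_cases h : |X ω - X ω'| ≤ k
    · rw [Law.ind_of h, Finset.sum_eq_single (X ω' - X ω)]
      · rw [Law.ind_of (by ring)]
      · intro j _ hj
        exact Law.ind_not fun e => hj (by omega)
      · intro hj
        refine absurd ?_ hj
        rw [abs_le] at h
        rw [Finset.mem_Icc]
        constructor <;> omega
    · rw [Law.ind_not h, Finset.sum_eq_zero]
      intro j hj
      refine Law.ind_not fun e => h ?_
      rw [Finset.mem_Icc] at hj
      rw [abs_le]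
      constructor <;> omega
  have h2 : P.ex (fun ω => (P.cond Z (Z ω)).ex (fun ω' => Law.ind (|X ω - X ω'| ≤ k))) =
      ∑ j ∈ Finset.Icc (-(k : ℤ)) k, P.ex (fun ω => cq P X Z (X ω + j) (Z ω)) := by
    have h3 : P.ex (fun ω => (P.cond Z (Z ω)).ex (fun ω' => Law.ind (|X ω - X ω'| ≤ k))) =
        P.ex (fun ω => ∑ j ∈ Finset.Icc (-(k : ℤ)) k, cq P X Z (X ω + j) (Z ω)) := by
      refine P.ex_congr fun ω hω => ?_
      simp only [h1]
      unfold Law.ex
      simp only [Finset.mul_sum]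
      rw [Finset.sum_comm]
      refine Finset.sum_congr rfl fun j _ => ?_
      rw [cq_eq_cond P X Z _ (P.pr_pos Z hω), Law.pr_eq_ex]
      rfl
    rw [h3]
    unfold Law.ex
    simp only [Finset.mul_sum]
    rw [Finset.sum_comm]
  rw [h2]
  refine (Finset.sum_le_sum fun j _ => pair_shift_le P X Z j).trans (le_of_eq ?_)
  rw [Finset.sum_const, nsmul_eq_mul]
  congr 1
  have : (Finset.Icc (-(k : ℤ)) k).card = 2 * k + 1 := by
    rw [Int.card_Icc]
    omega
  rw [this]
  push_cast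
  ring

/-! ### change of the condition off an event -/

/-- averages of conditional probabilities of events -/
theorem ex_cond_ind (Z : Ω → T) (B : Ω → Prop) :
    P.ex (fun ω => (P.cond Z (Z ω)).ex (fun ω' => Law.ind (B ω'))) = P.ex (fun ω => Law.ind (B ω)) :=
  ex_cond P Z _

theorem cond_ex_ind (Z : Ω → T) (B : Ω → Prop) {z : T} (hz : 0 < P.pr Z z) :
    (P.cond Z z).ex (fun ω' => Law.ind (B ω')) =
      P.ex (fun ω => Law.ind (B ω ∧ Z ω = z)) / P.pr Z z := by
  unfold Law.ex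
  rw [Finset.sum_div]
  refine Finset.sum_congr rfl fun ω _ => ?_
  rw [P.cond_w Z z hz]
  beta_reduce
  by_cases h1 : Z ω = z
  · rw [if_pos h1]
    by_cases h2 : B ω
    · rw [Law.ind_of h2, Law.ind_of (p := B ω ∧ Z ω = z) ⟨h2, h1⟩]
      ring
    · rw [Law.ind_not h2, Law.ind_not (p := B ω ∧ Z ω = z) (fun h => h2 h.1)]
      ring
  · rw [if_neg h1, Law.ind_not (p := B ω ∧ Z ω = z) (fun h => h1 h.2)]
    ring

theorem ind_nonneg (p : Prop) : 0 ≤ Law.ind p := by
  by_cases h : p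
  · rw [Law.ind_of h]; norm_num
  · rw [Law.ind_not h]

theorem ind_le_one (p : Prop) : Law.ind p ≤ 1 := by
  by_cases h : p
  · rw [Law.ind_of h]
  · rw [Law.ind_not h]; norm_num

theorem ind_mono {p q : Prop} (h : p → q) : Law.ind p ≤ Law.ind q := by
  by_cases hp : p
  · rw [Law.ind_of hp, Law.ind_of (h hp)]
  · rw [Law.ind_not hp]
    exact ind_nonneg q

/-- change of the condition off the event `C ≠ C'` -/
theorem colp_off (X : Ω → S) (C C' : Ω → U) (η : ℝ)
    (hη : P.ex (fun ω => Law.ind (C ω ≠ C' ω)) ≤ η) :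
    colp P X C ≤ 2 * colp P X C' + 3 * η := by
  -- bad values of `C'`
  let bad : U → Prop := fun c =>
    P.ex (fun ω => Law.ind (C ω = C' ω ∧ C' ω = c)) < (1 / 2 : ℝ) * P.pr C' c
  have key : ∀ ω, 0 < P.w ω → cq P X C (X ω) (C ω) ≤
      2 * cq P X C' (X ω) (C' ω) +
      ((P.cond C (C ω)).ex (fun ω' => Law.ind (C ω' ≠ C' ω')) + Law.ind (C ω ≠ C' ω) +
        Law.ind (C ω = C' ω ∧ bad (C' ω))) := by
    intro ω hω
    have hz := P.pr_pos C hω
    have hz' := P.pr_pos C' hω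
    have h1 : 0 ≤ (P.cond C (C ω)).ex (fun ω' => Law.ind (C ω' ≠ C' ω')) :=
      Law.ex_nonneg _ fun _ _ => ind_nonneg _
    have h2 := cq_nonneg P X C' (X ω) (C' ω)
    by_cases h : C ω = C' ω
    · rw [Law.ind_not (p := C ω ≠ C' ω) (fun h' => h' h)]
      by_cases hb : bad (C' ω)
      · rw [Law.ind_of (p := C ω = C' ω ∧ bad (C' ω)) ⟨h, hb⟩]
        have := cq_le_one P X C (X ω) (C ω)
        linarith
      · rw [Law.ind_not (p := C ω = C' ω ∧ bad (C' ω)) (fun h' => hb h'.2)]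
        -- numerator
        have hnum : P.pr (fun ω => (X ω, C ω)) (X ω, C ω) ≤
            P.pr (fun ω => (X ω, C' ω)) (X ω, C' ω) +
              P.ex (fun ω' => Law.ind (C ω' ≠ C' ω' ∧ C ω' = C ω)) := by
          rw [Law.pr_eq_ex, Law.pr_eq_ex, ← P.ex_add]
          refine P.ex_mono fun ω' _ => ?_
          by_cases h3 : (X ω', C ω') = (X ω, C ω)
          · rw [Law.ind_of h3]
            have h3' := Prod.mk.inj h3
            by_cases h4 : C ω' = C' ω'
            · rw [Law.ind_of (p := (X ω', C' ω') = (X ω, C' ω))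
                (Prod.ext h3'.1 (by rw [← h4, h3'.2, h]))]
              have := ind_nonneg (C ω' ≠ C' ω' ∧ C ω' = C ω)
              linarith
            · rw [Law.ind_of (p := C ω' ≠ C' ω' ∧ C ω' = C ω) ⟨h4, h3'.2⟩]
              have := ind_nonneg ((X ω', C' ω') = (X ω, C' ω))
              linarith
          · rw [Law.ind_not h3]
            have := ind_nonneg ((X ω', C' ω') = (X ω, C' ω))
            have := ind_nonneg (C ω' ≠ C' ω' ∧ C ω' = C ω)
            linarith
        -- denominator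
        have hden : (1 / 2 : ℝ) * P.pr C' (C' ω) ≤ P.pr C (C ω) := by
          refine (not_lt.1 hb).trans ?_
          rw [Law.pr_eq_ex]
          refine P.ex_mono fun ω' _ => ind_mono fun h5 => ?_
          rw [h5.1, h5.2, h]
        have hcd : P.ex (fun ω' => Law.ind (C ω' ≠ C' ω' ∧ C ω' = C ω)) / P.pr C (C ω) =
            (P.cond C (C ω)).ex (fun ω' => Law.ind (C ω' ≠ C' ω')) :=
          (cond_ex_ind P C (fun ω' => C ω' ≠ C' ω') hz).symm
        have h6 : cq P X C (X ω) (C ω) ≤ P.pr (fun ω => (X ω, C' ω)) (X ω, C' ω) / P.pr C (C ω) +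
            (P.cond C (C ω)).ex (fun ω' => Law.ind (C ω' ≠ C' ω')) := by
          rw [← hcd, ← add_div]
          exact div_le_div_of_nonneg_right hnum hz.le
        have h7 : P.pr (fun ω => (X ω, C' ω)) (X ω, C' ω) / P.pr C (C ω) ≤
            2 * cq P X C' (X ω) (C' ω) := by
          unfold cq
          rw [mul_div_assoc', div_le_div_iff₀ hz hz']
          have := P.pr_nonneg (fun ω => (X ω, C' ω)) (X ω, C' ω)
          nlinarith
        linarith
    · rw [Law.ind_of (p := C ω ≠ C' ω) h]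
      have h3 := ind_nonneg (C ω = C' ω ∧ bad (C' ω))
      have := cq_le_one P X C (X ω) (C ω)
      linarith
  have hfin := P.ex_mono key
  rw [P.ex_add, P.ex_add, P.ex_add, P.ex_const_mul, ex_cond_ind P C (fun ω => C ω ≠ C' ω)] at hfin
  -- the bad values
  have hbad : P.ex (fun ω => Law.ind (C ω = C' ω ∧ bad (C' ω))) ≤ η := by
    refine le_trans ?_ hη
    have e1 : P.ex (fun ω => Law.ind (C ω = C' ω ∧ bad (C' ω))) =
        ∑ c ∈ img C', P.ex (fun ω => Law.ind (C' ω = c) * Law.ind (C ω = C' ω ∧ bad c)) := by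
      rw [ex_own_aux P C' (fun c ω => Law.ind (C ω = C' ω ∧ bad c))]
    have e2 : P.ex (fun ω => Law.ind (C ω ≠ C' ω)) =
        ∑ c ∈ img C', P.ex (fun ω => Law.ind (C' ω = c) * Law.ind (C ω ≠ C' ω)) := by
      rw [← ex_own_aux P C' (fun _ ω => Law.ind (C ω ≠ C' ω))]
    rw [e1, e2]
    refine Finset.sum_le_sum fun c _ => ?_
    by_cases hc : bad c
    · have e3 : P.ex (fun ω => Law.ind (C' ω = c) * Law.ind (C ω = C' ω ∧ bad c)) =
          P.ex (fun ω => Law.ind (C ω = C' ω ∧ C' ω = c)) := by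
        refine P.ex_congr fun ω _ => ?_
        by_cases a1 : C' ω = c
        · by_cases a2 : C ω = C' ω
          · rw [Law.ind_of a1, Law.ind_of (p := C ω = C' ω ∧ bad c) ⟨a2, hc⟩,
              Law.ind_of (p := C ω = C' ω ∧ C' ω = c) ⟨a2, a1⟩, one_mul]
          · rw [Law.ind_not (p := C ω = C' ω ∧ bad c) (fun h => a2 h.1),
              Law.ind_not (p := C ω = C' ω ∧ C' ω = c) (fun h => a2 h.1), mul_zero]
        · rw [Law.ind_not a1, Law.ind_not (p := C ω = C' ω ∧ C' ω = c) (fun h => a1 h.2), zero_mul]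
      have e4 : P.pr C' c = P.ex (fun ω => Law.ind (C ω = C' ω ∧ C' ω = c)) +
          P.ex (fun ω => Law.ind (C' ω = c) * Law.ind (C ω ≠ C' ω)) := by
        rw [Law.pr_eq_ex, ← P.ex_add]
        refine P.ex_congr fun ω _ => ?_
        by_cases a1 : C' ω = c
        · by_cases a2 : C ω = C' ω
          · rw [Law.ind_of a1, Law.ind_of (p := C ω = C' ω ∧ C' ω = c) ⟨a2, a1⟩,
              Law.ind_not (p := C ω ≠ C' ω) (fun h => h a2)]
            ring
          · rw [Law.ind_of a1, Law.ind_not (p := C ω = C' ω ∧ C' ω = c) (fun h => a2 h.1),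
              Law.ind_of (p := C ω ≠ C' ω) a2]
            ring
        · rw [Law.ind_not a1, Law.ind_not (p := C ω = C' ω ∧ C' ω = c) (fun h => a1 h.2)]
          ring
      rw [e3]
      have e5 : P.ex (fun ω => Law.ind (C ω = C' ω ∧ C' ω = c)) < (1 / 2 : ℝ) * P.pr C' c := hc
      linarith
    · refine P.ex_mono fun ω _ => mul_le_mul_of_nonneg_left ?_ (ind_nonneg _)
      rw [Law.ind_not (p := C ω = C' ω ∧ bad c) (fun h => hc h.2)]
      exact ind_nonneg _
  unfold colp
  linarith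

/-- the condition is a function of `Z` off an event -/
theorem colp_off_fn (X : Ω → S) (C : Ω → U) (Z : Ω → T) (F : T → U) (η : ℝ)
    (hη : P.ex (fun ω => Law.ind (C ω ≠ F (Z ω))) ≤ η) :
    colp P X C ≤ 2 * colp P X Z + 3 * η := by
  have h1 := colp_off P X C (fun ω => F (Z ω)) η hη
  have h2 := colp_mono_cond P X (Z := Z) (Z' := fun ω => F (Z ω)) fun ω ω' _ _ e => congrArg F e
  linarith

/-! ### change of the law -/

/-- the law `Q` has density at most `K` with respect to `P` -/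
theorem colp_dom (Q : Law Ω) (X : Ω → S) (Z : Ω → T) (K κ : ℝ) (hκ : 0 < κ) (hK : 0 ≤ K)
    (hQ : ∀ ω, Q.w ω ≤ K * P.w ω) :
    colp Q X Z ≤ K ^ 2 / κ * colp P X Z + κ := by
  have hdom : ∀ f : Ω → ℝ, (∀ ω, 0 ≤ f ω) → Q.ex f ≤ K * P.ex f := by
    intro f hf
    unfold Law.ex
    rw [Finset.mul_sum]
    refine Finset.sum_le_sum fun ω _ => ?_
    have := mul_le_mul_of_nonneg_right (hQ ω) (hf ω)
    linarith
  have hpr : ∀ {V : Type _} (Y : Ω → V) (y : V), Q.pr Y y ≤ K * P.pr Y y := by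
    intro V Y y
    unfold Law.pr
    rw [Finset.mul_sum]
    exact Finset.sum_le_sum fun ω _ => hQ ω
  have key : ∀ ω, 0 < Q.w ω → cq Q X Z (X ω) (Z ω) ≤
      K / κ * cq P X Z (X ω) (Z ω) + Law.ind (Q.pr Z (Z ω) < κ * P.pr Z (Z ω)) := by
    intro ω hω
    have hPw : 0 < P.w ω := by
      by_contra h
      have h1 : P.w ω = 0 := le_antisymm (not_lt.1 h) (P.nn ω)
      have := hQ ω
      rw [h1, mul_zero] at this
      linarith
    have hz := P.pr_pos Z hPw
    have hzQ := Q.pr_pos Z hω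
    by_cases h : Q.pr Z (Z ω) < κ * P.pr Z (Z ω)
    · rw [Law.ind_of h]
      have h1 := cq_le_one Q X Z (X ω) (Z ω)
      have h2 : 0 ≤ K / κ * cq P X Z (X ω) (Z ω) :=
        mul_nonneg (div_nonneg hK hκ.le) (cq_nonneg P X Z _ _)
      linarith
    · rw [Law.ind_not h, add_zero]
      unfold cq
      rw [div_mul_div_comm]
      rw [div_le_div_iff₀ hzQ (mul_pos hκ hz)]
      have h1 := hpr (fun ω => (X ω, Z ω)) (X ω, Z ω)
      have h2 := not_lt.1 h
      have h3 := P.pr_nonneg (fun ω => (X ω, Z ω)) (X ω, Z ω)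
      calc Q.pr (fun ω => (X ω, Z ω)) (X ω, Z ω) * (κ * P.pr Z (Z ω))
          ≤ (K * P.pr (fun ω => (X ω, Z ω)) (X ω, Z ω)) * (κ * P.pr Z (Z ω)) :=
            mul_le_mul_of_nonneg_right h1 (mul_pos hκ hz).le
        _ ≤ (K * P.pr (fun ω => (X ω, Z ω)) (X ω, Z ω)) * Q.pr Z (Z ω) :=
            mul_le_mul_of_nonneg_left h2 (mul_nonneg hK h3)
  have h1 := Q.ex_mono key
  rw [Q.ex_add, Q.ex_const_mul] at h1
  have h2 : Q.ex (fun ω => cq P X Z (X ω) (Z ω)) ≤ K * colp P X Z :=
    hdom _ fun ω => cq_nonneg P X Z _ _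
  have h3 : Q.ex (fun ω => Law.ind (Q.pr Z (Z ω) < κ * P.pr Z (Z ω))) ≤ κ := by
    rw [Q.ex_comp Z (fun z => Law.ind (Q.pr Z z < κ * P.pr Z z))]
    calc ∑ z ∈ img Z, Q.pr Z z * Law.ind (Q.pr Z z < κ * P.pr Z z)
        ≤ ∑ z ∈ img Z, κ * P.pr Z z := by
          refine Finset.sum_le_sum fun z _ => ?_
          by_cases h : Q.pr Z z < κ * P.pr Z z
          · rw [Law.ind_of h, mul_one]
            exact h.le
          · rw [Law.ind_not h, mul_zero]
            exact mul_nonneg hκ.le (P.pr_nonneg _ _)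
      _ = κ := by rw [← Finset.mul_sum, P.sum_pr_image, mul_one]
  have h4 : K / κ * Q.ex (fun ω => cq P X Z (X ω) (Z ω)) ≤ K / κ * (K * colp P X Z) :=
    mul_le_mul_of_nonneg_left h2 (div_nonneg hK hκ.le)
  have h5 : K / κ * (K * colp P X Z) = K ^ 2 / κ * colp P X Z := by
    field_simp
  unfold colp at *
  linarith

/-- conditioning on an event -/
theorem colp_event {V : Type*} (E : Ω → V) (v : V) (hv : 0 < P.pr E v) (X : Ω → S) (Z : Ω → T)
    (κ : ℝ) (hκ : 0 < κ) :
    colp (P.cond E v) X Z ≤ colp P X Z / (κ * P.pr E v ^ 2) + κ := by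
  have h := colp_dom P (P.cond E v) X Z (1 / P.pr E v) κ hκ (by positivity) fun ω => by
    rw [P.cond_w E v hv]
    split_ifs
    · exact le_of_eq (by ring)
    · exact mul_nonneg (by positivity) (P.nn ω)
  refine h.trans (le_of_eq ?_)
  congr 1
  field_simp

end Vale.Agent.P127.U.Mic
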