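import Vale.Agent.P127.U.Cell

/-!
# P127 / U / Mic : COUNT, the window inequality (helper518)

Abstract form of 13137 (3) COUNT.  `l` the line, `T j` the information of the path after `j` steps,
`C j` the cell of the line seen from `T j` (a function of `(l, T j)`, nested in `j`), all finite,
no error terms:

* `Dat P l T C` the four functional relations.
* `Dat.window` : `H(C k | T k, C i) ≤ I(l ; C k | C i)`.
* `Dat.count` : for exactly nested `W j`, `j ∈ [i, e]`, `W e` a function of `(T k, C k)`: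
  `∑_(i ≤ j < e) H(W (j+1) | W j, C j, T k) ≤ I(l ; C k | C i)`.
* `Dat.total` : `I(l ; C n | C 0)` is the sum over windows `[σ w, σ (w+1)]`.
* `Dat.sat` : the composition of the two.
* `fl2`, `fl2_nest`, `Dat.count2` : the case of the floors of two real numbers.
-/

set_option autoImplicit false

namespace Vale.Agent.P127.U.Mic

open Finset Vale.Agent.P127 Vale.Agent.P127.Stk Vale.Agent.P127.U.Cell

variable {Ω : Type} [Fintype Ω] {lam tau kap : Type*}

/-- the relations between the line `l`, the path `T` and the cells `C` -/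
structure Dat (P : Law Ω) (l : Ω → lam) (T : ℕ → Ω → tau) (C : ℕ → Ω → kap) : Prop where
  /-- the path is increasing -/
  TT : ∀ {i j : ℕ}, i ≤ j → Fn P (T i) (T j)
  /-- the cells are nested -/
  CC : ∀ {i j : ℕ}, i ≤ j → Fn P (C i) (C j)
  /-- the cell knows the path -/
  TC : ∀ i, Fn P (T i) (C i)
  /-- the cell is a function of the line and the path -/
  Cl : ∀ i, Fn P (C i) (fun ω => (l ω, T i ω))

namespace Dat

variable {P : Law Ω} {l : Ω → lam} {T : ℕ → Ω → tau} {C : ℕ → Ω → kap}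

/-- one window of the chain : the path digits cancel -/
theorem window (d : Dat P l T C) {i k : ℕ} (_hik : i ≤ k) :
    hc P (C k) (fun ω => (T k ω, C i ω)) ≤ mi P l (C k) (C i) := by
  rw [mi_symm]
  unfold mi
  have h1 : hc P (C k) (fun ω => (l ω, C i ω)) ≤ hc P (T k) (fun ω => (l ω, C i ω)) := by
    refine hc_mono_left P ?_
    intro ω ω' p p' e
    simp only [Prod.mk.injEq] at e
    exact d.Cl k ω ω' p p' (Prod.ext e.2.1 e.1)
  have h2 : hc P (T k) (fun ω => (l ω, C i ω)) ≤ hc P (T k) (C i) :=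
    hc_mono_right P _ fun ω ω' _ _ e => congrArg Prod.snd e
  have h3 : hc P (C k) (C i) = hc P (T k) (C i) + hc P (C k) (fun ω => (T k ω, C i ω)) := by
    rw [← hc_pair P (T k) (C k) (C i)]
    refine hc_congr P ?_ ?_ (fun ω ω' _ _ e => e) (fun ω ω' _ _ e => e)
    · intro ω ω' _ _ e
      simp only [Prod.mk.injEq] at e
      exact e.1.2
    · intro ω ω' p p' e
      simp only [Prod.mk.injEq] at e
      exact Prod.ext (d.TC k ω ω' p p' e.1) e.1
  linarith

/-- chain rule along an exactly nested sequence -/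
theorem chain {wt γ : Type*} (P : Law Ω) (W : ℕ → Ω → wt) (D : Ω → γ) (i n : ℕ)
    (hW : ∀ j, i ≤ j → j < i + n → Fn P (W j) (W (j + 1))) :
    ∑ j ∈ Finset.range n, hc P (W (i + j + 1)) (fun ω => (W (i + j) ω, D ω)) ≤
      hc P (W (i + n)) D := by
  induction n with
  | zero => simpa using hc_nonneg P (W i) D
  | succ n ih =>
    rw [Finset.sum_range_succ]
    have h1 := ih fun j hj hj' => hW j hj (by omega)
    have h2 : hc P (W (i + n + 1)) D = hc P (W (i + n)) D +
        hc P (W (i + n + 1)) (fun ω => (W (i + n) ω, D ω)) := by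
      rw [← hc_pair P (W (i + n)) (W (i + n + 1)) D]
      refine hc_congr P ?_ ?_ (fun ω ω' _ _ e => e) (fun ω ω' _ _ e => e)
      · intro ω ω' _ _ e
        simp only [Prod.mk.injEq] at e
        exact e.1.2
      · intro ω ω' p p' e
        simp only [Prod.mk.injEq] at e
        exact Prod.ext (hW (i + n) (by omega) (by omega) ω ω' p p' e.1) e.1
    have h3 : i + (n + 1) = i + n + 1 := by omega
    rw [h3, h2]
    linarith

/-- **COUNT, window inequality** -/
theorem count {wt : Type*} (d : Dat P l T C) {i e k : ℕ} (hie : i ≤ e) (hek : e ≤ k)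
    (W : ℕ → Ω → wt) (hW : ∀ j, i ≤ j → j < e → Fn P (W j) (W (j + 1)))
    (hWe : Fn P (W e) (fun ω => (T k ω, C k ω))) :
    ∑ j ∈ Finset.Ico i e, hc P (W (j + 1)) (fun ω => (W j ω, C j ω, T k ω)) ≤
      mi P l (C k) (C i) := by
  refine le_trans ?_ (d.window (hie.trans hek))
  have h1 : hc P (W e) (fun ω => (T k ω, C i ω)) ≤ hc P (C k) (fun ω => (T k ω, C i ω)) := by
    have h2 : hc P (W e) (fun ω => (T k ω, C i ω)) ≤
        hc P (fun ω => (T k ω, C k ω)) (fun ω => (T k ω, C i ω)) :=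
      hc_mono_left P fun ω ω' p p' h => hWe ω ω' p p' (by
        simp only [Prod.mk.injEq] at h
        exact Prod.ext h.1.1 h.1.2)
    refine h2.trans (le_of_eq ?_)
    rw [hc_pair P (T k) (C k) (fun ω => (T k ω, C i ω))]
    have h3 : hc P (T k) (fun ω => (T k ω, C i ω)) = 0 :=
      hc_zero P fun ω ω' _ _ h => congrArg Prod.fst h
    rw [h3, zero_add]
    refine hc_congr P (fun _ _ _ _ h => congrArg Prod.fst h)
      (fun _ _ _ _ h => congrArg Prod.fst h) ?_ ?_
    · intro ω ω' _ _ h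
      simp only [Prod.mk.injEq] at h ⊢
      exact ⟨h.1, h.1, h.2⟩
    · intro ω ω' _ _ h
      simp only [Prod.mk.injEq] at h ⊢
      exact h.2
  refine le_trans ?_ h1
  obtain ⟨n, rfl⟩ := Nat.exists_eq_add_of_le hie
  refine le_trans ?_ (chain P W (fun ω => (T k ω, C i ω)) i n hW)
  rw [Finset.sum_Ico_eq_sum_range, Nat.add_sub_cancel_left]
  refine Finset.sum_le_sum fun j hj => ?_
  refine hc_mono_right P _ ?_
  intro ω ω' p p' h
  simp only [Prod.mk.injEq] at h ⊢
  exact ⟨h.1, h.2.2, d.CC (Nat.le_add_right i j) ω ω' p p' h.2.1⟩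

/-- the information of a nested sequence is additive over windows -/
theorem total (d : Dat P l T C) (σ : ℕ → ℕ) (hσ : ∀ w, σ w ≤ σ (w + 1)) (n : ℕ) :
    ∑ w ∈ Finset.range n, mi P l (C (σ (w + 1))) (C (σ w)) = mi P l (C (σ n)) (C (σ 0)) := by
  have hm : ∀ w, σ 0 ≤ σ w := by
    intro w
    induction w with
    | zero => exact le_rfl
    | succ w ih => exact ih.trans (hσ w)
  have h1 : ∀ w, mi P l (C (σ (w + 1))) (C (σ w)) =
      hc P l (C (σ w)) - hc P l (C (σ (w + 1))) := fun w => mi_nested P l (d.CC (hσ w))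
  rw [mi_nested P l (d.CC (hm n)), Finset.sum_congr rfl fun w _ => h1 w,
    Finset.sum_range_sub' (fun w => hc P l (C (σ w))) n]

/-- windows `[σ w, σ (w+1)]`, with levels counted up to `ε w` -/
theorem sat {wt : Type*} (d : Dat P l T C) (σ ε : ℕ → ℕ) (n : ℕ)
    (h1 : ∀ w, σ w ≤ ε w) (h2 : ∀ w, ε w ≤ σ (w + 1)) (W : ℕ → ℕ → Ω → wt)
    (hW : ∀ w < n, ∀ j, σ w ≤ j → j < ε w → Fn P (W w j) (W w (j + 1)))
    (hWe : ∀ w < n, Fn P (W w (ε w)) (fun ω => (T (σ (w + 1)) ω, C (σ (w + 1)) ω))) :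
    ∑ w ∈ Finset.range n, ∑ j ∈ Finset.Ico (σ w) (ε w),
      hc P (W w (j + 1)) (fun ω => (W w j ω, C j ω, T (σ (w + 1)) ω)) ≤
      mi P l (C (σ n)) (C (σ 0)) := by
  rw [← d.total σ (fun w => (h1 w).trans (h2 w)) n]
  refine Finset.sum_le_sum fun w hw => ?_
  rw [Finset.mem_range] at hw
  exact d.count (h1 w) (h2 w) (W w) (hW w hw) (hWe w hw)

end Dat

/-- floors of two real numbers -/
noncomputable def fl2 (p q : ℕ) (X F : Ω → ℝ) (ω : Ω) : ℤ × ℤ := (fl1 p (X ω), fl1 q (F ω))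

theorem fl2_nest (P : Law Ω) {p q p' q' : ℕ} (hp : p ≤ p') (hq : q ≤ q') (X F : Ω → ℝ) :
    Fn P (fl2 p q X F) (fl2 p' q' X F) := by
  intro ω ω' _ _ e
  unfold fl2 at *
  simp only [Prod.mk.injEq] at e ⊢
  exact ⟨Pth.fl1_of_fl1 hp e.1, Pth.fl1_of_fl1 hq e.2⟩

namespace Dat

variable {P : Law Ω} {l : Ω → lam} {T : ℕ → Ω → tau} {C : ℕ → Ω → kap}

/-- **COUNT** for the floors of two real numbers at the levels `p j`, `q j`; the real numbers need
only be known to the last levels from `(T k, C k)` -/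
theorem count2 (d : Dat P l T C) {i e k : ℕ} (hie : i ≤ e) (hek : e ≤ k) (X F : Ω → ℝ)
    (p q : ℕ → ℕ) (hp : ∀ j, i ≤ j → j < e → p j ≤ p (j + 1))
    (hq : ∀ j, i ≤ j → j < e → q j ≤ q (j + 1))
    (hWe : Fn P (fl2 (p e) (q e) X F) (fun ω => (T k ω, C k ω))) :
    ∑ j ∈ Finset.Ico i e,
      hc P (fl2 (p (j + 1)) (q (j + 1)) X F)
        (fun ω => (fl2 (p j) (q j) X F ω, C j ω, T k ω)) ≤
      mi P l (C k) (C i) :=
  d.count hie hek (fun j => fl2 (p j) (q j) X F)
    (fun j h h' => fl2_nest P (hp j h h') (hq j h h') X F) hWe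

/-- **COUNT**, all windows, floors of two real numbers for each window -/
theorem sat2 (d : Dat P l T C) (σ ε : ℕ → ℕ) (n : ℕ)
    (h1 : ∀ w, σ w ≤ ε w) (h2 : ∀ w, ε w ≤ σ (w + 1)) (X F : ℕ → Ω → ℝ)
    (p q : ℕ → ℕ → ℕ)
    (hp : ∀ w < n, ∀ j, σ w ≤ j → j < ε w → p w j ≤ p w (j + 1))
    (hq : ∀ w < n, ∀ j, σ w ≤ j → j < ε w → q w j ≤ q w (j + 1))
    (hWe : ∀ w < n, Fn P (fl2 (p w (ε w)) (q w (ε w)) (X w) (F w))
      (fun ω => (T (σ (w + 1)) ω, C (σ (w + 1)) ω))) :
    ∑ w ∈ Finset.range n, ∑ j ∈ Finset.Ico (σ w) (ε w),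
      hc P (fl2 (p w (j + 1)) (q w (j + 1)) (X w) (F w))
        (fun ω => (fl2 (p w j) (q w j) (X w) (F w) ω, C j ω, T (σ (w + 1)) ω)) ≤
      mi P l (C (σ n)) (C (σ 0)) :=
  d.sat σ ε n h1 h2 (fun w j => fl2 (p w j) (q w j) (X w) (F w))
    (fun w hw j h h' => fl2_nest P (hp w hw j h h') (hq w hw j h h') (X w) (F w)) hWe

end Dat

end Vale.Agent.P127.U.Mic
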