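import Vale.Agent.P127.U.Mic.Colp

/-!
# P127 / U / Mic : nondegeneracy of five copies (helper420)

Averages over `ω, ω₂, ω₃, ω₄, ω₅` (independent given `D`), in the form of `TV.mstep`.
-/

set_option autoImplicit false

namespace Vale.Agent.P127.U.Mic

open Finset Vale.Agent.P127 Vale.Agent.P127.Stk Vale.Agent.P127.U.Pin

variable {Ω : Type} [Fintype Ω] {T : Type*} (P : Law Ω)

/-- average over `ω` and four copies given `D` -/
noncomputable def av5 (D : Ω → T) (f : Ω → Ω → Ω → Ω → Ω → ℝ) : ℝ :=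
  P.ex (fun ω => (P.cond D (D ω)).ex (fun ω₂ => (P.cond D (D ω)).ex (fun ω₃ =>
    (P.cond D (D ω)).ex (fun ω₄ => (P.cond D (D ω)).ex (fun ω₅ => f ω ω₂ ω₃ ω₄ ω₅)))))

/-- average over two copies given `D` -/
noncomputable def av2 (D : Ω → T) (f : Ω → Ω → ℝ) : ℝ :=
  P.ex (fun ω => (P.cond D (D ω)).ex (fun ω' => f ω ω'))

theorem av5_mono (D : Ω → T) {f g : Ω → Ω → Ω → Ω → Ω → ℝ}
    (h : ∀ ω ω₂ ω₃ ω₄ ω₅, 0 < P.w ω → 0 < P.w ω₂ → 0 < P.w ω₃ → 0 < P.w ω₄ → 0 < P.w ω₅ →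
      D ω₂ = D ω → D ω₃ = D ω → D ω₄ = D ω → D ω₅ = D ω →
      f ω ω₂ ω₃ ω₄ ω₅ ≤ g ω ω₂ ω₃ ω₄ ω₅) : av5 P D f ≤ av5 P D g := by
  refine P.ex_mono fun ω p => ?_
  have hz := P.pr_pos D p
  refine Law.ex_mono _ fun ω₂ p₂ => Law.ex_mono _ fun ω₃ p₃ => Law.ex_mono _ fun ω₄ p₄ =>
    Law.ex_mono _ fun ω₅ p₅ => ?_
  have q₂ := cond_supp P D hz p₂
  have q₃ := cond_supp P D hz p₃
  have q₄ := cond_supp P D hz p₄
  have q₅ := cond_supp P D hz p₅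
  exact h ω ω₂ ω₃ ω₄ ω₅ p q₂.2 q₃.2 q₄.2 q₅.2 q₂.1 q₃.1 q₄.1 q₅.1

theorem av5_add (D : Ω → T) (f g : Ω → Ω → Ω → Ω → Ω → ℝ) :
    av5 P D (fun a b c d e => f a b c d e + g a b c d e) = av5 P D f + av5 P D g := by
  unfold av5
  simp only [Law.ex_add]

theorem av5_sub (D : Ω → T) (f g : Ω → Ω → Ω → Ω → Ω → ℝ) :
    av5 P D (fun a b c d e => f a b c d e - g a b c d e) = av5 P D f - av5 P D g := by
  unfold av5
  simp only [Law.ex_sub]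

theorem av5_const (D : Ω → T) (c : ℝ) : av5 P D (fun _ _ _ _ _ => c) = c := by
  unfold av5
  simp only [Law.ex_const]

/-- the copies `(ω, ω₂)` -/
theorem av5_12 (D : Ω → T) (f : Ω → Ω → ℝ) : av5 P D (fun a b _ _ _ => f a b) = av2 P D f := by
  unfold av5 av2
  simp only [Law.ex_const]

/-- the copies `(ω, ω₃)` -/
theorem av5_13 (D : Ω → T) (f : Ω → Ω → ℝ) : av5 P D (fun a _ c _ _ => f a c) = av2 P D f := by
  unfold av5 av2
  simp only [Law.ex_const]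

/-- two copies which do not involve `ω` -/
theorem av_shift (D : Ω → T) (f : Ω → Ω → ℝ) :
    P.ex (fun ω => (P.cond D (D ω)).ex (fun ω₂ => (P.cond D (D ω)).ex (fun ω₃ => f ω₂ ω₃))) =
      av2 P D f := by
  unfold av2
  rw [← ex_cond P D (fun ω => (P.cond D (D ω)).ex (fun ω' => f ω ω'))]
  refine P.ex_congr fun ω p => ?_
  refine Law.ex_congr _ fun ω₂ p₂ => ?_
  rw [(cond_supp P D (P.pr_pos D p) p₂).1]

/-- the copies `(ω₂, ω₃)` -/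
theorem av5_23 (D : Ω → T) (f : Ω → Ω → ℝ) : av5 P D (fun _ b c _ _ => f b c) = av2 P D f := by
  rw [← av_shift P D f]
  unfold av5
  simp only [Law.ex_const]

/-- the copies `(ω₄, ω₅)` -/
theorem av5_45 (D : Ω → T) (f : Ω → Ω → ℝ) : av5 P D (fun _ _ _ d e => f d e) = av2 P D f := by
  rw [← av_shift P D f]
  unfold av5
  simp only [Law.ex_const]

/-- two copies at distance `≤ k` -/
theorem av2_near (D : Ω → T) (X : Ω → ℤ) (k : ℕ) :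
    av2 P D (fun ω ω' => Law.ind (|X ω - X ω'| ≤ k)) ≤ (2 * k + 1) * colp P X D :=
  pair_near_le P X D k

/-- **nondegeneracy** : `χ` fails only if two of the copies of `t`, of `v`, of `e` are close -/
theorem nondeg (D : Ω → T) (t v e : Ω → ℤ) (kt kv ke : ℕ) (χ : Ω → Ω → Ω → Ω → Ω → ℝ)
    (hχ : ∀ ω ω₂ ω₃ ω₄ ω₅, 0 < P.w ω → 0 < P.w ω₂ → 0 < P.w ω₃ → 0 < P.w ω₄ → 0 < P.w ω₅ →
      D ω₂ = D ω → D ω₃ = D ω → D ω₄ = D ω → D ω₅ = D ω →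
      ¬ |t ω - t ω₂| ≤ kt → ¬ |t ω - t ω₃| ≤ kt →
      ¬ |v ω - v ω₂| ≤ kv → ¬ |v ω - v ω₃| ≤ kv → ¬ |v ω₂ - v ω₃| ≤ kv →
      ¬ |e ω₄ - e ω₅| ≤ ke → 1 ≤ χ ω ω₂ ω₃ ω₄ ω₅)
    (hχ0 : ∀ ω ω₂ ω₃ ω₄ ω₅, 0 ≤ χ ω ω₂ ω₃ ω₄ ω₅) :
    1 - (2 * ((2 * kt + 1) * colp P t D) + 3 * ((2 * kv + 1) * colp P v D) +
      (2 * ke + 1) * colp P e D) ≤ av5 P D χ := by
  let b12 : Ω → Ω → Ω → Ω → Ω → ℝ := fun a b _ _ _ => Law.ind (|t a - t b| ≤ kt)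
  let b13 : Ω → Ω → Ω → Ω → Ω → ℝ := fun a _ c _ _ => Law.ind (|t a - t c| ≤ kt)
  let c12 : Ω → Ω → Ω → Ω → Ω → ℝ := fun a b _ _ _ => Law.ind (|v a - v b| ≤ kv)
  let c13 : Ω → Ω → Ω → Ω → Ω → ℝ := fun a _ c _ _ => Law.ind (|v a - v c| ≤ kv)
  let c23 : Ω → Ω → Ω → Ω → Ω → ℝ := fun _ b c _ _ => Law.ind (|v b - v c| ≤ kv)
  let d45 : Ω → Ω → Ω → Ω → Ω → ℝ := fun _ _ _ d e' => Law.ind (|e d - e e'| ≤ ke)
  have h1 : av5 P D (fun a b c d f => 1 - (b12 a b c d f + b13 a b c d f + c12 a b c d f +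
      c13 a b c d f + c23 a b c d f + d45 a b c d f)) ≤ av5 P D χ := by
    refine av5_mono P D fun ω ω₂ ω₃ ω₄ ω₅ p p₂ p₃ p₄ p₅ q₂ q₃ q₄ q₅ => ?_
    have n1 := ind_nonneg (|t ω - t ω₂| ≤ kt)
    have n2 := ind_nonneg (|t ω - t ω₃| ≤ kt)
    have n3 := ind_nonneg (|v ω - v ω₂| ≤ kv)
    have n4 := ind_nonneg (|v ω - v ω₃| ≤ kv)
    have n5 := ind_nonneg (|v ω₂ - v ω₃| ≤ kv)
    have n6 := ind_nonneg (|e ω₄ - e ω₅| ≤ ke)
    have hx := hχ0 ω ω₂ ω₃ ω₄ ω₅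
    simp only [b12, b13, c12, c13, c23, d45]
    by_cases g1 : |t ω - t ω₂| ≤ kt
    · rw [Law.ind_of g1]; linarith
    by_cases g2 : |t ω - t ω₃| ≤ kt
    · rw [Law.ind_of g2]; linarith
    by_cases g3 : |v ω - v ω₂| ≤ kv
    · rw [Law.ind_of g3]; linarith
    by_cases g4 : |v ω - v ω₃| ≤ kv
    · rw [Law.ind_of g4]; linarith
    by_cases g5 : |v ω₂ - v ω₃| ≤ kv
    · rw [Law.ind_of g5]; linarith
    by_cases g6 : |e ω₄ - e ω₅| ≤ ke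
    · rw [Law.ind_of g6]; linarith
    have := hχ ω ω₂ ω₃ ω₄ ω₅ p p₂ p₃ p₄ p₅ q₂ q₃ q₄ q₅ g1 g2 g3 g4 g5 g6
    linarith
  rw [av5_sub P D (fun _ _ _ _ _ => 1), av5_const] at h1
  have e1 : av5 P D (fun a b c d f => b12 a b c d f + b13 a b c d f + c12 a b c d f +
      c13 a b c d f + c23 a b c d f + d45 a b c d f) =
      av5 P D b12 + av5 P D b13 + av5 P D c12 + av5 P D c13 + av5 P D c23 + av5 P D d45 := by
    rw [← av5_add, ← av5_add, ← av5_add, ← av5_add, ← av5_add]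
  rw [e1] at h1
  have f1 : av5 P D b12 ≤ (2 * kt + 1) * colp P t D := by
    rw [av5_12 P D (fun a b => Law.ind (|t a - t b| ≤ kt))]
    exact av2_near P D t kt
  have f2 : av5 P D b13 ≤ (2 * kt + 1) * colp P t D := by
    rw [av5_13 P D (fun a b => Law.ind (|t a - t b| ≤ kt))]
    exact av2_near P D t kt
  have f3 : av5 P D c12 ≤ (2 * kv + 1) * colp P v D := by
    rw [av5_12 P D (fun a b => Law.ind (|v a - v b| ≤ kv))]
    exact av2_near P D v kv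
  have f4 : av5 P D c13 ≤ (2 * kv + 1) * colp P v D := by
    rw [av5_13 P D (fun a b => Law.ind (|v a - v b| ≤ kv))]
    exact av2_near P D v kv
  have f5 : av5 P D c23 ≤ (2 * kv + 1) * colp P v D := by
    rw [av5_23 P D (fun a b => Law.ind (|v a - v b| ≤ kv))]
    exact av2_near P D v kv
  have f6 : av5 P D d45 ≤ (2 * ke + 1) * colp P e D := by
    rw [av5_45 P D (fun a b => Law.ind (|e a - e b| ≤ ke))]
    exact av2_near P D e ke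
  linarith

end Vale.Agent.P127.U.Mic
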