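import Vale.Agent.P127.U.Mic.Props
import Vale.Agent.P127.U.Mic.Colp2
import Vale.Agent.P127.TV.MStepCL

/-!
# P127 / U / Mic : the concrete M-step (helper572)

`pSat : PSat`, from the abstract M-step `TV.mstepC_lat` (exact positions, no carries), 881's lattice
lemma and 420's collision calculus.
-/

set_option autoImplicit false

namespace Vale.Agent.P127.U.Mic

open Finset Vale.Agent.P127 Vale.Agent.P127.Stk Vale.Agent.P127.U.CellD Vale.Agent.P127.TV

/-! ### digits -/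

lemma close_of_fl1 {n : ℕ} {x y : ℝ} (h : fl1 n x = fl1 n y) : |x - y| ≤ q2 n := by
  have h1 : rd n x = rd n y := by unfold rd; rw [h]
  have a1 := rd_le n x
  have a2 := lt_rd n x
  have b1 := rd_le n y
  have b2 := lt_rd n y
  rw [abs_le]
  constructor <;> linarith

lemma pow_q2 {s n p : ℕ} (h : s + p ≤ n) : (2 : ℝ) ^ s * q2 n ≤ q2 p := by
  have h1 : q2 n ≤ q2 (s + p) := q2_le h
  have h2 : (2 : ℝ) ^ s * q2 (s + p) = q2 p := by
    rw [q2_add, ← mul_assoc, q2_mul_pow, one_mul]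
  calc (2 : ℝ) ^ s * q2 n ≤ 2 ^ s * q2 (s + p) :=
        mul_le_mul_of_nonneg_left h1 (by positivity)
    _ = q2 p := h2

/-- equal digits, rescaled -/
lemma scl {s n p : ℕ} (h : s + p ≤ n) {x y : ℝ} (e : fl1 n x = fl1 n y) :
    |(2 : ℝ) ^ s * x - 2 ^ s * y| ≤ q2 p := by
  rw [← mul_sub, abs_mul, abs_of_pos (by positivity : (0 : ℝ) < 2 ^ s)]
  exact (mul_le_mul_of_nonneg_left (close_of_fl1 e) (by positivity)).trans (pow_q2 h)

/-- digits which are not neighbours -/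
lemma far_of_fl1 {n n' : ℕ} (hn : n ≤ n') {x y : ℝ} (h : ¬ |fl1 n x - fl1 n y| ≤ ((1 : ℕ) : ℤ)) :
    q2 n ≤ |rd n' x - rd n' y| := by
  have key : ∀ x y : ℝ, fl1 n y + 2 ≤ fl1 n x → q2 n ≤ rd n' x - rd n' y := by
    intro x y hxy
    have h1 := rd_mono hn x
    have h2 := rd_le n' y
    have h3 := lt_rd n y
    have h4 : rd n y + 2 * q2 n ≤ rd n x := by
      have h5 : ((fl1 n y + 2 : ℤ) : ℝ) ≤ ((fl1 n x : ℤ) : ℝ) := by exact_mod_cast hxy
      push_cast at h5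
      have h6 : rd n y = (fl1 n y : ℝ) * q2 n := by unfold rd; rw [div_pow_eq]
      have h7 : rd n x = (fl1 n x : ℝ) * q2 n := by unfold rd; rw [div_pow_eq]
      rw [h6, h7]
      have := mul_le_mul_of_nonneg_right h5 (q2_pos n).le
      linarith
    linarith
  rcases le_total (fl1 n x) (fl1 n y) with hle | hle
  · have h1 : fl1 n x + 2 ≤ fl1 n y := by
      by_contra hcon
      apply h
      rw [abs_le]
      constructor <;> push_cast <;> omega
    have := key y x h1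
    rw [abs_sub_comm]
    exact this.trans (le_abs_self _)
  · have h1 : fl1 n y + 2 ≤ fl1 n x := by
      by_contra hcon
      apply h
      rw [abs_le]
      constructor <;> push_cast <;> omega
    exact (key x y h1).trans (le_abs_self _)

/-- numbers with the same coarse digits -/
lemma near_of_fl1 {n n' : ℕ} (hn : n ≤ n') {x y : ℝ} (h : fl1 n x = fl1 n y) :
    |rd n' x - rd n' y| ≤ q2 n := by
  have h0 : rd n x = rd n y := by unfold rd; rw [h]
  have a1 := rd_mono hn x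
  have a2 := rd_le n' x
  have a3 := lt_rd n x
  have b1 := rd_mono hn y
  have b2 := rd_le n' y
  have b3 := lt_rd n y
  rw [abs_le]
  constructor <;> linarith

/-! ### the positions -/

section geo

variable {Ω : Type} (C : Pth Ω) (b b' p j i' : ℕ)

/-- the value of the time -/
noncomputable def tt (θ : ℤ × ℤ) : ℝ := (θ.1 : ℝ) / 2 ^ C.a i'

/-- the value of the slope -/
noncomputable def vv (θ : ℤ × ℤ) : ℝ := (θ.2 : ℝ) / 2 ^ C.r i'

lemma tt_T (ω : Ω) : tt C i' (C.T i' ω) = C.ta i' ω := rfl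

lemma vv_T (ω : Ω) : vv C i' (C.T i' ω) = C.vr i' ω := rfl

/-- difference of the times, in units -/
noncomputable def sdf (θ θ₁ : ℤ × ℤ) : ℝ := 2 ^ C.a j * (tt C i' θ₁ - tt C i' θ)

/-- difference of the slopes, in units -/
noncomputable def vdf (θ θ₁ : ℤ × ℤ) : ℝ := 2 ^ C.r j * (vv C i' θ₁ - vv C i' θ)

/-- the position in the frame of the late step, in units -/
noncomputable def piv (ω : Ω) : Fin 2 → ℝ := fun i =>
  if i = 0 then 2 ^ (C.a j + b) * C.X1 i' ω else 2 ^ (C.a j + C.r j + b) * C.F i' ω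

/-- the normal direction in the frame of the late step, in units -/
noncomputable def Aw (ω : Ω) : ℝ := 2 ^ (b + C.r j) * C.yN i' ω

/-- the position moved to the frame `θ` -/
noncomputable def bev (θ : ℤ × ℤ) (ω : Ω) : Fin 2 → ℝ := fun i =>
  if i = 0 then 2 ^ (C.a j + b) * C.X1 i' ω else
    2 ^ (C.a j + C.r j + b) * C.F i' ω - sdf C j i' θ (C.T i' ω) * Aw C b j i' ω +
      vdf C j i' θ (C.T i' ω) * (2 ^ (C.a j + b) * C.X1 i' ω)

variable {C b b' p j i'}

lemma sdf_le (hji : j ≤ i') {o a : Ω} (hT : C.T j o = C.T j a) :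
    |sdf C j i' (C.T i' o) (C.T i' a)| ≤ 1 := by
  unfold sdf
  rw [tt_T, tt_T, abs_mul, abs_of_pos (by positivity : (0 : ℝ) < 2 ^ C.a j)]
  have h : |C.ta i' a - C.ta i' o| ≤ q2 (C.a j) := by
    unfold Pth.ta
    refine near_of_fl1 (C.ha hji) ?_
    unfold Pth.T at hT
    simp only [Prod.mk.injEq] at hT
    exact hT.1.symm
  calc (2 : ℝ) ^ C.a j * |C.ta i' a - C.ta i' o| ≤ 2 ^ C.a j * q2 (C.a j) :=
        mul_le_mul_of_nonneg_left h (by positivity)
    _ = 1 := q2_mul_pow _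

lemma vdf_le (hji : j ≤ i') {o a : Ω} (hT : C.T j o = C.T j a) :
    |vdf C j i' (C.T i' o) (C.T i' a)| ≤ 1 := by
  unfold vdf
  rw [vv_T, vv_T, abs_mul, abs_of_pos (by positivity : (0 : ℝ) < 2 ^ C.r j)]
  have h : |C.vr i' a - C.vr i' o| ≤ q2 (C.r j) := by
    unfold Pth.vr
    refine near_of_fl1 (C.hr hji) ?_
    unfold Pth.T at hT
    simp only [Prod.mk.injEq] at hT
    exact hT.2.symm
  calc (2 : ℝ) ^ C.r j * |C.vr i' a - C.vr i' o| ≤ 2 ^ C.r j * q2 (C.r j) :=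
        mul_le_mul_of_nonneg_left h (by positivity)
    _ = 1 := q2_mul_pow _

/-- the label of the window -/
noncomputable def wl (C : Pth Ω) (b b' p j : ℕ) (ω : Ω) : (ℕ → Option Dg) × ℤ :=
  (C.J j b' ω, fl1 (b + p) (C.y1 ω))

/-- the digits of `y1` as a real number -/
noncomputable def ev (p : ℕ) (w : (ℕ → Option Dg) × ℤ) : ℝ := (w.2 : ℝ) / 2 ^ p

lemma ev_wl (ω : Ω) : ev p (wl C b b' p j ω) = 2 ^ b * rd (b + p) (C.y1 ω) := by
  unfold ev wl rd
  rw [pow_add]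
  field_simp

lemma geo_h1 (_hb : 2 * C.κ ≤ b) (ha : C.a j + C.κ + p ≤ C.a i')
    (hr : C.r j + C.κ + p ≤ C.r i') {x y : Ω} (hJ : C.J i' b x = C.J i' b y) :
    |2 ^ (C.a j + b) * C.X1 i' x - 2 ^ (C.a j + b) * C.X1 i' y| ≤ q2 p ∧
    |2 ^ (C.a j + C.r j + b) * C.F i' x - 2 ^ (C.a j + C.r j + b) * C.F i' y| ≤ q2 p ∧
    |Aw C b j i' x - Aw C b j i' y| ≤ q2 p := by
  have h := Pth.J_iff.1 hJ i' le_rfl
  unfold Pth.base at h
  simp only [Prod.mk.injEq] at h
  obtain ⟨-, h1, h2, h3, h4⟩ := h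
  refine ⟨scl (by omega) h3, scl (by omega) h4, ?_⟩
  unfold Aw
  exact scl (by omega) h2

lemma abs3 (x y z : ℝ) : |x - y + z| ≤ |x| + |y| + |z| :=
  (abs_add_le _ _).trans (add_le_add (abs_sub _ _) le_rfl)

/-- the exact algebra: first coordinate -/
lemma alg0 (x y : Ω) (hT : C.T j x = C.T j y) :
    2 ^ (C.a j + b) * C.X1 i' y - 2 ^ (C.a j + b) * C.X1 i' x =
      (2 ^ (C.a j + b) * C.X1 j y - 2 ^ (C.a j + b) * C.X1 j x) +
      2 ^ C.a j * (C.ta i' y - C.ta j y) * (2 ^ b * C.y1 y - 2 ^ b * C.y1 x) +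
      sdf C j i' (C.T i' x) (C.T i' y) * (2 ^ b * C.y1 x) := by
  have h1 := Pth.T_ta hT
  rw [C.X1_step j i' y, C.X1_step j i' x, h1]
  unfold sdf
  rw [tt_T, tt_T, pow_add]
  ring

/-- the exact algebra: second coordinate -/
lemma alg1 (x y : Ω) (hT : C.T j x = C.T j y) :
    2 ^ (C.a j + C.r j + b) * C.F i' y -
      sdf C j i' (C.T i' x) (C.T i' y) * Aw C b j i' y +
      vdf C j i' (C.T i' x) (C.T i' y) * (2 ^ (C.a j + b) * C.X1 i' y) -
      2 ^ (C.a j + C.r j + b) * C.F i' x =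
      (2 ^ (C.a j + C.r j + b) * C.F j y - 2 ^ (C.a j + C.r j + b) * C.F j x) +
      2 ^ C.a j * (C.ta i' x - C.ta j x) *
        (2 ^ (C.r j + b) * C.yN j y - 2 ^ (C.r j + b) * C.yN j x) -
      2 ^ C.r j * (C.vr i' x - C.vr j x) *
        ((2 ^ (C.a j + b) * C.X1 j y - 2 ^ (C.a j + b) * C.X1 j x) +
          2 ^ C.a j * (C.ta i' x - C.ta j x) * (2 ^ b * C.y1 y - 2 ^ b * C.y1 x)) +
      sdf C j i' (C.T i' x) (C.T i' y) * vdf C j i' (C.T i' x) (C.T i' y) *
        (2 ^ b * C.y1 y) := by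
  have h1 := Pth.T_ta hT
  have h2 := Pth.T_vr hT
  unfold sdf vdf Aw
  rw [tt_T, tt_T, vv_T, vv_T, pow_add, pow_add, pow_add, pow_add, pow_add]
  unfold Pth.F Pth.yN Pth.X1
  rw [h1, h2]
  ring

/-- the geometry of the M-step -/
theorem geo [Fintype Ω] (P : Law Ω) (hji : j ≤ i') (hb : 2 * C.κ ≤ b)
    (hb' : b + 2 * C.κ + p ≤ b') (ha : C.a j + C.κ + p ≤ C.a i')
    (hr : C.r j + C.κ + p ≤ C.r i') :
    Geo P (C.J j b) (C.T i') (wl C b b' p j) (C.J i' b) (fun _ w => ev p w)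
      (piv C b j i') (bev C b j i')
      (fun _ θ₁ θ₂ i => if i = 0 then sdf C j i' θ₁ θ₂
        else sdf C j i' θ₁ θ₂ * vdf C j i' θ₁ θ₂)
      (fun _ _ _ _ => 0) (fun _ => 5 * q2 p) := by
  have hq := q2_pos p
  refine ⟨?_, ?_, ?_⟩
  · intro x y _ _ _ _ hE i
    obtain ⟨k1, k2, _⟩ := geo_h1 hb ha hr hE
    unfold piv
    split_ifs
    · linarith
    · linarith
  · intro o x y _ _ _ hD hD' hT hE i
    obtain ⟨k1, k2, k3⟩ := geo_h1 hb ha hr hE
    have hTo : C.T j o = C.T j x := Pth.J_T hD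
    have hs := sdf_le (i' := i') hji hTo
    have hv := vdf_le (i' := i') hji hTo
    unfold bev
    split_ifs
    · linarith
    · rw [← hT]
      have e1 : 2 ^ (C.a j + C.r j + b) * C.F i' x -
          sdf C j i' (C.T i' o) (C.T i' x) * Aw C b j i' x +
          vdf C j i' (C.T i' o) (C.T i' x) * (2 ^ (C.a j + b) * C.X1 i' x) -
          (2 ^ (C.a j + C.r j + b) * C.F i' y -
          sdf C j i' (C.T i' o) (C.T i' x) * Aw C b j i' y +
          vdf C j i' (C.T i' o) (C.T i' x) * (2 ^ (C.a j + b) * C.X1 i' y)) =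
          (2 ^ (C.a j + C.r j + b) * C.F i' x - 2 ^ (C.a j + C.r j + b) * C.F i' y) -
          sdf C j i' (C.T i' o) (C.T i' x) * (Aw C b j i' x - Aw C b j i' y) +
          vdf C j i' (C.T i' o) (C.T i' x) *
            (2 ^ (C.a j + b) * C.X1 i' x - 2 ^ (C.a j + b) * C.X1 i' y) := by ring
      rw [e1]
      refine (abs3 _ _ _).trans ?_
      rw [abs_mul, abs_mul]
      have m1 := mul_le_mul hs k3 (abs_nonneg _) zero_le_one
      have m2 := mul_le_mul hv k1 (abs_nonneg _) zero_le_one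
      linarith
  · intro x y _ _ hD hW i
    have hT : C.T j x = C.T j y := Pth.J_T hD
    have hs := sdf_le (i' := i') hji hT
    have hv := vdf_le (i' := i') hji hT
    unfold wl at hW
    simp only [Prod.mk.injEq] at hW
    obtain ⟨hW1, hW2⟩ := hW
    have hbase := Pth.J_iff.1 hW1 j le_rfl
    unfold Pth.base at hbase
    simp only [Prod.mk.injEq] at hbase
    obtain ⟨-, u1, u2, u3, u4⟩ := hbase
    have w1 : |(2 : ℝ) ^ b * C.y1 y - 2 ^ b * C.y1 x| ≤ q2 p := scl (by omega) u1.symm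
    have w2 : |(2 : ℝ) ^ (C.r j + b) * C.yN j y - 2 ^ (C.r j + b) * C.yN j x| ≤ q2 p :=
      scl (by omega) u2.symm
    have w3 : |(2 : ℝ) ^ (C.a j + b) * C.X1 j y - 2 ^ (C.a j + b) * C.X1 j x| ≤ q2 p :=
      scl (by omega) u3.symm
    have w4 : |(2 : ℝ) ^ (C.a j + C.r j + b) * C.F j y - 2 ^ (C.a j + C.r j + b) * C.F j x| ≤
        q2 p := scl (by omega) u4.symm
    have hta : ∀ z : Ω, |2 ^ C.a j * (C.ta i' z - C.ta j z)| ≤ 1 := by
      intro z
      rw [abs_mul, abs_of_pos (by positivity : (0 : ℝ) < 2 ^ C.a j)]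
      calc (2 : ℝ) ^ C.a j * |C.ta i' z - C.ta j z| ≤ 2 ^ C.a j * q2 (C.a j) :=
            mul_le_mul_of_nonneg_left (C.ta_near hji z) (by positivity)
        _ = 1 := q2_mul_pow _
    have hvr : ∀ z : Ω, |2 ^ C.r j * (C.vr i' z - C.vr j z)| ≤ 1 := by
      intro z
      rw [abs_mul, abs_of_pos (by positivity : (0 : ℝ) < 2 ^ C.r j)]
      calc (2 : ℝ) ^ C.r j * |C.vr i' z - C.vr j z| ≤ 2 ^ C.r j * q2 (C.r j) :=
            mul_le_mul_of_nonneg_left (C.vr_near hji z) (by positivity)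
        _ = 1 := q2_mul_pow _
    have hev : ∀ z : Ω, |2 ^ b * C.y1 z - ev p (wl C b b' p j z)| ≤ q2 p := by
      intro z
      rw [ev_wl, ← mul_sub, abs_mul, abs_of_pos (by positivity : (0 : ℝ) < 2 ^ b), abs_sub_comm]
      exact (mul_le_mul_of_nonneg_left (rd_err _ _) (by positivity)).trans (pow_q2 le_rfl)
    have hevxy : ev p (wl C b b' p j x) = ev p (wl C b b' p j y) := by
      unfold ev wl
      simp only
      rw [hW2]
    unfold bev piv
    split_ifs with hi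
    · rw [add_zero]
      have e1 := alg0 (b := b) (i' := i') x y hT
      have e2 : 2 ^ (C.a j + b) * C.X1 i' y - 2 ^ (C.a j + b) * C.X1 i' x -
          ev p (wl C b b' p j x) * sdf C j i' (C.T i' x) (C.T i' y) =
          (2 ^ (C.a j + b) * C.X1 j y - 2 ^ (C.a j + b) * C.X1 j x) +
          2 ^ C.a j * (C.ta i' y - C.ta j y) * (2 ^ b * C.y1 y - 2 ^ b * C.y1 x) +
          sdf C j i' (C.T i' x) (C.T i' y) * (2 ^ b * C.y1 x - ev p (wl C b b' p j x)) := by
        rw [e1]; ring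
      rw [e2]
      refine (abs_add_le _ _).trans ((add_le_add (abs_add_le _ _) le_rfl).trans ?_)
      rw [abs_mul, abs_mul (sdf C j i' (C.T i' x) (C.T i' y))]
      have m1 := mul_le_mul (hta y) w1 (abs_nonneg _) zero_le_one
      have m2 := mul_le_mul hs (hev x) (abs_nonneg _) zero_le_one
      linarith
    · rw [add_zero]
      have e1 := alg1 (b := b) (i' := i') x y hT
      have e2 : 2 ^ (C.a j + C.r j + b) * C.F i' y -
          sdf C j i' (C.T i' x) (C.T i' y) * Aw C b j i' y +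
          vdf C j i' (C.T i' x) (C.T i' y) * (2 ^ (C.a j + b) * C.X1 i' y) -
          2 ^ (C.a j + C.r j + b) * C.F i' x -
          ev p (wl C b b' p j x) * (sdf C j i' (C.T i' x) (C.T i' y) *
            vdf C j i' (C.T i' x) (C.T i' y)) =
          (2 ^ (C.a j + C.r j + b) * C.F j y - 2 ^ (C.a j + C.r j + b) * C.F j x) +
          2 ^ C.a j * (C.ta i' x - C.ta j x) *
            (2 ^ (C.r j + b) * C.yN j y - 2 ^ (C.r j + b) * C.yN j x) +
          -(2 ^ C.r j * (C.vr i' x - C.vr j x) *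
            ((2 ^ (C.a j + b) * C.X1 j y - 2 ^ (C.a j + b) * C.X1 j x) +
              2 ^ C.a j * (C.ta i' x - C.ta j x) * (2 ^ b * C.y1 y - 2 ^ b * C.y1 x))) +
          sdf C j i' (C.T i' x) (C.T i' y) * vdf C j i' (C.T i' x) (C.T i' y) *
            (2 ^ b * C.y1 y - ev p (wl C b b' p j y)) := by
        rw [e1, hevxy]; ring
      rw [e2]
      have n1 : |2 ^ C.a j * (C.ta i' x - C.ta j x) *
            (2 ^ (C.r j + b) * C.yN j y - 2 ^ (C.r j + b) * C.yN j x)| ≤ q2 p := by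
        rw [abs_mul]
        have := mul_le_mul (hta x) w2 (abs_nonneg _) zero_le_one
        linarith
      have n2 : |2 ^ C.a j * (C.ta i' x - C.ta j x) * (2 ^ b * C.y1 y - 2 ^ b * C.y1 x)| ≤
          q2 p := by
        rw [abs_mul]
        have := mul_le_mul (hta x) w1 (abs_nonneg _) zero_le_one
        linarith
      have n3 : |-(2 ^ C.r j * (C.vr i' x - C.vr j x) *
            ((2 ^ (C.a j + b) * C.X1 j y - 2 ^ (C.a j + b) * C.X1 j x) +
              2 ^ C.a j * (C.ta i' x - C.ta j x) * (2 ^ b * C.y1 y - 2 ^ b * C.y1 x)))| ≤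
          2 * q2 p := by
        rw [abs_neg, abs_mul]
        have h1 : |(2 ^ (C.a j + b) * C.X1 j y - 2 ^ (C.a j + b) * C.X1 j x) +
              2 ^ C.a j * (C.ta i' x - C.ta j x) * (2 ^ b * C.y1 y - 2 ^ b * C.y1 x)| ≤
            2 * q2 p := (abs_add_le _ _).trans (by linarith)
        have := mul_le_mul (hvr x) h1 (abs_nonneg _) zero_le_one
        linarith
      have n4 : |sdf C j i' (C.T i' x) (C.T i' y) * vdf C j i' (C.T i' x) (C.T i' y) *
            (2 ^ b * C.y1 y - ev p (wl C b b' p j y))| ≤ q2 p := by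
        rw [abs_mul, abs_mul]
        have h1 := mul_le_mul hs hv (abs_nonneg _) zero_le_one
        have := mul_le_mul h1 (hev y) (abs_nonneg _) (by norm_num)
        linarith
      refine (abs_add_le _ _).trans ((add_le_add ((abs_add_le _ _).trans
        (add_le_add (abs_add_le _ _) le_rfl)) le_rfl).trans ?_)
      linarith

end geo

/-! ### the concrete M-step -/

lemma log_3168 : Real.log 3168 ≤ 9 := by
  have h1 : Real.log 3168 ≤ Real.log (2 ^ 12) := Real.log_le_log (by norm_num) (by norm_num)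
  rw [Real.log_pow] at h1
  have := Real.log_two_lt_d9
  push_cast at h1
  linarith

lemma num_end {m : ℕ} {S3 X5 I H B : ℝ} (hm0 : (1 : ℝ) ≤ m) (hS0 : 0 ≤ S3)
    (hX : 1 - 9 * S3 ≤ X5)
    (main : X5 * (2 * (m * Real.log 2) - Real.log 3168) - I ≤ H) (hI : I ≤ B) (hB : 0 ≤ B)
    (hH0 : 0 ≤ H) : 2 * m * Real.log 2 - (17 + 17 * m * S3 + B) ≤ H := by
  have h3168 := log_3168
  have hl2 : Real.log 2 ≤ 7 / 10 := by
    have := Real.log_two_lt_d9
    linarith
  have hl20 : 0 < Real.log 2 := Real.log_pos (by norm_num)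
  rcases le_or_gt (2 * (m * Real.log 2) - Real.log 3168) 0 with hneg | hpos
  · have : 0 ≤ 17 * (m : ℝ) * S3 := by positivity
    linarith
  · have h1 : (1 - 9 * S3) * (2 * (m * Real.log 2) - Real.log 3168) ≤
        X5 * (2 * (m * Real.log 2) - Real.log 3168) := mul_le_mul_of_nonneg_right hX hpos.le
    have h2 : 9 * S3 * (2 * (m * Real.log 2) - Real.log 3168) ≤ 17 * m * S3 := by
      have h3 : 2 * (m * Real.log 2) - Real.log 3168 ≤ 14 / 10 * m := by
        have h4 : 0 ≤ Real.log 3168 := Real.log_nonneg (by norm_num)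
        nlinarith
      have h5 := mul_le_mul_of_nonneg_left h3 (by positivity : 0 ≤ 9 * S3)
      have h6 : 0 ≤ (m : ℝ) * S3 := by positivity
      nlinarith
    linarith

lemma num_R {m g : ℕ} {R : ℝ} (hmg : m ≤ g) (hg1 : 1 ≤ g) (hRr : R = 2 ^ (m + 4 * g)) :
    0 ≤ R * (1 + 2 * Real.log R) ∧ R * (1 + 2 * Real.log R) * 128 ≤ 2 ^ (17 * g) := by
  have hl2 : Real.log 2 ≤ 7 / 10 := by
    have := Real.log_two_lt_d9
    linarith
  have hl20 : 0 < Real.log 2 := Real.log_pos (by norm_num)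
  have hlogR : Real.log R ≤ 5 * g := by
    rw [hRr, Real.log_pow]
    have h1 : ((m + 4 * g : ℕ) : ℝ) ≤ 5 * g := by
      have : m + 4 * g ≤ 5 * g := by omega
      exact_mod_cast this
    have h2 : (0 : ℝ) ≤ ((m + 4 * g : ℕ) : ℝ) := Nat.cast_nonneg _
    nlinarith
  have hlR : 0 ≤ Real.log R := by
    rw [hRr, Real.log_pow]; positivity
  have hR0 : (0 : ℝ) ≤ R := by rw [hRr]; positivity
  refine ⟨by positivity, ?_⟩
  have h1 : (1 : ℝ) + 2 * Real.log R ≤ 2 ^ (4 + g) := by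
    have h2 : (g : ℝ) ≤ 2 ^ g := by exact_mod_cast Nat.lt_two_pow_self.le
    have h3 : (1 : ℝ) ≤ g := by exact_mod_cast hg1
    rw [pow_add]
    nlinarith
  have h4 : (R : ℝ) ≤ 2 ^ (5 * g) := by
    rw [hRr]
    exact pow_le_pow_right₀ (by norm_num) (by omega)
  have h5 : (R : ℝ) * (1 + 2 * Real.log R) ≤ 2 ^ (5 * g) * 2 ^ (4 + g) :=
    mul_le_mul h4 h1 (by positivity) (by positivity)
  calc (R : ℝ) * (1 + 2 * Real.log R) * 128 ≤ 2 ^ (5 * g) * 2 ^ (4 + g) * 2 ^ 7 := by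
        have : (128 : ℝ) = 2 ^ 7 := by norm_num
        rw [this]
        exact mul_le_mul_of_nonneg_right h5 (by positivity)
    _ = 2 ^ (5 * g + (4 + g) + 7) := by
        rw [pow_add (2 : ℝ) (5 * g + (4 + g)) 7, pow_add (2 : ℝ) (5 * g) (4 + g)]
    _ ≤ 2 ^ (17 * g) := pow_le_pow_right₀ (by norm_num) (by omega)

/-- the non-degeneracy of the copies -/
lemma chi_ge {Ω : Type} [Fintype Ω] (P : Law Ω) (C : Pth Ω) {b b' g p j i' : ℕ}
    (hji : j ≤ i') (hgp : g ≤ p) (ha : C.a j + g ≤ C.a i') (hr : C.r j + g ≤ C.r i') :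
    1 - 9 * (colp P (fun ω => fl1 (C.a j + g) (C.t ω)) (C.J j b) +
        colp P (fun ω => fl1 (C.r j + g) (C.v ω)) (C.J j b) +
        colp P (fun ω => fl1 (b + g) (C.y1 ω)) (C.J j b)) ≤
      P.ex (fun ω => (P.cond (C.J j b) (C.J j b ω)).ex (fun ω₂ =>
    (P.cond (C.J j b) (C.J j b ω)).ex (fun ω₃ => (P.cond (C.J j b) (C.J j b ω)).ex (fun ω₄ =>
      (P.cond (C.J j b) (C.J j b ω)).ex (fun ω₅ => chiL (fun _ : ℕ → Option Dg => sdf C j i')
      (fun _ : ℕ → Option Dg => vdf C j i') (q2 (2 * g)) (C.J j b ω)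
      (C.T i' ω) (C.T i' ω₂) (C.T i' ω₃) (ev p (wl C b b' p j ω₄))
      (ev p (wl C b b' p j ω₅))))))) := by
  have k1 := colp_nonneg P (fun ω => fl1 (C.a j + g) (C.t ω)) (C.J j b)
  have k2 := colp_nonneg P (fun ω => fl1 (C.r j + g) (C.v ω)) (C.J j b)
  have k3 := colp_nonneg P (fun ω => fl1 (b + g) (C.y1 ω)) (C.J j b)
  have hnd := nondeg P (C.J j b) (fun ω => fl1 (C.a j + g) (C.t ω))
    (fun ω => fl1 (C.r j + g) (C.v ω)) (fun ω => fl1 (b + g) (C.y1 ω)) 1 1 1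
    (fun ω ω₂ ω₃ ω₄ ω₅ => chiL (fun _ : ℕ → Option Dg => sdf C j i')
      (fun _ : ℕ → Option Dg => vdf C j i') (q2 (2 * g)) (C.J j b ω)
      (C.T i' ω) (C.T i' ω₂) (C.T i' ω₃) (ev p (wl C b b' p j ω₄)) (ev p (wl C b b' p j ω₅)))
    ?_ ?_
  · refine le_trans ?_ hnd
    push_cast
    linarith
  · intro ω ω₂ ω₃ ω₄ ω₅ _ _ _ _ _ d2 d3 d4 d5 t2 t3 v2 v3 v23 e45
    have T2 : C.T j ω = C.T j ω₂ := (Pth.J_T d2).symm
    have T3 : C.T j ω = C.T j ω₃ := (Pth.J_T d3).symm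
    have hqg : q2 (2 * g) = q2 g * q2 g := by rw [two_mul, q2_add]
    have hqg1 : q2 g ≤ 1 := by
      have := q2_le (Nat.zero_le g)
      unfold q2 at *
      simpa using this
    have hqg0 := q2_pos g
    -- lower bounds
    have ls : ∀ z, ¬ |fl1 (C.a j + g) (C.t ω) - fl1 (C.a j + g) (C.t z)| ≤ ((1 : ℕ) : ℤ) →
        q2 g ≤ |sdf C j i' (C.T i' ω) (C.T i' z)| := by
      intro z hz
      unfold sdf
      rw [tt_T, tt_T, abs_mul, abs_of_pos (by positivity : (0 : ℝ) < 2 ^ C.a j), abs_sub_comm]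
      have h1 := far_of_fl1 (n' := C.a i') ha hz
      have h2 := mul_le_mul_of_nonneg_left h1 (by positivity : (0 : ℝ) ≤ 2 ^ C.a j)
      rw [q2_add, ← mul_assoc, q2_mul_pow, one_mul] at h2
      exact h2
    have lv : ∀ y z, ¬ |fl1 (C.r j + g) (C.v y) - fl1 (C.r j + g) (C.v z)| ≤ ((1 : ℕ) : ℤ) →
        q2 g ≤ |(2 : ℝ) ^ C.r j * (C.vr i' y - C.vr i' z)| := by
      intro y z hz
      rw [abs_mul, abs_of_pos (by positivity : (0 : ℝ) < 2 ^ C.r j)]
      have h1 := far_of_fl1 (n' := C.r i') hr hz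
      have h2 := mul_le_mul_of_nonneg_left h1 (by positivity : (0 : ℝ) ≤ 2 ^ C.r j)
      rw [q2_add, ← mul_assoc, q2_mul_pow, one_mul] at h2
      exact h2
    have le' : q2 g ≤ |ev p (wl C b b' p j ω₄) - ev p (wl C b b' p j ω₅)| := by
      rw [ev_wl, ev_wl, ← mul_sub, abs_mul, abs_of_pos (by positivity : (0 : ℝ) < 2 ^ b)]
      have h1 := far_of_fl1 (n' := b + p) (by omega) e45
      have h2 := mul_le_mul_of_nonneg_left h1 (by positivity : (0 : ℝ) ≤ 2 ^ b)
      rw [q2_add, ← mul_assoc, q2_mul_pow, one_mul] at h2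
      exact h2
    have ue : |ev p (wl C b b' p j ω₄) - ev p (wl C b b' p j ω₅)| ≤ 1 := by
      rw [ev_wl, ev_wl, ← mul_sub, abs_mul, abs_of_pos (by positivity : (0 : ℝ) < 2 ^ b)]
      have hb4 := Pth.J_iff.1 (d4.trans d5.symm) j le_rfl
      unfold Pth.base at hb4
      simp only [Prod.mk.injEq] at hb4
      have h1 := near_of_fl1 (n' := b + p) (Nat.le_add_right _ _) hb4.2.1
      have h2 := mul_le_mul_of_nonneg_left h1 (by positivity : (0 : ℝ) ≤ 2 ^ b)
      rwa [q2_mul_pow] at h2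
    unfold chiL
    rw [if_pos]
    refine ⟨?_, ?_, ?_, ?_, ?_, vdf_le hji T2, vdf_le hji T3⟩
    · rw [abs_mul, hqg]
      exact mul_le_mul le' (ls ω₂ t2) hqg0.le (abs_nonneg _)
    · rw [abs_mul]
      exact mul_le_one₀ ue (abs_nonneg _) (sdf_le hji T2)
    · rw [abs_mul, hqg]
      exact mul_le_mul le' (ls ω₃ t3) hqg0.le (abs_nonneg _)
    · rw [abs_mul]
      exact mul_le_one₀ ue (abs_nonneg _) (sdf_le hji T3)
    · have h1 := lv ω₂ ω₃ v23
      have h2 : vdf C j i' (C.T i' ω) (C.T i' ω₃) - vdf C j i' (C.T i' ω) (C.T i' ω₂) =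
          -(2 ^ C.r j * (C.vr i' ω₂ - C.vr i' ω₃)) := by
        unfold vdf
        rw [vv_T, vv_T, vv_T]
        ring
      rw [h2, abs_neg]
      refine le_trans ?_ h1
      rw [hqg]
      nlinarith
  · intro ω ω₂ ω₃ ω₄ ω₅
    unfold chiL
    split_ifs
    · exact zero_le_one
    · exact le_rfl

/-- **PSat** -/
theorem pSat : PSat := by
  refine ⟨17, ?_⟩
  intro Ω _ P C m b b' g p j i' ι₁ ι₂ hm hmg hp hji hb hb' ha hr hι₁ hι₂
  classical
  have hg1 : 1 ≤ g := hm.trans hmg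
  have hq := q2_pos p
  set R : ℕ := 2 ^ (m + 4 * g) with hRdef
  have hRr : (R : ℝ) = 2 ^ (m + 4 * g) := by rw [hRdef]; push_cast; rfl
  have hgeo := geo (C := C) (b := b) (b' := b') (p := p) (j := j) (i' := i') P hji (by omega)
    hb' ha hr
  have hτ0 : 0 < q2 (2 * g) := q2_pos _
  have hτ1 : q2 (2 * g) ≤ 1 := by
    have := q2_le (Nat.zero_le (2 * g))
    unfold q2 at *
    simpa using this
  have hL : (1 : ℝ) ≤ 2 ^ m := one_le_pow₀ (by norm_num)
  have hRτ : (2 : ℝ) ^ m ≤ R * q2 (2 * g) ^ 2 := by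
    rw [hRr, pow_add, pow_two, ← q2_add, show 2 * g + 2 * g = 4 * g by ring, mul_assoc,
      q2_mul_pow, mul_one]
  have hRρ : 10 * (R : ℝ) * (5 * q2 p) ≤ 1 := by
    have h1 : (2 : ℝ) ^ (m + 4 * g) * q2 p ≤ q2 6 := pow_q2 (by omega)
    have h2 : q2 6 = 1 / 64 := by unfold q2; norm_num
    rw [hRr]
    nlinarith
  have main := mstepC_lat P (C.J j b) (C.T i') (wl C b b' p j) (C.J i' b) (fun _ w => ev p w)
    (piv C b j i') (bev C b j i') (fun _ => sdf C j i') (fun _ => vdf C j i')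
    (fun _ _ _ _ => 0) (5 * q2 p) hgeo (by positivity) (q2 (2 * g)) 1 (2 ^ m) R hτ0 hτ1 le_rfl hL
    hRτ hRρ
  -- the cells
  have hcell1 : (fun ω => Lat.cell 1 (piv C b j i' ω 0, piv C b j i' ω 1)) =
      fx C i' (C.a j + b) (C.a j + C.r j + b) := by
    funext ω
    unfold Lat.cell fx piv fl1
    simp
  have hcell2 : (fun ω => Lat.cell (2 ^ m) (piv C b j i' ω 0, piv C b j i' ω 1)) =
      fx C i' (C.a j + b - m) (C.a j + C.r j + b - m) := by
    funext ω
    have hdiv : ∀ (n : ℕ), m ≤ n → ∀ x : ℝ, (2 : ℝ) ^ n * x / 2 ^ m = 2 ^ (n - m) * x := by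
      intro n hn x
      have : (2 : ℝ) ^ n = 2 ^ (n - m) * 2 ^ m := by rw [← pow_add, Nat.sub_add_cancel hn]
      rw [this]
      field_simp
    unfold Lat.cell fx piv fl1
    simp only [if_true, if_neg (one_ne_zero : (1 : Fin 2) ≠ 0)]
    rw [hdiv _ (by omega), hdiv _ (by omega)]
  have hc1 : ∀ ω, Lat.cell 1 (piv C b j i' ω 0, piv C b j i' ω 1) =
      fx C i' (C.a j + b) (C.a j + C.r j + b) ω := fun ω => congrFun hcell1 ω
  have hc2 : ∀ ω, Lat.cell (2 ^ m) (piv C b j i' ω 0, piv C b j i' ω 1) =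
      fx C i' (C.a j + b - m) (C.a j + C.r j + b - m) ω := fun ω => congrFun hcell2 ω
  simp only [hc1, hc2] at main
  set H := hc P (fx C i' (C.a j + b) (C.a j + C.r j + b))
    (fun ω => (fx C i' (C.a j + b - m) (C.a j + C.r j + b - m) ω, C.J j b ω, C.T i' ω)) with hH
  have hH0 : 0 ≤ H := hc_nonneg _ _ _
  -- the informations
  have hm1 : mi P (fun ω => ev p (wl C b b' p j ω)) (C.J i' b) (fun ω => (C.J j b ω, C.T i' ω)) ≤
      ι₁ := by
    refine le_trans ?_ hι₁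
    have e1 : mi P (fun ω => ev p (wl C b b' p j ω)) (C.J i' b)
        (fun ω => (C.J j b ω, C.T i' ω)) ≤
        mi P (fun ω => fl1 (b + p) (C.y1 ω)) (C.J i' b) (fun ω => (C.J j b ω, C.T i' ω)) := by
      refine mi_mono_left P _ ?_
      intro ω ω' _ _ e
      simp only [Prod.mk.injEq] at e
      unfold ev wl
      simp only
      rw [e.1]
    refine e1.trans ?_
    rw [mi_symm, mi_symm P (fun ω => fl1 (b + p) (C.y1 ω))]
    rw [mi_congr_cond P (C.J i' b) (fun ω => fl1 (b + p) (C.y1 ω))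
      (Z := fun ω => (C.J j b ω, C.T i' ω)) (Z' := fun ω => (C.T i' ω, C.J j b ω))
      (by intro ω ω' _ _ e; simp only [Prod.mk.injEq] at e ⊢; exact ⟨e.2, e.1⟩)
      (by intro ω ω' _ _ e; simp only [Prod.mk.injEq] at e ⊢; exact ⟨e.2, e.1⟩)]
    refine mi_cond_le P _ _ ?_
    intro ω ω' _ _ e
    simp only [Prod.mk.injEq] at e
    exact Pth.J_T e.1
  have hm2 : mi P (C.T i') (wl C b b' p j) (C.J j b) ≤ ι₂ := by
    refine le_trans (mi_mono_right P _ ?_) hι₂
    intro ω ω' _ _ e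
    simp only [Prod.mk.injEq] at e
    unfold wl
    refine Prod.ext e.1 ?_
    have hbase := Pth.J_iff.1 e.1 j le_rfl
    unfold Pth.base at hbase
    simp only [Prod.mk.injEq] at hbase
    exact fl1_fl1 (by omega) hbase.2.1
  -- nondegeneracy
  have hX := chi_ge (b := b) (b' := b') P C hji (show g ≤ p by omega) (by omega) (by omega)
  have hlog : Real.log (2 ^ m / 1) = m * Real.log 2 := by
    rw [div_one, Real.log_pow]
  rw [hlog] at main
  have hm0 : (1 : ℝ) ≤ m := by exact_mod_cast hm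
  have k1 := colp_nonneg P (fun ω => fl1 (C.a j + g) (C.t ω)) (C.J j b)
  have k2 := colp_nonneg P (fun ω => fl1 (C.r j + g) (C.v ω)) (C.J j b)
  have k3 := colp_nonneg P (fun ω => fl1 (b + g) (C.y1 ω)) (C.J j b)
  obtain ⟨hN0, hN⟩ := num_R hmg hg1 hRr
  have hI : (R : ℝ) * (1 + 2 * Real.log R) *
      (16 * Real.sqrt (mi P (fun ω => ev p (wl C b b' p j ω)) (C.J i' b)
        (fun ω => (C.J j b ω, C.T i' ω))) +
        128 * Real.sqrt (mi P (C.T i') (wl C b b' p j) (C.J j b))) ≤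
      2 ^ (17 * g) * (Real.sqrt ι₁ + Real.sqrt ι₂) := by
    have s1 := Real.sqrt_le_sqrt hm1
    have s2 := Real.sqrt_le_sqrt hm2
    have s3 := Real.sqrt_nonneg ι₁
    have h1 : 16 * Real.sqrt (mi P (fun ω => ev p (wl C b b' p j ω)) (C.J i' b)
        (fun ω => (C.J j b ω, C.T i' ω))) +
        128 * Real.sqrt (mi P (C.T i') (wl C b b' p j) (C.J j b)) ≤
        128 * (Real.sqrt ι₁ + Real.sqrt ι₂) := by linarith
    calc _ ≤ (R : ℝ) * (1 + 2 * Real.log R) * (128 * (Real.sqrt ι₁ + Real.sqrt ι₂)) :=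
          mul_le_mul_of_nonneg_left h1 hN0
      _ = ((R : ℝ) * (1 + 2 * Real.log R) * 128) * (Real.sqrt ι₁ + Real.sqrt ι₂) := by ring
      _ ≤ _ := mul_le_mul_of_nonneg_right hN (add_nonneg s3 (Real.sqrt_nonneg _))
  have hrest : 0 ≤ (2 : ℝ) ^ (17 * g) * (Real.sqrt ι₁ + Real.sqrt ι₂) :=
    mul_nonneg (by positivity) (add_nonneg (Real.sqrt_nonneg _) (Real.sqrt_nonneg _))
  unfold Sat
  exact num_end hm0 (by positivity) hX main hI hrest hH0

end Vale.Agent.P127.U.Mic
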