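import Vale.Agent.P127.U.Mic.Num

/-!
# P127 / U / Mic : the numeric theorem of the micro part (helper527)

`params` : choice of `κ, g, p, L1, K0, β` and the total error.
-/

set_option autoImplicit false

namespace Vale.Agent.P127.U.Mic.Num

open Filter

theorem log2_le_one : Real.log 2 ≤ 1 := by
  have := Real.log_two_lt_d9
  linarith

/-- `logb 2 h ≤ Nat.log 2 h + 1` -/
theorem logb_le (h : ℕ) : Real.logb 2 h ≤ Nat.log 2 h + 1 := by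
  rcases Nat.eq_zero_or_pos h with rfl | hh
  · simp
  · have h1 : h < 2 ^ (Nat.log 2 h + 1) := Nat.lt_pow_succ_log_self (by norm_num) h
    have h2 : (h : ℝ) < 2 ^ (Nat.log 2 h + 1) := by exact_mod_cast h1
    have h3 : (0 : ℝ) < h := by exact_mod_cast hh
    have h4 := Real.logb_lt_logb (b := 2) (by norm_num) h3 h2
    rw [Real.logb_pow, Real.logb_self_eq_one (by norm_num)] at h4
    push_cast at h4
    linarith

/-- `h` is large -/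
theorem large (H0 : ℕ) {δ : ℝ} (hδ : 0 < δ) (h1 : δ * (H0 + 1) ≤ 1) {m h : ℕ}
    (hm : 1 ≤ δ * m) (hm' : (m : ℝ) ≤ δ * Real.logb 2 h) : H0 ≤ h := by
  have hδ1 : δ ≤ 1 := by
    have h3 : (0 : ℝ) ≤ H0 := Nat.cast_nonneg _
    nlinarith
  have h2 : (H0 : ℝ) + 1 ≤ m := by
    by_contra hc
    push Not at hc
    have := mul_lt_mul_of_pos_left hc hδ
    linarith
  have h4 := logb_le h
  have h5 : (m : ℝ) ≤ Nat.log 2 h + 1 := by
    have h6 : 0 ≤ Real.logb 2 h := by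
      by_contra hc
      push Not at hc
      have := mul_neg_of_pos_of_neg hδ hc
      have h7 : (0 : ℝ) ≤ m := Nat.cast_nonneg _
      linarith
    nlinarith
  have h6 : Nat.log 2 h ≤ h := Nat.log_le_self 2 h
  have h7 : (H0 : ℝ) ≤ h := by
    have : (Nat.log 2 h : ℝ) ≤ h := by exact_mod_cast h6
    linarith
  exact_mod_cast h7

theorem const_le (A : ℝ) {ε : ℝ} (hε : 0 < ε) : ∀ᶠ h : ℕ in atTop, A ≤ ε * h := by
  filter_upwards [polylog A 0 (s := 0) (by norm_num) hε] with h hh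
  simpa using hh

theorem polylog0 (A : ℝ) (c : ℕ) {ε : ℝ} (hε : 0 < ε) :
    ∀ᶠ h : ℕ in atTop, A * (Nat.log 2 h : ℝ) ^ c ≤ ε * h := by
  filter_upwards [polylog A c (s := 0) (by norm_num) hε] with h hh
  simpa using hh

/-- `A log h ≤ sqrt h` -/
theorem log_le_sqrt (A : ℝ) : ∀ᶠ h : ℕ in atTop, A * (Nat.log 2 h : ℝ) ≤ Real.sqrt h := by
  filter_upwards [polylog A 1 (s := 1 / 2) (ε := 1) (by norm_num) (by norm_num),
    eventually_ge_atTop 1] with h hh h1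
  have hpos : (0 : ℝ) < Real.sqrt h := Real.sqrt_pos.2 (by exact_mod_cast h1)
  rw [pow_one, ← Real.sqrt_eq_rpow, one_mul] at hh
  have h2 : (h : ℝ) = Real.sqrt h * Real.sqrt h := (Real.mul_self_sqrt (Nat.cast_nonneg _)).symm
  rw [h2] at hh
  have h3 : A * (Nat.log 2 h : ℝ) * Real.sqrt h ≤ Real.sqrt h * Real.sqrt h := by
    calc _ = A * (Nat.log 2 (h : ℕ) : ℝ) * Real.sqrt h := rfl
      _ ≤ _ := by
        rw [← h2] at hh ⊢
        exact hh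
  exact le_of_mul_le_mul_right h3 hpos

/-- the ambiguities are rare -/
theorem rho_le (K : ℕ) {A : ℝ} (hA : 0 ≤ A) {ε : ℝ} (hε : 0 < ε) : ∀ᶠ h : ℕ in atTop,
    ∀ m n N : ℕ, 1 ≤ m → (n : ℝ) * m ≤ (K + 1) * h → (N : ℝ) ≤ h →
    A * N * (n + 1) ^ 3 / 2 ^ (16 * (Nat.log 2 h + 1)) * h ^ 8 ≤ ε := by
  filter_upwards [const_le (A * (K + 2) ^ 3) hε, eventually_ge_atTop 1] with
    h h1 h2 m n N hm hn hN
  have hh : (1 : ℝ) ≤ h := by exact_mod_cast h2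
  have hm' : (1 : ℝ) ≤ m := by exact_mod_cast hm
  have hn0 : (0 : ℝ) ≤ n := Nat.cast_nonneg _
  have hn' : (n : ℝ) + 1 ≤ (K + 2) * h := by
    have : (n : ℝ) ≤ n * m := le_mul_of_one_le_right hn0 hm'
    linarith
  have h3 : (h : ℝ) ^ 16 ≤ 2 ^ (16 * (Nat.log 2 h + 1)) := by
    have h4 : h ^ 16 ≤ (2 ^ (Nat.log 2 h + 1)) ^ 16 :=
      Nat.pow_le_pow_left (Nat.lt_pow_succ_log_self (by norm_num) h).le 16
    rw [← pow_mul, Nat.mul_comm] at h4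
    exact_mod_cast h4
  have hpos : (0 : ℝ) < 2 ^ (16 * (Nat.log 2 h + 1)) := by positivity
  rw [div_mul_eq_mul_div, div_le_iff₀ hpos]
  have e1 : A * N * (n + 1) ^ 3 * (h : ℝ) ^ 8 ≤ A * h * ((K + 2) * h) ^ 3 * h ^ 8 := by
    gcongr
  have e2 : A * h * ((K + 2) * h) ^ 3 * (h : ℝ) ^ 8 = (A * (K + 2) ^ 3) * h ^ 12 := by ring
  have e3 : A * (K + 2) ^ 3 * (h : ℝ) ^ 12 ≤ ε * h * h ^ 12 := by
    gcongr
  have e4 : ε * h * (h : ℝ) ^ 12 ≤ ε * h ^ 16 := by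
    have : (h : ℝ) * (h : ℝ) ^ 12 ≤ (h : ℝ) ^ 16 := by
      calc (h : ℝ) * (h : ℝ) ^ 12 = (h : ℝ) ^ 13 := by ring
        _ ≤ (h : ℝ) ^ 16 := pow_le_pow_right₀ hh (by norm_num)
    calc ε * h * (h : ℝ) ^ 12 = ε * (h * h ^ 12) := by ring
      _ ≤ ε * h ^ 16 := mul_le_mul_of_nonneg_left this hε.le
  have e5 : ε * (h : ℝ) ^ 16 ≤ ε * 2 ^ (16 * (Nat.log 2 h + 1)) :=
    mul_le_mul_of_nonneg_left h3 hε.le
  linarith

/-- consequences of `ρ h^8 ≤ ε` -/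
theorem rho_facts {K m n h q : ℕ} {ρ ε : ℝ} (hρ0 : 0 ≤ ρ) (hρ : ρ * (h : ℝ) ^ 8 ≤ ε)
    (hε : ε ≤ 1 / 2) (hh : 1 ≤ h) (hK : ((K : ℝ) + 2) ^ 2 ≤ h) (hm : 1 ≤ m)
    (hn : (n : ℝ) * m ≤ (K + 1) * h) (hq : q ≤ K * h) :
    ρ ≤ ε ∧ ρ * (n + 1) * (h + q + 1) ≤ 1 ∧
      (h : ℝ) ^ (1 / 8 : ℝ) * (n * ρ ^ (1 / 4 : ℝ)) ≤ K + 1 := by
  have hh' : (1 : ℝ) ≤ h := by exact_mod_cast hh
  have hpos : (0 : ℝ) < h := by linarith
  have hm' : (1 : ℝ) ≤ m := by exact_mod_cast hm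
  have hn0 : (0 : ℝ) ≤ n := Nat.cast_nonneg _
  have hK0 : (0 : ℝ) ≤ K := Nat.cast_nonneg _
  have hn1 : (n : ℝ) ≤ (K + 1) * h := (le_mul_of_one_le_right hn0 hm').trans hn
  have hn' : (n : ℝ) + 1 ≤ (K + 2) * h := by linarith
  have hq' : (q : ℝ) ≤ K * h := by exact_mod_cast hq
  have h1 : (1 : ℝ) ≤ (h : ℝ) ^ 8 := one_le_pow₀ hh'
  refine ⟨(le_mul_of_one_le_right hρ0 h1).trans hρ, ?_, ?_⟩
  · calc ρ * (n + 1) * (h + q + 1) ≤ ρ * ((K + 2) * h) * ((K + 2) * h) := by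
          gcongr
          linarith
      _ = ρ * ((K + 2) ^ 2 * h ^ 2) := by ring
      _ ≤ ρ * (h * h ^ 2) := by gcongr
      _ = ρ * h ^ 3 := by ring
      _ ≤ ρ * h ^ 8 := by
          refine mul_le_mul_of_nonneg_left (pow_le_pow_right₀ hh' (by norm_num)) hρ0
      _ ≤ 1 := by linarith
  · have h2 : ρ ≤ (1 / (h : ℝ) ^ 2) ^ 4 := by
      have h3 : ρ ≤ 1 / (h : ℝ) ^ 8 := by
        rw [le_div_iff₀ (by positivity)]
        linarith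
      refine h3.trans (le_of_eq ?_)
      rw [div_pow, one_pow, ← pow_mul]
    have h4 : ρ ^ (1 / 4 : ℝ) ≤ 1 / (h : ℝ) ^ 2 := by
      refine (Real.rpow_le_rpow hρ0 h2 (by norm_num)).trans (le_of_eq ?_)
      have h6 := Real.pow_rpow_inv_natCast (x := 1 / (h : ℝ) ^ 2) (by positivity)
        (n := 4) (by norm_num)
      have h7 : (1 / 4 : ℝ) = (((4 : ℕ) : ℝ))⁻¹ := by norm_num
      rw [h7]
      exact h6
    have h5 : (h : ℝ) ^ (1 / 8 : ℝ) ≤ h := by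
      have := Real.rpow_le_rpow_of_exponent_le hh' (show (1 / 8 : ℝ) ≤ 1 by norm_num)
      rwa [Real.rpow_one] at this
    calc (h : ℝ) ^ (1 / 8 : ℝ) * (n * ρ ^ (1 / 4 : ℝ))
        ≤ h * ((K + 1) * h * (1 / (h : ℝ) ^ 2)) := by
          refine mul_le_mul h5 (mul_le_mul hn1 h4 (by positivity) (by positivity))
            (by positivity) (by positivity)
      _ = K + 1 := by
          field_simp

/-- the two sums of square roots -/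
theorem sqrt_le (K : ℕ) {lam δ₁ : ℝ} (hl : 0 < lam) (hδ₁ : 0 < δ₁) {ε : ℝ} (hε : 0 < ε) :
    ∀ᶠ h : ℕ in atTop, ∀ m n N L1 p β b2 : ℕ, ∀ G : ℝ, 1 ≤ m →
    (n : ℝ) * m ≤ (K + 1) * h → (lam : ℝ) * b2 ≤ m * N → δ₁ * h ≤ b2 →
    (L1 : ℝ) * m ≤ 3 * (Nat.log 2 h : ℝ) ^ 2 → (p : ℝ) ≤ 2 * Nat.log 2 h →
    (β : ℝ) * m ≤ 100 * Nat.log 2 h → 0 ≤ G → G ≤ (h : ℝ) ^ (1 / 8 : ℝ) →
    G * (Real.sqrt (n * (L1 * (p * Real.log 2))) +
      n * Real.sqrt (β * (L1 * m * Real.log 2) / N)) ≤ ε * h := by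
  set D1 : ℝ := 3 * (K + 1) with hD1
  set D2 : ℝ := 300 / (lam * δ₁) + 1 with hD2
  have hD2' : 1 ≤ D2 := by
    rw [hD2]
    have : 0 ≤ 300 / (lam * δ₁) := by positivity
    linarith
  filter_upwards [polylog (D1 + (K + 1) * D2) 2 (s := 5 / 8) (by norm_num) hε,
    eventually_ge_atTop 2] with h h1 h2 m n N L1 p β b2 G hm hn hN hb hL hp hβ hG0 hG
  have hh : (0 : ℝ) < h := by
    have : 0 < h := by omega
    exact_mod_cast this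
  have hΛ : (1 : ℝ) ≤ Nat.log 2 h := by
    have : 1 ≤ Nat.log 2 h := Nat.le_log_of_pow_le (by norm_num) (by simpa using h2)
    exact_mod_cast this
  set Λ : ℝ := (Nat.log 2 h : ℝ) with hΛd
  have hm' : (1 : ℝ) ≤ m := by exact_mod_cast hm
  have hn0 : (0 : ℝ) ≤ n := Nat.cast_nonneg _
  have hL0 : (0 : ℝ) ≤ L1 := Nat.cast_nonneg _
  have hp0 : (0 : ℝ) ≤ p := Nat.cast_nonneg _
  have hβ0 : (0 : ℝ) ≤ β := Nat.cast_nonneg _
  have hl2 := log2_le_one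
  have hl20 : 0 < Real.log 2 := Real.log_pos (by norm_num)
  have hn' : (n : ℝ) ≤ (K + 1) * h := (le_mul_of_one_le_right hn0 hm').trans hn
  have hL' : (L1 : ℝ) ≤ 3 * Λ ^ 2 := (le_mul_of_one_le_right hL0 hm').trans hL
  have hs : Real.sqrt h * Real.sqrt h = h := Real.mul_self_sqrt hh.le
  have hs0 : 0 < Real.sqrt h := Real.sqrt_pos.2 hh
  have hK : (0 : ℝ) ≤ K := Nat.cast_nonneg _
  -- first root
  have e1 : Real.sqrt (n * (L1 * (p * Real.log 2))) ≤ D1 * Λ ^ 2 * Real.sqrt h := by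
    rw [Real.sqrt_le_left (by positivity)]
    have f1 : (n : ℝ) * (L1 * (p * Real.log 2)) ≤ (K + 1) * h * (3 * Λ ^ 2 * (2 * Λ * 1)) := by
      gcongr
    have f2 : (D1 * Λ ^ 2 * Real.sqrt h) ^ 2 = 9 * (K + 1) ^ 2 * Λ ^ 4 * h := by
      rw [hD1]
      calc (3 * ((K : ℝ) + 1) * Λ ^ 2 * Real.sqrt h) ^ 2
          = 9 * (K + 1) ^ 2 * Λ ^ 4 * (Real.sqrt h * Real.sqrt h) := by ring
        _ = _ := by rw [hs]
    rw [f2]
    refine f1.trans ?_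
    have f3 : ((K : ℝ) + 1) * Λ ^ 3 ≤ (K + 1) ^ 2 * Λ ^ 4 := by
      have g1 : ((K : ℝ) + 1) ≤ (K + 1) ^ 2 := by nlinarith
      have g2 : Λ ^ 3 ≤ Λ ^ 4 := pow_le_pow_right₀ hΛ (by norm_num)
      exact mul_le_mul g1 g2 (by positivity) (by positivity)
    have f4 : 0 ≤ ((K : ℝ) + 1) * Λ ^ 3 := by positivity
    calc ((K : ℝ) + 1) * h * (3 * Λ ^ 2 * (2 * Λ * 1)) = 6 * ((K + 1) * Λ ^ 3) * h := by ring
      _ ≤ 9 * ((K + 1) ^ 2 * Λ ^ 4) * h := by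
        refine mul_le_mul_of_nonneg_right ?_ hh.le
        linarith
      _ = _ := by ring
  -- second root
  have hNm : lam * δ₁ * h ≤ m * N := by
    calc lam * δ₁ * h = lam * (δ₁ * h) := by ring
      _ ≤ lam * b2 := mul_le_mul_of_nonneg_left hb hl.le
      _ ≤ m * N := hN
  have hN0 : (0 : ℝ) < N := by
    by_contra hc
    push Not at hc
    have h3 : (m : ℝ) * N ≤ 0 := mul_nonpos_of_nonneg_of_nonpos (by linarith) hc
    have h4 : 0 < lam * δ₁ * h := by positivity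
    linarith
  have e2 : (β : ℝ) * (L1 * m * Real.log 2) / N ≤ (D2 * Λ ^ 2 / Real.sqrt h) ^ 2 := by
    have g1 : (D2 * Λ ^ 2 / Real.sqrt h) ^ 2 = D2 ^ 2 * Λ ^ 4 / h := by
      rw [div_pow, Real.sq_sqrt hh.le]
      ring
    rw [g1, div_le_div_iff₀ hN0 hh]
    have g2 : (β : ℝ) * (L1 * m * Real.log 2) * h ≤ D2 ^ 2 * Λ ^ 4 * N := by
      have g3 : (β : ℝ) * (L1 * m * Real.log 2) * h * m ≤ D2 ^ 2 * Λ ^ 4 * N * m := by
        have g4 : (β : ℝ) * (L1 * m * Real.log 2) * h * m =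
            (β * m) * (L1 * m) * Real.log 2 * h := by ring
        have g5 : (β * m : ℝ) * (L1 * m) * Real.log 2 * h ≤
            (100 * Λ) * (3 * Λ ^ 2) * 1 * h := by
          gcongr
        have g6 : (300 / (lam * δ₁)) * (lam * δ₁) = 300 := by
          field_simp
        have g7 : 300 ≤ D2 ^ 2 * (lam * δ₁) := by
          have k1 : 300 / (lam * δ₁) ≤ D2 ^ 2 := by
            have : D2 ≤ D2 ^ 2 := by nlinarith
            refine le_trans ?_ this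
            rw [hD2]
            linarith
          calc (300 : ℝ) = (300 / (lam * δ₁)) * (lam * δ₁) := g6.symm
            _ ≤ D2 ^ 2 * (lam * δ₁) := mul_le_mul_of_nonneg_right k1 (by positivity)
        have g8 : Λ ^ 3 ≤ Λ ^ 4 := pow_le_pow_right₀ hΛ (by norm_num)
        calc (β : ℝ) * (L1 * m * Real.log 2) * h * m
            ≤ (100 * Λ) * (3 * Λ ^ 2) * 1 * h := by rw [g4]; exact g5
          _ = 300 * Λ ^ 3 * h := by ring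
          _ ≤ (D2 ^ 2 * (lam * δ₁)) * Λ ^ 4 * h := by gcongr
          _ = D2 ^ 2 * Λ ^ 4 * (lam * δ₁ * h) := by ring
          _ ≤ D2 ^ 2 * Λ ^ 4 * (m * N) := mul_le_mul_of_nonneg_left hNm (by positivity)
          _ = D2 ^ 2 * Λ ^ 4 * N * m := by ring
      exact le_of_mul_le_mul_right g3 (by linarith)
    exact g2
  have e3 : Real.sqrt (β * (L1 * m * Real.log 2) / N) ≤ D2 * Λ ^ 2 / Real.sqrt h := by
    rw [Real.sqrt_le_left (by positivity)]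
    exact e2
  have e4 : (n : ℝ) * Real.sqrt (β * (L1 * m * Real.log 2) / N) ≤
      (K + 1) * D2 * Λ ^ 2 * Real.sqrt h := by
    calc (n : ℝ) * Real.sqrt (β * (L1 * m * Real.log 2) / N)
        ≤ (K + 1) * h * (D2 * Λ ^ 2 / Real.sqrt h) := by
          refine mul_le_mul hn' e3 (Real.sqrt_nonneg _) (by positivity)
      _ = (K + 1) * D2 * Λ ^ 2 * (h / Real.sqrt h) := by ring
      _ = (K + 1) * D2 * Λ ^ 2 * Real.sqrt h := by
          congr 1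
          rw [div_eq_iff hs0.ne']
          exact hs.symm
  have e5 : (h : ℝ) ^ (1 / 8 : ℝ) * Real.sqrt h = (h : ℝ) ^ (5 / 8 : ℝ) := by
    rw [Real.sqrt_eq_rpow, ← Real.rpow_add hh]
    norm_num
  have e6 : 0 ≤ (D1 + (K + 1) * D2) * Λ ^ 2 * Real.sqrt h := by positivity
  calc G * (Real.sqrt (n * (L1 * (p * Real.log 2))) +
      n * Real.sqrt (β * (L1 * m * Real.log 2) / N))
      ≤ G * ((D1 + (K + 1) * D2) * Λ ^ 2 * Real.sqrt h) := by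
        refine mul_le_mul_of_nonneg_left ?_ hG0
        linarith
    _ ≤ (h : ℝ) ^ (1 / 8 : ℝ) * ((D1 + (K + 1) * D2) * Λ ^ 2 * Real.sqrt h) :=
        mul_le_mul_of_nonneg_right hG e6
    _ = (D1 + (K + 1) * D2) * Λ ^ 2 * ((h : ℝ) ^ (1 / 8 : ℝ) * Real.sqrt h) := by ring
    _ = (D1 + (K + 1) * D2) * Λ ^ 2 * (h : ℝ) ^ (5 / 8 : ℝ) := by rw [e5]
    _ ≤ ε * h := h1

/-- the parameters -/
theorem pars {c M m Λ κ p L1 K0 : ℕ} (hm : 1 ≤ m) (hmΛ : m ≤ Λ) (_ : 1 ≤ Λ)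
    (hpΛ : c * ((M + 1) * m) ≤ Λ) (hκ : κ = 16 * (Λ + 1)) (hp : p = c * ((M + 1) * m))
    (hL1 : L1 = Λ ^ 2 / m + 1) (hK0 : K0 = (3 * κ + p) / m + 1) :
    Λ ^ 2 ≤ L1 * m ∧ L1 * m ≤ 3 * Λ ^ 2 ∧ 3 * κ + p ≤ K0 * m ∧ K0 * m ≤ 100 * Λ ∧
      3 * κ + m + p ≤ 100 * Λ ∧ 1 ≤ L1 ∧ 1 ≤ K0 := by
  have h1 := Nat.lt_div_mul_add (a := Λ ^ 2) (b := m) (by omega)
  have h2 := Nat.div_mul_le_self (Λ ^ 2) m
  have h3 : Λ ≤ Λ ^ 2 := by nlinarith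
  have h4 := Nat.lt_div_mul_add (a := 3 * κ + p) (b := m) (by omega)
  have h5 := Nat.div_mul_le_self (3 * κ + p) m
  rw [hL1, hK0, add_mul, one_mul, add_mul, one_mul]
  refine ⟨by omega, by omega, by omega, by omega, by omega, Nat.le_add_left _ _,
    Nat.le_add_left _ _⟩

/-- lost steps -/
theorem err_lost (K M J : ℕ) {ε' : ℝ} (hε' : 0 < ε') : ∀ᶠ h : ℕ in atTop,
    ∀ m n L1 K0 : ℕ, 1 ≤ L1 → ((Nat.log 2 h : ℕ) : ℝ) ^ 2 ≤ (L1 : ℝ) * m →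
    (L1 : ℝ) * m ≤ 3 * ((Nat.log 2 h : ℕ) : ℝ) ^ 2 → (K0 : ℝ) * m ≤ 100 * (Nat.log 2 h : ℕ) →
    (n : ℝ) * m ≤ (K + 1) * h →
    (m : ℝ) * (((n / L1 + 1 : ℕ) : ℝ) * (K0 * (M + J + 2)) + L1) ≤ ε' * h := by
  filter_upwards [param (K + 110) (M + J + 2) (ε := ε' / 2) (by positivity),
    polylog0 (100 * ((M + J + 2 : ℕ) : ℝ)) 1 (ε := ε' / 2) (by positivity)] with
    h f1 f2 m n L1 K0 hL0 hL1 hL1' hK0 hn
  have hK : (0 : ℝ) ≤ K := Nat.cast_nonneg _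
  have hh : (0 : ℝ) ≤ h := Nat.cast_nonneg _
  have hΛ : (0 : ℝ) ≤ (Nat.log 2 h : ℕ) := Nat.cast_nonneg _
  have h1 := f1 m K0 L1 (n / L1) n (by nlinarith) hL1 (by nlinarith)
    (Nat.div_mul_le_self n L1) (by nlinarith)
  have h2 : (K0 : ℝ) * (M + J + 2) * m ≤ ε' / 2 * h := by
    refine le_trans ?_ f2
    rw [pow_one]
    calc (K0 : ℝ) * (M + J + 2) * m = (M + J + 2) * (K0 * m) := by ring
      _ ≤ (M + J + 2) * (100 * (Nat.log 2 h : ℕ)) :=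
        mul_le_mul_of_nonneg_left hK0 (by positivity)
      _ = _ := by push_cast; ring
  have h3 : (((n / L1 * (K0 * (M + J + 2)) + L1 : ℕ) : ℝ)) * m =
      ((n / L1 : ℕ) : ℝ) * (K0 * (M + J + 2)) * m + L1 * m := by
    rw [Nat.cast_add, Nat.cast_mul, Nat.cast_mul]
    push_cast
    ring
  rw [h3] at h1
  have h5 : (m : ℝ) * (((n / L1 + 1 : ℕ) : ℝ) * (K0 * (M + J + 2)) + L1) =
      ((n / L1 : ℕ) : ℝ) * (K0 * (M + J + 2)) * m + K0 * (M + J + 2) * m + L1 * m := by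
    rw [Nat.cast_add, Nat.cast_one]
    ring
  rw [h5]
  linarith

/-- terms with `ε` -/
theorem err_eps {K : ℕ} {m n h b2 : ℕ} {A se D ε' : ℝ} (hA : 0 ≤ A) (hse0 : 0 < se)
    (hse1 : se ≤ 1) (hD : D = A * (2 * (K + 1) + 1))
    (hse2 : se * (4 * D) ≤ ε') (hn : (n : ℝ) * m ≤ (K + 1) * h) (hb : (b2 : ℝ) ≤ se ^ 2 * h) :
    A * (se ^ 2 * (n * m)) + A * b2 + A * (n * m) * se ≤ ε' / 4 * h := by
  have hh : (0 : ℝ) ≤ h := Nat.cast_nonneg _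
  have hεs : se ^ 2 ≤ se := by nlinarith
  have hnm0 : 0 ≤ (n : ℝ) * m := by positivity
  have h1 : A * (se ^ 2 * (n * m)) ≤ A * (se * ((K + 1) * h)) := by gcongr
  have h2 : A * (b2 : ℝ) ≤ A * (se * h) := by
    refine mul_le_mul_of_nonneg_left (hb.trans ?_) hA
    exact mul_le_mul_of_nonneg_right hεs hh
  have h3 : A * (n * m) * se ≤ A * ((K + 1) * h) * se := by gcongr
  have h4 : A * (se * ((K + 1) * h)) + A * (se * h) + A * ((K + 1) * h) * se = se * D * h := by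
    rw [hD]
    ring
  have h5 : se * D * h ≤ ε' / 4 * h := by
    refine mul_le_mul_of_nonneg_right ?_ hh
    linarith
  linarith

/-- rounding -/
theorem err_round {K m n h : ℕ} {A δ₀ ε' : ℝ} (hA : 0 ≤ A) (hδ : 0 < δ₀)
    (hδc : δ₀ * (8 * (A * (K + 1) + 1)) ≤ ε') (hm : 1 ≤ δ₀ * m)
    (hn : (n : ℝ) * m ≤ (K + 1) * h) : A * n ≤ ε' / 8 * h := by
  have hh : (0 : ℝ) ≤ h := Nat.cast_nonneg _
  have h1 : A * (n : ℝ) ≤ A * n * (δ₀ * m) :=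
    le_mul_of_one_le_right (by positivity) hm
  have h2 : A * (n : ℝ) * (δ₀ * m) = δ₀ * A * (n * m) := by ring
  have h3 : δ₀ * A * (n * m) ≤ δ₀ * A * ((K + 1) * h) :=
    mul_le_mul_of_nonneg_left hn (by positivity)
  have h4 : δ₀ * A * ((K + 1) * h) ≤ ε' / 8 * h := by
    have h6 : δ₀ * A * (K + 1) ≤ ε' / 8 := by
      have : δ₀ * (8 * (A * (K + 1) + 1)) = 8 * (δ₀ * A * (K + 1)) + 8 * δ₀ := by ring
      linarith
    calc δ₀ * A * ((K + 1) * h) = δ₀ * A * (K + 1) * h := by ring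
      _ ≤ _ := mul_le_mul_of_nonneg_right h6 hh
  linarith

/-- ambiguities -/
theorem err_amb {K m n h : ℕ} {A ε2 ε' x : ℝ} (hA : 0 ≤ A) (hε20 : 0 < ε2)
    (hε22 : ε2 * (16 * (A * (K + 1) + 1)) ≤ ε') (hx : x ≤ ε2)
    (hn : (n : ℝ) * m ≤ (K + 1) * h) : A * (n * m) * x ≤ ε' / 16 * h := by
  have hh : (0 : ℝ) ≤ h := Nat.cast_nonneg _
  have h0 : 0 ≤ (n : ℝ) * m := by positivity
  have h1 : 0 ≤ A * (n * m) := by positivity
  calc A * (n * m) * x ≤ A * (n * m) * ε2 := mul_le_mul_of_nonneg_left hx h1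
    _ ≤ A * ((K + 1) * h) * ε2 := by gcongr
    _ = (ε2 * (A * (K + 1))) * h := by ring
    _ ≤ ε' / 16 * h := by
      refine mul_le_mul_of_nonneg_right ?_ hh
      have : ε2 * (16 * (A * (K + 1) + 1)) = 16 * (ε2 * (A * (K + 1))) + 16 * ε2 := by
        ring
      linarith

/-- the small exponent -/
theorem exp_small {c M m Λ : ℕ} {δ₀ : ℝ} (hδ : 0 < δ₀)
    (hδb : δ₀ * (16 * (c * (M + 1) + 1)) ≤ 1) (hmΛ : (m : ℝ) ≤ δ₀ * (2 * Λ)) :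
    m ≤ Λ ∧ ((c * (M + 1) : ℕ) : ℝ) * m ≤ 1 / 8 * Λ ∧ c * ((M + 1) * m) ≤ Λ := by
  have hcM : (0 : ℝ) ≤ c * (M + 1) := by positivity
  have hΛ : (0 : ℝ) ≤ Λ := Nat.cast_nonneg _
  have e1 : δ₀ * (16 * (c * (M + 1) + 1)) = (c : ℝ) * (M + 1) * δ₀ * 16 + 16 * δ₀ := by ring
  have e2 : 0 ≤ (c : ℝ) * (M + 1) * δ₀ * 16 := by positivity
  have hδ16 : 16 * δ₀ ≤ 1 := by linarith
  have h2 : (c : ℝ) * (M + 1) * δ₀ * 16 ≤ 1 := by linarith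
  have h1 : (c : ℝ) * (M + 1) * m ≤ (c : ℝ) * (M + 1) * (δ₀ * (2 * Λ)) :=
    mul_le_mul_of_nonneg_left hmΛ hcM
  have h3 : (c : ℝ) * (M + 1) * (δ₀ * (2 * Λ)) = (c : ℝ) * (M + 1) * δ₀ * 16 * (Λ / 8) := by
    ring
  have h4 : (c : ℝ) * (M + 1) * δ₀ * 16 * (Λ / 8) ≤ 1 * (Λ / 8) :=
    mul_le_mul_of_nonneg_right h2 (by positivity)
  have h5 : (c : ℝ) * (M + 1) * m ≤ 1 / 8 * Λ := by linarith
  refine ⟨?_, ?_, ?_⟩
  · have : (m : ℝ) ≤ Λ := by nlinarith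
    exact_mod_cast this
  · push_cast
    exact h5
  · have h6 : ((c * ((M + 1) * m) : ℕ) : ℝ) ≤ Λ := by
      push_cast
      calc (c : ℝ) * ((M + 1) * m) = c * (M + 1) * m := by ring
        _ ≤ 1 / 8 * Λ := h5
        _ ≤ Λ := by linarith
    exact_mod_cast h6

theorem choose_eps {D ε' : ℝ} (hD : 0 < D) (hε' : 0 < ε') :
    ∃ se : ℝ, 0 < se ∧ se ≤ 1 ∧ se * D ≤ ε' := by
  refine ⟨min 1 (ε' / D), lt_min one_pos (by positivity), min_le_left _ _, ?_⟩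
  have := min_le_right 1 (ε' / D)
  rwa [le_div_iff₀ hD] at this

/-- **the numeric theorem** : choice of the parameters and total error of the micro part.
`N` = number of good base levels, `M` = bound of the runs, `J` = forced r-steps, `c` = the constant of
the exponent, `A` = any larger constant, `ρ = A N (n+1)^3 / 2^κ`. -/
theorem params (c : ℕ) {A : ℝ} (hA : 1 ≤ A) (K M : ℕ) {lam ε' : ℝ} (hl : 0 < lam)
    (hε' : 0 < ε') : ∃ ε : ℝ, 0 < ε ∧ ε ≤ 1 ∧ ∀ (J : ℕ) (δ₁ : ℝ), 0 < δ₁ → ∃ δ₀ : ℝ, 0 < δ₀ ∧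
    ∀ m n h q b1 b2 N : ℕ, (n : ℝ) * m ≤ (K + 1) * h → q ≤ K * h → 1 ≤ δ₀ * m →
      (m : ℝ) ≤ δ₀ * Real.logb 2 h → Real.sqrt h ≤ b1 → δ₁ * h ≤ b2 → (b2 : ℝ) ≤ ε * h →
      lam * b2 ≤ m * N → (N : ℝ) ≤ h →
      ∃ (κ g p L1 K0 β : ℕ) (ρ : ℝ), 1 ≤ m ∧ 2 ≤ h ∧ 1 ≤ N ∧ g = (M + 1) * m ∧ c * g ≤ p ∧
        1 ≤ L1 ∧ 1 ≤ K0 ∧ 3 * κ + p ≤ K0 * m ∧ 3 * κ + p ≤ β * m ∧ 3 * κ + m + p ≤ b1 ∧
        ρ = A * N * (n + 1) ^ 3 / 2 ^ κ ∧ 0 ≤ ρ ∧ ρ ≤ 1 / 2 ∧ ρ * (n + 1) * (h + q + 1) ≤ 1 ∧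
        A * (m * (((n / L1 + 1 : ℕ) : ℝ) * (K0 * (M + J + 2)) + L1)) +
          (A * (ε * (n * m)) + A * b2 + A * (n * m) * Real.sqrt ε) + A + A * n +
          A * (n * m) * ρ +
          A * (2 : ℝ) ^ (c * g) * (Real.sqrt (n * (L1 * (p * Real.log 2))) +
            n * Real.sqrt (β * (L1 * m * Real.log 2) / N) + n * ρ ^ (1 / 4 : ℝ)) ≤ ε' * h := by
  have hA0 : 0 < A := by linarith
  obtain ⟨D, hD⟩ : ∃ D : ℝ, D = A * (2 * (K + 1) + 1) := ⟨_, rfl⟩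
  have hD0 : 0 < D := by
    rw [hD]
    positivity
  obtain ⟨se, hse0, hse1, hse2⟩ := choose_eps (D := 4 * D) (by positivity) hε'
  refine ⟨se ^ 2, by positivity, by nlinarith, fun J δ₁ hδ₁ => ?_⟩
  obtain ⟨ε2, hε20, hε21, hε22⟩ :=
    choose_eps (D := 16 * (A * (K + 1) + 1)) (ε' := min ε' 1) (by positivity)
      (lt_min hε' one_pos)
  have hε23 : ε2 ≤ 1 / 2 := by
    have h1 := hε22.trans (min_le_right _ _)
    have h2 : 0 ≤ ε2 * (A * (K + 1)) := by positivity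
    have h3 : ε2 * (16 * (A * (K + 1) + 1)) = 16 * (ε2 * (A * (K + 1))) + 16 * ε2 := by ring
    linarith
  replace hε22 := hε22.trans (min_le_left _ _)
  have ev := (err_lost K M J (ε' := ε' / (8 * A)) (by positivity)).and
    ((rho_le K hA0.le hε20).and ((sqrt_le K hl hδ₁ (ε := ε' / (16 * A)) (by positivity)).and
    ((const_le A (ε := ε' / 16) (by positivity)).and ((log_le_sqrt 100).and
    ((eventually_ge_atTop 2).and ((eventually_ge_atTop ((K + 2) ^ 2)).and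
    (const_le (A * (K + 1)) (ε := ε' / 16) (by positivity))))))))
  obtain ⟨H0, hH0⟩ := eventually_atTop.1 ev
  clear ev
  obtain ⟨δa, hδa0, -, hδa⟩ := choose_eps (D := (H0 : ℝ) + 1) (by positivity) one_pos
  obtain ⟨δb, hδb0, -, hδb⟩ :=
    choose_eps (D := 16 * ((c : ℝ) * (M + 1) + 1)) (by positivity) one_pos
  obtain ⟨δc, hδc0, -, hδc⟩ :=
    choose_eps (D := 8 * (A * (K + 1) + 1)) (by positivity) hε'
  obtain ⟨δ₀, hδ₀, h1, h2, h3⟩ : ∃ δ₀ : ℝ, 0 < δ₀ ∧ δ₀ ≤ δa ∧ δ₀ ≤ δb ∧ δ₀ ≤ δc :=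
    ⟨min δa (min δb δc), lt_min hδa0 (lt_min hδb0 hδc0), min_le_left _ _,
      (min_le_right _ _).trans (min_le_left _ _), (min_le_right _ _).trans (min_le_right _ _)⟩
  replace hδa : δ₀ * (H0 + 1) ≤ 1 :=
    (mul_le_mul_of_nonneg_right h1 (by positivity)).trans hδa
  replace hδb : δ₀ * (16 * (c * (M + 1) + 1)) ≤ 1 :=
    (mul_le_mul_of_nonneg_right h2 (by positivity)).trans hδb
  replace hδc : δ₀ * (8 * (A * (K + 1) + 1)) ≤ ε' :=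
    (mul_le_mul_of_nonneg_right h3 (by positivity)).trans hδc
  clear h1 h2 h3
  refine ⟨δ₀, hδ₀, fun m n h q b1 b2 N hn hq hm hm' hb1 hb2 hb2' hN hN' => ?_⟩
  obtain ⟨f1, f3, f4, f5, f6, f7, f8, f9⟩ := hH0 h (large H0 hδ₀ hδa hm hm')
  clear hH0
  -- basic facts
  have hm1 : 1 ≤ m := by
    by_contra hc
    have : m = 0 := by omega
    rw [this] at hm
    norm_num at hm
  have hh : (0 : ℝ) < h := by
    have : 0 < h := by omega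
    exact_mod_cast this
  have hN1 : 1 ≤ N := by
    by_contra hc
    have h0 : N = 0 := by omega
    rw [h0] at hN
    have h1 : 0 < lam * b2 := mul_pos hl (lt_of_lt_of_le (by positivity) hb2)
    simp only [Nat.cast_zero, mul_zero] at hN
    linarith
  have hlogb := logb_le h
  obtain ⟨Λ, hΛ⟩ : ∃ Λ : ℕ, Λ = Nat.log 2 h := ⟨_, rfl⟩
  have hΛ1 : 1 ≤ Λ := by
    rw [hΛ]
    exact Nat.le_log_of_pow_le (by norm_num) (by simpa using f7)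
  rw [← hΛ] at hlogb
  have hΛ1' : (1 : ℝ) ≤ Λ := by exact_mod_cast hΛ1
  have hmΛ : (m : ℝ) ≤ δ₀ * (2 * Λ) :=
    hm'.trans (mul_le_mul_of_nonneg_left (by linarith) hδ₀.le)
  obtain ⟨k1, k2, k3⟩ := exp_small hδ₀ hδb hmΛ
  have hG : (2 : ℝ) ^ (c * ((M + 1) * m)) ≤ (h : ℝ) ^ (1 / 8 : ℝ) := by
    have h1 : c * ((M + 1) * m) = c * (M + 1) * m := by ring
    rw [h1]
    rw [hΛ] at k2
    exact two_pow_le (by omega) k2
  obtain ⟨q1, q2, q3, q4, q5, q6, q7⟩ := pars (c := c) (M := M) hm1 k1 hΛ1 k3 rfl rfl rfl rfl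
  obtain ⟨κ, hκ⟩ : ∃ κ, κ = 16 * (Λ + 1) := ⟨_, rfl⟩
  rw [← hκ] at q3 q4 q5 q7
  obtain ⟨L1, hL1⟩ : ∃ L1, L1 = Λ ^ 2 / m + 1 := ⟨_, rfl⟩
  rw [← hL1] at q1 q2 q6
  obtain ⟨K0, hK0⟩ : ∃ K0, K0 = (3 * κ + c * ((M + 1) * m)) / m + 1 := ⟨_, rfl⟩
  rw [← hK0] at q3 q4 q7
  have q1' : ((Nat.log 2 h : ℕ) : ℝ) ^ 2 ≤ (L1 : ℝ) * m := by
    rw [← hΛ]
    exact_mod_cast q1
  have q2' : (L1 : ℝ) * m ≤ 3 * ((Nat.log 2 h : ℕ) : ℝ) ^ 2 := by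
    rw [← hΛ]
    exact_mod_cast q2
  have q4' : (K0 : ℝ) * m ≤ 100 * (Nat.log 2 h : ℕ) := by
    rw [← hΛ]
    exact_mod_cast q4
  have hκ' : κ = 16 * (Nat.log 2 h + 1) := by rw [hκ, hΛ]
  have f3' := f3 m n N hm1 hn hN'
  rw [← hκ'] at f3'
  obtain ⟨ρ, hρ⟩ : ∃ ρ : ℝ, ρ = A * N * (n + 1) ^ 3 / 2 ^ κ := ⟨_, rfl⟩
  have hρ0 : 0 ≤ ρ := by
    rw [hρ]
    positivity
  rw [← hρ] at f3'
  obtain ⟨r1, r2, r3⟩ := rho_facts hρ0 f3' hε23 (by omega) (by exact_mod_cast f8) hm1 hn hq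
  refine ⟨κ, (M + 1) * m, c * ((M + 1) * m), L1, K0, K0, ρ, hm1, f7, hN1, rfl, le_rfl, q6, q7,
    q3, q3, ?_, hρ, hρ0, r1.trans hε23, r2, ?_⟩
  · have h1 : ((3 * κ + m + c * ((M + 1) * m) : ℕ) : ℝ) ≤ b1 := by
      refine le_trans ?_ (f6.trans hb1)
      rw [← hΛ]
      exact_mod_cast q5
    exact_mod_cast h1
  have g1 : A * (m * (((n / L1 + 1 : ℕ) : ℝ) * (K0 * (M + J + 2)) + L1)) ≤ ε' / 8 * h := by
    have h1 := mul_le_mul_of_nonneg_left (f1 m n L1 K0 q6 q1' q2' q4' hn) hA0.le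
    refine h1.trans (le_of_eq ?_)
    field_simp
  have g2 := err_eps hA0.le hse0 hse1 hD hse2 hn hb2'
  have g3 := err_round hA0.le hδ₀ hδc hm hn
  have g4 := err_amb hA0.le hε20 hε22 r1 hn
  have g5 : A * (2 : ℝ) ^ (c * ((M + 1) * m)) *
      (Real.sqrt (n * (L1 * (((c * ((M + 1) * m) : ℕ) : ℝ) * Real.log 2))) +
      n * Real.sqrt (K0 * (L1 * m * Real.log 2) / N)) ≤ ε' / 16 * h := by
    have h0 := f4 m n N L1 (c * ((M + 1) * m)) K0 b2 ((2 : ℝ) ^ (c * ((M + 1) * m))) hm1 hn hN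
      hb2 q2' (by
        rw [← hΛ]
        have h1 : ((c * ((M + 1) * m) : ℕ) : ℝ) ≤ Λ := by exact_mod_cast k3
        linarith) q4' (by positivity) hG
    have h1 := mul_le_mul_of_nonneg_left h0 hA0.le
    rw [← mul_assoc] at h1
    refine h1.trans (le_of_eq ?_)
    field_simp
  have g6 : A * (2 : ℝ) ^ (c * ((M + 1) * m)) * (n * ρ ^ (1 / 4 : ℝ)) ≤ ε' / 16 * h := by
    have h1 : (2 : ℝ) ^ (c * ((M + 1) * m)) * (n * ρ ^ (1 / 4 : ℝ)) ≤ K + 1 :=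
      (mul_le_mul_of_nonneg_right hG (by positivity)).trans r3
    calc A * (2 : ℝ) ^ (c * ((M + 1) * m)) * (n * ρ ^ (1 / 4 : ℝ))
        = A * ((2 : ℝ) ^ (c * ((M + 1) * m)) * (n * ρ ^ (1 / 4 : ℝ))) := by ring
      _ ≤ A * (K + 1) := mul_le_mul_of_nonneg_left h1 hA0.le
      _ ≤ ε' / 16 * h := f9
  rw [Real.sqrt_sq hse0.le]
  have h0 : 0 < ε' * h := by positivity
  rw [mul_add (A * (2 : ℝ) ^ (c * ((M + 1) * m)))]
  linarith

end Vale.Agent.P127.U.Mic.Num
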