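import Vale.Agent.P127.U.CellD
import Vale.Agent.P127.U.Mic.Colp

/-!
# P127 / U / Mic : the micro part, exact statements (helper652)

One finite law `P`, 23's deterministic path `C : CellD.Pth Ω` (line `C.ln`, time `C.t`, slope `C.v`, levels
`C.a i`, `C.r i`), blocks of `m` bits.  See notes 13137, 13245.

* `box C s q` : the label of shape `(s, s + q)` at time level `s` (`W` for `(h, q)`, `S` for `(a_0, r_0)`).
* `Sat` : saturation of the block of level `j` of the position read in the frame of the late step `i'`.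
* `Hyp` : hypotheses of the micro part; `PMic` : its conclusion.
-/

set_option autoImplicit false

namespace Vale.Agent.P127.U.Mic

open Finset Vale.Agent.P127 Vale.Agent.P127.Stk Vale.Agent.P127.U.CellD

/-- other name of `colp` -/
noncomputable def coll {Ω : Type} [Fintype Ω] {S T : Type*} (P : Law Ω) (X : Ω → S) (Z : Ω → T) : ℝ :=
  P.ex fun ω => P.pr (fun ω => (X ω, Z ω)) (X ω, Z ω) / P.pr Z (Z ω)

/-- the label of level `s` and shape `(s, s + q)` : time, slope, the two components of the direction,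
the two components of the position -/
noncomputable def box {Ω : Type} (C : Pth Ω) (s q : ℕ) (ω : Ω) : ℤ × ℤ × ℤ × ℤ × ℤ × ℤ :=
  (fl1 s (C.t ω), fl1 q (C.v ω), fl1 0 (C.y1 ω), fl1 q (C.y2 ω - rd q (C.v ω) * C.y1 ω),
    fl1 s (C.x1 ω + rd s (C.t ω) * C.y1 ω),
    fl1 (s + q) (C.x2 ω + rd s (C.t ω) * C.y2 ω - rd q (C.v ω) * (C.x1 ω + rd s (C.t ω) * C.y1 ω)))

/-- everything is normalised -/
def Nrm {Ω : Type} [Fintype Ω] (P : Law Ω) (C : Pth Ω) : Prop :=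
  ∀ ω, 0 < P.w ω → |C.x1 ω| ≤ 1 ∧ |C.x2 ω| ≤ 1 ∧ |C.y1 ω| ≤ 1 ∧ |C.y2 ω| ≤ 1 ∧
    0 ≤ C.t ω ∧ C.t ω ≤ 1 ∧ |C.v ω| ≤ 1

/-- the position in the frame of the step `i'`, level `(p, q)` -/
noncomputable def fx {Ω : Type} (C : Pth Ω) (i' p q : ℕ) (ω : Ω) : ℤ × ℤ :=
  (fl1 p (C.X1 i' ω), fl1 q (C.F i' ω))

/-- **saturation** of the block of level `j` of the position, read in the frame of the step `i'` -/
def Sat {Ω : Type} [Fintype Ω] (P : Law Ω) (C : Pth Ω) (m b j i' : ℕ) (err : ℝ) : Prop :=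
  2 * m * Real.log 2 - err ≤
    hc P (fx C i' (C.a j + b) (C.a j + C.r j + b))
      (fun ω => (fx C i' (C.a j + b - m) (C.a j + C.r j + b - m) ω, C.J j b ω, C.T i' ω))

/-- **PSat** : the concrete M-step, one pair `(j, i')` and one base level `b`; `g ≥ m` digits of
nondegeneracy, `p ≥ c g` digits of precision, `e` the digits of `y1` down to `b + p` -/
def PSat : Prop := ∃ c : ℕ, ∀ {Ω : Type} [Fintype Ω] (P : Law Ω) (C : Pth Ω)
    (m b b' g p j i' : ℕ) (ι₁ ι₂ : ℝ),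
    1 ≤ m → m ≤ g → c * g ≤ p → j ≤ i' → 2 * C.κ + m + p ≤ b → b + 2 * C.κ + p ≤ b' →
    C.a j + C.κ + p ≤ C.a i' → C.r j + C.κ + p ≤ C.r i' →
    mi P (fun ω => fl1 (b + p) (C.y1 ω)) (C.J i' b) (C.J j b) ≤ ι₁ →
    mi P (C.T i') (C.J j b') (C.J j b) ≤ ι₂ →
    Sat P C m b j i'
      (c + c * m * (colp P (fun ω => fl1 (C.a j + g) (C.t ω)) (C.J j b) +
        colp P (fun ω => fl1 (C.r j + g) (C.v ω)) (C.J j b) +
        colp P (fun ω => fl1 (b + g) (C.y1 ω)) (C.J j b)) +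
        (2 : ℝ) ^ (c * g) * (Real.sqrt ι₁ + Real.sqrt ι₂))

/-- the path advances by blocks of `m` bits -/
def Blk {Ω : Type} (C : Pth Ω) (m n : ℕ) : Prop := ∀ i < n,
  (C.a (i + 1) = C.a i + m ∧ C.r (i + 1) = C.r i) ∨ (C.a (i + 1) = C.a i ∧ C.r (i + 1) = C.r i + m)

/-- **PCount** : one window `[i, i']`, counted steps `i < j ≤ k` (in the concrete form; the abstract form
is `Mic/CountW.lean`) -/
def PCount : Prop := ∀ {Ω : Type} [Fintype Ω] (P : Law Ω) (C : Pth Ω) (m b i k i' : ℕ) (err : ℕ → ℝ),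
    Blk C m i' → 1 ≤ m → i ≤ k → k ≤ i' → 2 * C.κ + m ≤ b →
    C.a k + C.κ ≤ C.a i' → C.a k + C.r k + 2 * C.κ ≤ C.a i' + C.r i' →
    (∀ j, i < j → j ≤ k → Sat P C m b j i' (err j)) →
    (2 * ((C.a k : ℝ) - C.a i) + ((C.r k : ℝ) - C.r i)) * Real.log 2 -
        (∑ j ∈ Ioc i k, err j) - 2 * Real.log 2 * ((Ioc i k).card) ≤
      mi P C.ln (C.J i' b) (C.J i b)

/-- translation of `(x1, x2, y2)` -/
def trn {Ω : Type} (C : Pth Ω) (o1 o2 o3 : ℝ) : Pth Ω :=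
  { C with x1 := fun ω => C.x1 ω + o1, x2 := fun ω => C.x2 ω + o2, y2 := fun ω => C.y2 ω + o3 }

/-- the probability that the cell `J j b` is not a function of `(box h q, y1 to b)` -/
noncomputable def amb {Ω : Type} [Fintype Ω] (P : Law Ω) (C : Pth Ω) (h q b j : ℕ) : ℝ := by
  classical
  exact P.ex fun ω => if (∃ ω', 0 < P.w ω' ∧ box C h q ω' = box C h q ω ∧
      fl1 b (C.y1 ω') = fl1 b (C.y1 ω) ∧ C.J j b ω' ≠ C.J j b ω) then 1 else 0

/-- **PTrn** : a generic translation makes the ambiguities rare (no carry is needed in the M-step, see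
572's mstepC) -/
def PTrn : Prop := ∃ c : ℕ, ∀ {Ω : Type} [Fintype Ω] (P : Law Ω) (C : Pth Ω) (n h q : ℕ) (B : Finset ℕ),
    (∀ b ∈ B, C.a n + b ≤ h ∧ C.r n + b ≤ q ∧ 2 * C.κ ≤ b) →
    ∃ o1 o2 o3 : ℝ, 0 ≤ o1 ∧ o1 ≤ 1 ∧ 0 ≤ o2 ∧ o2 ≤ 1 ∧ 0 ≤ o3 ∧ o3 ≤ 1 ∧
      ∀ b ∈ B, ∀ j ≤ n, amb P (trn C o1 o2 o3) h q b j ≤ c * B.card * (n + 1) / 2 ^ C.κ

/-- **PEnds** : the ends of the chain -/
def PEnds : Prop := ∃ c : ℝ, ∀ {Ω : Type} [Fintype Ω] (P : Law Ω) (C : Pth Ω)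
    (n h q b : ℕ) (o1 o2 o3 : ℝ), 0 ≤ o1 → o1 ≤ 1 → 0 ≤ o2 → o2 ≤ 1 → 0 ≤ o3 → o3 ≤ 1 →
    C.a n + b ≤ h → C.r n + b ≤ q → 2 * C.κ ≤ b →
    amb P (trn C o1 o2 o3) h q b n * (n + 1) ≤ 1 →
    mi P C.ln ((trn C o1 o2 o3).J n b) ((trn C o1 o2 o3).J 0 b) - b * Real.log 2 - c ≤
      mi P C.ln (box C h q) (box C (C.a 0) (C.r 0))

/-- **hypotheses of the micro part** for one finite law -/
structure Hyp {Ω : Type} [Fintype Ω] (P : Law Ω) (C : Pth Ω) (m n h q M J b1 b2 : ℕ) (lam ε : ℝ)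
    (B : Finset ℕ) : Prop where
  nrm : Nrm P C
  blk : Blk C m n
  /-- forced r-steps -/
  forced : ∀ i, i + J ≤ n → C.r i < C.r (i + J)
  /-- time blocks at a-steps do not collide -/
  ct : ∑ i ∈ (range n).filter (fun i => C.a i < C.a (i + 1)),
    colp P (fun ω => fl1 (C.a i + m) (C.t ω)) (fun ω => (C.ln ω, C.T i ω)) ≤ ε * n
  /-- slope blocks at a-steps do not collide -/
  cv : ∑ i ∈ (range n).filter (fun i => C.a i < C.a (i + 1)),
    colp P (fun ω => fl1 (C.r i + m) (C.v ω)) (fun ω => (C.ln ω, C.T i ω)) ≤ ε * n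
  /-- most steps are followed by an a-step within `M` steps -/
  runs : (((range n).filter fun i => C.a (i + M) = C.a i).card : ℝ) ≤ ε * n
  /-- the base levels `b = m k`, `k ∈ B` -/
  hB : ∀ k ∈ B, b1 ≤ m * k ∧ m * k ≤ b2
  cardB : lam * b2 ≤ m * B.card
  cy : ∀ k ∈ B, colp P (fun ω => fl1 (m * k + m) (C.y1 ω))
    (fun ω => (box C h q ω, fl1 (m * k) (C.y1 ω))) ≤ ε
  ends : C.a n + b2 + m ≤ h ∧ C.r n + b2 + m ≤ q

/-- **PMic** = (SAT) : conclusion of the micro part.  `m` between a large constant and a small multiple of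
`log2 h`; base levels `√h ≤ b1`, `δ₁ h ≤ b2 ≤ ε h`.  (`lam` is the density of the good base levels.) -/
def PMic : Prop := ∀ (K M : ℕ) (lam ε' : ℝ), 0 < lam → 0 < ε' → ∃ ε : ℝ, 0 < ε ∧
    ∀ (J : ℕ) (δ₁ : ℝ), 0 < δ₁ → ∃ δ₀ : ℝ, 0 < δ₀ ∧
    ∀ {Ω : Type} [Fintype Ω] (P : Law Ω) (C : Pth Ω) (m n h q b1 b2 : ℕ) (B : Finset ℕ),
      Hyp P C m n h q M J b1 b2 lam ε B →
      q ≤ K * h → 1 ≤ δ₀ * m → (m : ℝ) ≤ δ₀ * Real.logb 2 h →
      Real.sqrt h ≤ b1 → δ₁ * h ≤ b2 → (b2 : ℝ) ≤ ε * h →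
      (2 * ((C.a n : ℝ) - C.a 0) + ((C.r n : ℝ) - C.r 0)) * Real.log 2 - ε' * h ≤
        mi P C.ln (box C h q) (box C (C.a 0) (C.r 0))

end Vale.Agent.P127.U.Mic
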