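import Vale.Agent.P127.U.Mic.Props
import Vale.Agent.P127.U.Mic.CountW

/-!
# P127 / U / Mic : COUNT(i), exact form of the Props (helper518)

* `dat` : the cells `J · b` of `CellD` satisfy `Dat`.
* `Blk.a_le`, `Blk.sum_eq` : levels of a path which advances by blocks of `m` bits.
* `fx_known`, `fx_nest` : the numbers read in the frame of the late step.
* `sat_step` : from the square block to the block of one step (error free).
* `count_win` : COUNT(i) without rounding term; `pCount : PCount`.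
-/

set_option autoImplicit false

namespace Vale.Agent.P127.U.Mic

open Finset Vale.Agent.P127 Vale.Agent.P127.Stk Vale.Agent.P127.U.CellD

variable {Ω : Type} [Fintype Ω] {P : Law Ω} {C : Pth Ω} {m : ℕ}

/-- the cells `J · b` of the path -/
theorem dat (P : Law Ω) (C : Pth Ω) (b : ℕ) :
    Dat P C.ln (fun j => C.T j) (fun j => C.J j b) where
  TT := fun h _ _ _ _ e => Pth.T_mono h e
  CC := fun h _ _ _ _ e => Pth.J_mono h le_rfl e
  TC := fun _ _ _ _ _ e => Pth.J_T e
  Cl := fun _ _ _ _ _ e => by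
    simp only [Prod.mk.injEq] at e
    exact Pth.J_congr e.1 e.2

omit [Fintype Ω] in
/-- the sum of the two levels -/
theorem Blk.sum_eq {n : ℕ} (h : Blk C m n) {i : ℕ} (hi : i ≤ n) :
    C.a i + C.r i = C.a 0 + C.r 0 + m * i := by
  induction i with
  | zero => simp
  | succ i ih =>
    have h1 := ih (by omega)
    have h2 : m * (i + 1) = m * i + m := by ring
    rcases h i (by omega) with ⟨e1, e2⟩ | ⟨e1, e2⟩ <;> omega

omit [Fintype Ω] in
theorem Blk.mono {n n' : ℕ} (h : Blk C m n) (hn : n' ≤ n) : Blk C m n' :=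
  fun i hi => h i (lt_of_lt_of_le hi hn)

/-- the numbers read in the frame of the late step are known from its cell -/
theorem fx_known {b p q i' : ℕ} (hp : p + C.κ ≤ C.a i' + b)
    (hq : q + 2 * C.κ ≤ C.a i' + C.r i' + b) : Fn P (fx C i' p q) (C.J i' b) := by
  intro ω ω' _ _ hJ
  have hb := Pth.J_iff.1 hJ i' le_rfl
  unfold Pth.base at hb
  simp only [Prod.mk.injEq] at hb
  obtain ⟨-, -, -, h3, h4⟩ := hb
  unfold fx
  exact Prod.ext (fl1_fl1 (by omega) h3) (fl1_fl1 (by omega) h4)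

theorem fx_nest (P : Law Ω) (C : Pth Ω) (i' : ℕ) {p q p' q' : ℕ} (hp : p ≤ p') (hq : q ≤ q') :
    Fn P (fx C i' p q) (fx C i' p' q') := by
  intro ω ω' _ _ e
  unfold fx at *
  simp only [Prod.mk.injEq] at e ⊢
  exact ⟨fl1_fl1 hp e.1, fl1_fl1 hq e.2⟩

/-- from the square block to the block of one step -/
theorem sat_step {b j i' : ℕ} {err : ℝ} (hb : m ≤ b)
    (hj : (C.a (j + 1) = C.a j + m ∧ C.r (j + 1) = C.r j) ∨
      (C.a (j + 1) = C.a j ∧ C.r (j + 1) = C.r j + m))
    (h : Sat P C m b (j + 1) i' err) :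
    (2 * ((C.a (j + 1) : ℝ) - C.a j) + ((C.r (j + 1) : ℝ) - C.r j)) * Real.log 2 - err ≤
      hc P (fx C i' (C.a (j + 1) + b) (C.a (j + 1) + C.r (j + 1) + b))
        (fun ω => (fx C i' (C.a j + b) (C.a j + C.r j + b) ω, C.J j b ω, C.T i' ω)) := by
  unfold Sat at h
  rcases hj with ⟨e1, e2⟩ | ⟨e1, e2⟩
  · rw [e1, e2] at h ⊢
    have e3 : C.a j + m + b - m = C.a j + b := by omega
    have e4 : C.a j + m + C.r j + b - m = C.a j + C.r j + b := by omega
    rw [e3, e4] at h
    refine le_trans (le_of_eq ?_) (h.trans (hc_mono_right P _ ?_))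
    · push_cast
      ring
    · intro ω ω' _ _ e
      simp only [Prod.mk.injEq] at e ⊢
      exact ⟨e.1, Pth.J_mono (Nat.le_succ j) le_rfl e.2.1, e.2.2⟩
  · rw [e1, e2] at h ⊢
    have e3 : C.a j + (C.r j + m) + b - m = C.a j + C.r j + b := by omega
    rw [e3] at h
    set A := C.a j with hA
    set R := C.r j with hR
    have h1 := hc_le_add' P (fx C i' (A + b) (A + (R + m) + b)) (fun ω => fl1 (A + b) (C.X1 i' ω))
      (fun ω => (fx C i' (A + b - m) (A + R + b) ω, C.J (j + 1) b ω, C.T i' ω))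
    have h2 : hc P (fun ω => fl1 (A + b) (C.X1 i' ω))
        (fun ω => (fx C i' (A + b - m) (A + R + b) ω, C.J (j + 1) b ω, C.T i' ω)) ≤
        (m : ℝ) * Real.log 2 := by
      have h3 := hc_fl1_digits_le P (s := A + b - m) (s' := A + b) (by omega) (C.X1 i')
        (fun ω => (fl1 (A + R + b) (C.F i' ω), C.J (j + 1) b ω, C.T i' ω))
      have e4 : A + b - (A + b - m) = m := by omega
      rw [e4] at h3
      refine le_trans (hc_mono_right P _ ?_) h3
      intro ω ω' _ _ e
      unfold fx at e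
      simp only [Prod.mk.injEq] at e ⊢
      exact ⟨e.1.1, e.1.2, e.2.1, e.2.2⟩
    have h4 : hc P (fx C i' (A + b) (A + (R + m) + b))
        (fun ω => (fl1 (A + b) (C.X1 i' ω),
          (fx C i' (A + b - m) (A + R + b) ω, C.J (j + 1) b ω, C.T i' ω))) ≤
        hc P (fx C i' (A + b) (A + (R + m) + b))
          (fun ω => (fx C i' (A + b) (A + R + b) ω, C.J j b ω, C.T i' ω)) := by
      refine hc_mono_right P _ ?_
      intro ω ω' _ _ e
      unfold fx at e ⊢
      simp only [Prod.mk.injEq] at e ⊢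
      exact ⟨⟨e.1, e.2.1.2⟩, Pth.J_mono (Nat.le_succ j) le_rfl e.2.2.1, e.2.2.2⟩
    push_cast
    linarith

/-- **COUNT(i)**, without rounding term -/
theorem count_win {b i k i' : ℕ} {err : ℕ → ℝ} (hB : Blk C m k) (hik : i ≤ k) (hki : k ≤ i')
    (hb : m ≤ b) (h1 : C.a k + C.κ ≤ C.a i')
    (h2 : C.a k + C.r k + 2 * C.κ ≤ C.a i' + C.r i')
    (hs : ∀ j, i < j → j ≤ k → Sat P C m b j i' (err j)) :
    (2 * ((C.a k : ℝ) - C.a i) + ((C.r k : ℝ) - C.r i)) * Real.log 2 -
        (∑ j ∈ Ioc i k, err j) ≤ mi P C.ln (C.J i' b) (C.J i b) := by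
  have hc := (dat P C b).count hik hki
    (fun j => fx C i' (C.a j + b) (C.a j + C.r j + b))
    (fun j _ _ => fx_nest P C i' (Nat.add_le_add_right (C.ha (Nat.le_succ j)) b)
      (Nat.add_le_add_right (Nat.add_le_add (C.ha (Nat.le_succ j)) (C.hr (Nat.le_succ j))) b))
    (fun ω ω' p p' e => fx_known (b := b) (p := C.a k + b) (q := C.a k + C.r k + b)
      (by omega) (by omega) ω ω' p p' (by
      simp only [Prod.mk.injEq] at e
      exact e.2))
  refine le_trans ?_ hc
  have h3 : ∀ j ∈ Finset.Ico i k,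
      (2 * ((C.a (j + 1) : ℝ) - C.a j) + ((C.r (j + 1) : ℝ) - C.r j)) * Real.log 2 -
        err (j + 1) ≤
      Stk.hc P (fx C i' (C.a (j + 1) + b) (C.a (j + 1) + C.r (j + 1) + b))
        (fun ω => (fx C i' (C.a j + b) (C.a j + C.r j + b) ω, C.J j b ω, C.T i' ω)) := by
    intro j hj
    rw [Finset.mem_Ico] at hj
    exact sat_step hb (hB j hj.2) (hs (j + 1) (by omega) (by omega))
  refine le_trans (le_of_eq ?_) (Finset.sum_le_sum h3)
  obtain ⟨n, rfl⟩ := Nat.exists_eq_add_of_le hik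
  rw [Finset.sum_sub_distrib]
  have h5 : ∑ j ∈ Ioc i (i + n), err j = ∑ j ∈ Finset.Ico i (i + n), err (j + 1) := by
    rw [Finset.sum_Ico_add' err i (i + n) 1]
    refine Finset.sum_congr ?_ fun _ _ => rfl
    ext j
    simp only [Finset.mem_Ioc, Finset.mem_Ico]
    omega
  rw [h5]
  congr 1
  rw [Finset.sum_Ico_eq_sum_range, Nat.add_sub_cancel_left]
  clear hc h3 h5 hs h1 h2 hki hik hB
  induction n with
  | zero => simp
  | succ n ih =>
    rw [Finset.sum_range_succ, ← ih, ← Nat.add_assoc]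
    ring

/-- **COUNT(i)** in the form of the Props -/
theorem pCount : PCount := by
  intro Ω _ P C m b i k i' err hd _ hik hki hb h1 h2 hs
  have h := count_win (P := P) (hd.mono hki) hik hki (by omega) h1 h2 hs
  have h3 : 0 ≤ 2 * Real.log 2 * ((Ioc i k).card : ℝ) := by
    have := Real.log_nonneg (x := 2) (by norm_num)
    positivity
  linarith

end Vale.Agent.P127.U.Mic
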