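import Vale.Agent.P127.U.Mic.Props

/-!
# P127 / U / Mic : NUM, bookkeeping of the windows of a path (helper527)

Word part (`w : ℕ → Bool`, `true` = a-step, `na w i`, `nr w i` prefix counts):

* `BS w M i` : the `M` steps from `i` on are r-steps.
* `nx w i` : the next a-step, `sum_nx_le` : every a-step is the next a-step of at most `M` steps.
* `exists_k` : in a window `[i, i']` there is `k` such that the levels of `k` are `K` blocks above
  those of `i'` and few steps are lost.
* `exists_ks` : the same for all windows `σ v = min (v L1) n`, `v < n / L1 + 1`.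

Path part (conventions of `Mic/Props.lean` v2) : `wd C`, `Blk.na_eq`, `Blk.nr_eq`, `windows`,
`next_a`, `sum_next_a`.
-/

set_option autoImplicit false

namespace Vale.Agent.P127.U.Mic.Num

open Finset Vale.Agent.P127 Vale.Agent.P127.Stk Vale.Agent.P127.U.CellD

variable {w : ℕ → Bool} {M n : ℕ}

/-! ### prefix counts -/

/-- number of a-steps before `i` -/
def na (w : ℕ → Bool) (i : ℕ) : ℕ := ((range i).filter fun j => w j = true).card

/-- number of r-steps before `i` -/
def nr (w : ℕ → Bool) (i : ℕ) : ℕ := ((range i).filter fun j => w j = false).card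

theorem na_zero : na w 0 = 0 := by simp [na]

theorem nr_zero : nr w 0 = 0 := by simp [nr]

theorem na_succ (i : ℕ) : na w (i + 1) = na w i + if w i = true then 1 else 0 := by
  unfold na
  rw [range_add_one, filter_insert]
  split_ifs with h
  · rw [card_insert_of_notMem (by simp)]
  · rfl

theorem nr_succ (i : ℕ) : nr w (i + 1) = nr w i + if w i = false then 1 else 0 := by
  unfold nr
  rw [range_add_one, filter_insert]
  split_ifs with h
  · rw [card_insert_of_notMem (by simp)]
  · rfl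

theorem na_add_nr (i : ℕ) : na w i + nr w i = i := by
  induction i with
  | zero => simp [na_zero, nr_zero]
  | succ i ih =>
    rw [na_succ, nr_succ]
    cases w i <;> simp <;> omega

theorem na_mono {i j : ℕ} (h : i ≤ j) : na w i ≤ na w j := by
  induction j, h using Nat.le_induction with
  | base => exact le_rfl
  | succ j _ ih =>
    rw [na_succ]
    omega

theorem nr_mono {i j : ℕ} (h : i ≤ j) : nr w i ≤ nr w j := by
  induction j, h using Nat.le_induction with
  | base => exact le_rfl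
  | succ j _ ih =>
    rw [nr_succ]
    omega

theorem na_lt_of {i j s : ℕ} (h : i ≤ s) (h' : s < j) (hs : w s = true) : na w i + 1 ≤ na w j := by
  have h1 := na_mono (w := w) h
  have h2 := na_mono (w := w) (Nat.succ_le_of_lt h')
  rw [Nat.succ_eq_add_one, na_succ, hs] at h2
  simp only [if_true] at h2
  omega

theorem nr_lt_of {i j s : ℕ} (h : i ≤ s) (h' : s < j) (hs : w s = false) : nr w i + 1 ≤ nr w j := by
  have h1 := nr_mono (w := w) h
  have h2 := nr_mono (w := w) (Nat.succ_le_of_lt h')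
  rw [Nat.succ_eq_add_one, nr_succ, hs] at h2
  simp only [if_true] at h2
  omega

theorem exists_of_na {i j : ℕ} (hij : i ≤ j) (h : na w i < na w j) :
    ∃ s, i ≤ s ∧ s < j ∧ w s = true := by
  by_contra hc
  push Not at hc
  have : na w j ≤ na w i := by
    clear h
    induction j, hij using Nat.le_induction with
    | base => exact le_rfl
    | succ j hij ih =>
      rw [na_succ]
      have h1 := hc j hij (Nat.lt_succ_self j)
      rw [if_neg h1]
      exact ih fun s h1 h2 => hc s h1 (by omega)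
  omega

/-! ### runs of r-steps -/

/-- the `M` steps from `i` on are r-steps -/
def BS (w : ℕ → Bool) (M i : ℕ) : Prop := ∀ j, i ≤ j → j < i + M → w j = false

open Classical in
/-- number of starts of long runs in `[i, j)` -/
noncomputable def bs (w : ℕ → Bool) (M i j : ℕ) : ℕ := ((Ico i j).filter fun s => BS w M s).card

open Classical in
theorem bs_eq (i j : ℕ) : bs w M i j = ∑ s ∈ Ico i j, if BS w M s then 1 else 0 := by
  unfold bs
  rw [card_filter]

theorem bs_add {i j k : ℕ} (h : i ≤ j) (h' : j ≤ k) : bs w M i j + bs w M j k = bs w M i k := by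
  rw [bs_eq, bs_eq, bs_eq]
  exact sum_Ico_consecutive _ h h'

/-- the next a-step -/
noncomputable def nx (w : ℕ → Bool) (i : ℕ) : ℕ := sInf {j | i ≤ j ∧ w j = true}

theorem nx_spec {i : ℕ} (h : ∃ j, i ≤ j ∧ w j = true) :
    i ≤ nx w i ∧ w (nx w i) = true ∧ ∀ j, i ≤ j → j < nx w i → w j = false := by
  have h1 : nx w i ∈ {j | i ≤ j ∧ w j = true} := Nat.sInf_mem h
  refine ⟨h1.1, h1.2, fun j hj hj' => ?_⟩
  have h2 := Nat.notMem_of_lt_sInf hj'
  simp only [Set.mem_ofPred_eq, not_and, Bool.not_eq_true] at h2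
  exact h2 hj

theorem nx_of_not_BS {i : ℕ} (h : ¬ BS w M i) : i ≤ nx w i ∧ nx w i < i + M ∧
    w (nx w i) = true ∧ ∀ j, i ≤ j → j < nx w i → w j = false := by
  unfold BS at h
  push Not at h
  obtain ⟨j, h1, h2, h3⟩ := h
  have h4 : ∃ j, i ≤ j ∧ w j = true := ⟨j, h1, by simpa using h3⟩
  obtain ⟨g1, g2, g3⟩ := nx_spec h4
  refine ⟨g1, ?_, g2, g3⟩
  have : nx w i ≤ j := Nat.sInf_le ⟨h1, by simpa using h3⟩
  omega

theorem nx_lt {i k : ℕ} (hik : i ≤ k) (h : na w i < na w k) : nx w i < k := by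
  obtain ⟨s, h1, h2, h3⟩ := exists_of_na hik h
  have : nx w i ≤ s := Nat.sInf_le ⟨h1, h3⟩
  omega

/-- the levels between a step and its next a-step -/
theorem nx_levels {i : ℕ} (h : ¬ BS w M i) :
    na w (nx w i) = na w i ∧ nr w (nx w i) ≤ nr w i + (M - 1) := by
  obtain ⟨h1, h2, h3, h4⟩ := nx_of_not_BS h
  have e1 : na w (nx w i) = na w i := by
    refine le_antisymm ?_ (na_mono h1)
    by_contra hc
    push Not at hc
    obtain ⟨s, g1, g2, g3⟩ := exists_of_na h1 hc
    rw [h4 s g1 g2] at g3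
    exact absurd g3 (by simp)
  have e2 := na_add_nr (w := w) i
  have e3 := na_add_nr (w := w) (nx w i)
  omega

/-- every a-step is the next a-step of at most `M` steps -/
theorem sum_nx_le (f : ℕ → ℝ) (hf : ∀ i, 0 ≤ f i) (s : Finset ℕ)
    (hs : ∀ j ∈ s, ¬ BS w M j ∧ nx w j < n) :
    ∑ j ∈ s, f (nx w j) ≤ M * ∑ i ∈ (range n).filter (fun i => w i = true), f i := by
  classical
  have h1 : ∀ j ∈ s, nx w j ∈ (range n).filter (fun i => w i = true) := by
    intro j hj
    obtain ⟨h2, h3⟩ := hs j hj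
    exact mem_filter.2 ⟨mem_range.2 h3, (nx_of_not_BS h2).2.2.1⟩
  rw [← sum_fiberwise_of_maps_to h1, mul_sum]
  refine sum_le_sum fun i hi => ?_
  have h4 : ∑ j ∈ s.filter (fun j => nx w j = i), f (nx w j) =
      (s.filter (fun j => nx w j = i)).card * f i := by
    rw [sum_congr rfl (g := fun _ => f i)]
    · simp
    · intro j hj
      rw [(mem_filter.1 hj).2]
  rw [h4]
  refine mul_le_mul_of_nonneg_right ?_ (hf i)
  have h5 : (s.filter (fun j => nx w j = i)) ⊆ Ioc (i - M) i ∪ (if i < M then {0} else ∅) := by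
    intro j hj
    obtain ⟨h6, h7⟩ := mem_filter.1 hj
    obtain ⟨g1, g2, -⟩ := nx_of_not_BS (hs j h6).1
    rw [h7] at g1 g2
    rw [mem_union, mem_Ioc]
    by_cases hi : i < M
    · rw [if_pos hi, mem_singleton]
      omega
    · left
      omega
  have h8 := card_le_card h5
  have h9 : (Ioc (i - M) i ∪ (if i < M then {0} else ∅)).card ≤ M := by
    refine (card_union_le _ _).trans ?_
    rw [Nat.card_Ioc]
    split_ifs with hi
    · simp only [card_singleton]
      omega
    · simp only [card_empty]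
      omega
  exact_mod_cast h8.trans h9

/-- number of r-steps if every `J` consecutive steps contain one -/
theorem lt_of_forced {J : ℕ} (H1 : ∀ i, i + J ≤ n → ∃ j, i ≤ j ∧ j < i + J ∧ w j = false) :
    ∀ l x y, y = x + l → y ≤ n → l < (nr w y - nr w x + 1) * J ∨ l = 0 := by
  intro l
  induction l using Nat.strong_induction_on with
  | _ l ih =>
    intro x y hy hn
    have hJ : 0 < J ∨ J = 0 := by omega
    rcases hJ with hJ | hJ
    swap
    · by_cases hx : x ≤ n
      · obtain ⟨j, h1, h2, -⟩ := H1 x (by omega)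
        omega
      · omega
    by_cases hl : l < J
    · left
      exact hl.trans_le (Nat.le_mul_of_pos_left _ (by omega))
    · left
      obtain ⟨s, hs, hs', hse⟩ := H1 x (by omega)
      have h1 := nr_lt_of (w := w) (i := x) (j := x + J) hs hs' hse
      have h3 := nr_mono (w := w) (i := x + J) (j := y) (by omega)
      rcases ih (l - J) (by omega) (x + J) y (by omega) hn with h2 | h2
      · have h4 : (nr w y - nr w (x + J) + 1) * J + J ≤ (nr w y - nr w x + 1) * J := by
          have : nr w y - nr w (x + J) + 1 + 1 ≤ nr w y - nr w x + 1 := by omega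
          calc _ = (nr w y - nr w (x + J) + 1 + 1) * J := by ring
            _ ≤ _ := Nat.mul_le_mul_right _ this
        omega
      · have h4 : 2 * J ≤ (nr w y - nr w x + 1) * J := Nat.mul_le_mul_right _ (by omega)
        omega

open Classical in
private noncomputable def sh (w : ℕ → Bool) (M i j : ℕ) : ℕ :=
  ∑ s ∈ Ico i j, if w s = false ∧ ¬ BS w M s then 1 else 0

private theorem sh_of_false {x y : ℕ} (h : ∀ s, x ≤ s → s < y → w s = false) :
    sh w M x y ≤ M := by
  classical
  by_cases hl : x + M ≤ y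
  · have h1 : sh w M x y = sh w M x (y - M) + sh w M (y - M) y := by
      unfold sh
      rw [sum_Ico_consecutive _ (by omega) (by omega)]
    have h2 : sh w M x (y - M) = 0 := by
      unfold sh
      refine sum_eq_zero fun s hs => ?_
      rw [mem_Ico] at hs
      rw [if_neg]
      rintro ⟨-, h2⟩
      exact h2 fun j h3 h4 => h j (by omega) (by omega)
    have h3 : sh w M (y - M) y ≤ ∑ s ∈ Ico (y - M) y, 1 := by
      unfold sh
      exact sum_le_sum fun s _ => by split_ifs <;> omega
    simp only [sum_const, smul_eq_mul, mul_one, Nat.card_Ico] at h3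
    omega
  · have : sh w M x y ≤ ∑ s ∈ Ico x y, 1 := by
      unfold sh
      exact sum_le_sum fun s _ => by split_ifs <;> omega
    simp only [sum_const, smul_eq_mul, mul_one, Nat.card_Ico] at this
    omega

private theorem sh_le {x : ℕ} : ∀ y, x ≤ y → sh w M x y ≤ M * (na w y - na w x + 1) := by
  classical
  intro y
  induction y using Nat.strong_induction_on with
  | _ y ih =>
    intro hxy
    by_cases h : ∀ s, x ≤ s → s < y → w s = false
    · exact (sh_of_false h).trans (Nat.le_mul_of_pos_right _ (by omega))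
    · have h' : ∃ s, x ≤ s ∧ s < y ∧ w s = true := by
        push Not at h
        obtain ⟨s, h1, h2, h3⟩ := h
        exact ⟨s, h1, h2, by simpa using h3⟩
      obtain ⟨z, ⟨hz1, hz2, hz3⟩, hz4⟩ : ∃ z, (x ≤ z ∧ z < y ∧ w z = true) ∧
          ∀ s, z < s → s < y → w s = false := by
        refine ⟨Nat.findGreatest (fun s => x ≤ s ∧ s < y ∧ w s = true) y, ?_, ?_⟩
        · obtain ⟨s, h1, h2, h3⟩ := h'
          exact Nat.findGreatest_spec (P := fun s => x ≤ s ∧ s < y ∧ w s = true) h2.le
            ⟨h1, h2, h3⟩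
        · intro s hs1 hs2
          by_contra hc
          have hs3 : ¬ (x ≤ s ∧ s < y ∧ w s = true) := Nat.findGreatest_is_greatest hs1 hs2.le
          obtain ⟨s', h1, h2, h3⟩ := h'
          have h4 := Nat.le_findGreatest (P := fun s => x ≤ s ∧ s < y ∧ w s = true) h2.le
            ⟨h1, h2, h3⟩
          exact hs3 ⟨by omega, hs2, by simpa using hc⟩
      have e1 : sh w M x y = sh w M x z + sh w M z (z + 1) + sh w M (z + 1) y := by
        unfold sh
        rw [sum_Ico_consecutive _ hz1 (Nat.le_succ z), sum_Ico_consecutive _ (by omega) (by omega)]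
      have e2 : sh w M z (z + 1) = 0 := by
        simp [sh, hz3]
      have e3 : sh w M (z + 1) y ≤ M := sh_of_false fun s h1 h2 => hz4 s (by omega) h2
      have e4 := ih z hz2 hz1
      have e5 : na w z + 1 ≤ na w y := na_lt_of le_rfl hz2 hz3
      have e6 := na_mono (w := w) hz1
      rw [e1, e2]
      calc sh w M x z + 0 + sh w M (z + 1) y ≤ M * (na w z - na w x + 1) + M := by omega
        _ = M * (na w z - na w x + 1 + 1) := by ring
        _ ≤ M * (na w y - na w x + 1) := Nat.mul_le_mul_left _ (by omega)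

theorem len_le {x y : ℕ} (hxy : x ≤ y) :
    y - x ≤ (na w y - na w x) + M * (na w y - na w x + 1) + bs w M x y := by
  classical
  have h1 : nr w y - nr w x ≤ sh w M x y + bs w M x y := by
    rw [bs_eq]
    unfold sh
    rw [← sum_add_distrib]
    have h2 : ∀ y, x ≤ y → nr w y - nr w x = ∑ s ∈ Ico x y, if w s = false then 1 else 0 := by
      intro y hy
      induction y, hy using Nat.le_induction with
      | base => simp
      | succ y hy ih =>
        rw [sum_Ico_succ_top hy, ← ih, nr_succ]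
        have := nr_mono (w := w) hy
        omega
    rw [h2 y hxy]
    refine sum_le_sum fun s _ => ?_
    by_cases hs : BS w M s
    · by_cases hw : w s = false <;> simp [hs, hw]
    · by_cases hw : w s = false <;> simp [hs, hw]
  have h3 := sh_le (w := w) (M := M) y hxy
  have e1 := na_add_nr (w := w) x
  have e2 := na_add_nr (w := w) y
  have e3 := na_mono (w := w) hxy
  have e4 := nr_mono (w := w) hxy
  omega

/-! ### windows -/

/-- **the counted steps and the number of lost steps in one window** -/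
theorem exists_k {J K i i' : ℕ}
    (H1 : ∀ i, i + J ≤ n → ∃ j, i ≤ j ∧ j < i + J ∧ w j = false)
    (hK : 1 ≤ K) (hii : i ≤ i') (hn : i' ≤ n) : ∃ k, i ≤ k ∧ k ≤ i' ∧
      (i < k → na w k + K ≤ na w i' ∧ nr w k + K ≤ nr w i') ∧
      i' - k ≤ K * (M + J + 2) + bs w M i i' := by
  classical
  have hg : ∃ k, i ≤ k ∧ k ≤ i' ∧ (i < k → na w k + K ≤ na w i' ∧ nr w k + K ≤ nr w i') ∧
      (k < i' → na w i' < na w (k + 1) + K ∨ nr w i' < nr w (k + 1) + K) := by
    let p : ℕ → Prop := fun d => d = 0 ∨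
      (na w (i + d) + K ≤ na w i' ∧ nr w (i + d) + K ≤ nr w i')
    have hp : p (Nat.findGreatest p (i' - i)) :=
      Nat.findGreatest_spec (P := p) (Nat.zero_le _) (Or.inl rfl)
    have hle : Nat.findGreatest p (i' - i) ≤ i' - i := Nat.findGreatest_le _
    refine ⟨i + Nat.findGreatest p (i' - i), by omega, by omega, fun h => ?_, fun h => ?_⟩
    · rcases hp with hp | hp
      · omega
      · exact hp
    · have h1 : ¬ p (Nat.findGreatest p (i' - i) + 1) :=
        Nat.findGreatest_is_greatest (Nat.lt_succ_self _) (by omega)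
      simp only [p, not_or, not_and_or, not_le] at h1
      rw [Nat.add_assoc]
      exact h1.2
  obtain ⟨k, h1, h2, h3, h4⟩ := hg
  refine ⟨k, h1, h2, h3, ?_⟩
  rcases Nat.lt_or_ge k i' with hk | hk
  · have hsub : bs w M (k + 1) i' ≤ bs w M i i' := by
      rw [← bs_add (w := w) (M := M) (i := i) (j := k + 1) (k := i') (by omega) hk]
      exact Nat.le_add_left _ _
    rcases h4 hk with h5 | h5
    · have h6 := len_le (w := w) (M := M) (x := k + 1) (y := i') hk
      have h7 : M * (na w i' - na w (k + 1) + 1) ≤ M * K := Nat.mul_le_mul_left _ (by omega)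
      have h8 : K * (M + J + 2) = M * K + K * J + 2 * K := by ring
      have : 0 ≤ K * J := Nat.zero_le _
      omega
    · have h7 : (nr w i' - nr w (k + 1) + 1) * J ≤ K * J := Nat.mul_le_mul_right _ (by omega)
      have h8 : K * (M + J + 2) = K * M + K * J + 2 * K := by ring
      have : 0 ≤ K * M := Nat.zero_le _
      rcases lt_of_forced (w := w) (n := n) H1 (i' - (k + 1)) (k + 1) i' (by omega) hn with h6 | h6
      · omega
      · omega
  · have : i' - k = 0 := by omega
    omega

/-- the windows -/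
def win (L1 n v : ℕ) : ℕ := min (v * L1) n

theorem win_zero (L1 : ℕ) : win L1 n 0 = 0 := by simp [win]

theorem win_last {L1 : ℕ} (h : 1 ≤ L1) : win L1 n (n / L1 + 1) = n := by
  unfold win
  rw [min_eq_right]
  have := Nat.lt_div_mul_add (a := n) (b := L1) (by omega)
  rw [add_mul, one_mul]
  omega

theorem win_mono {L1 v : ℕ} : win L1 n v ≤ win L1 n (v + 1) := by
  unfold win
  rw [add_mul, one_mul]
  omega

theorem win_succ_le {L1 v : ℕ} : win L1 n (v + 1) ≤ win L1 n v + L1 := by
  unfold win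
  rw [add_mul, one_mul]
  omega

theorem win_le {L1 v : ℕ} : win L1 n v ≤ n := min_le_right _ _

theorem sum_bs {L1 : ℕ} (N : ℕ) :
    ∑ v ∈ range N, bs w M (win L1 n v) (win L1 n (v + 1)) = bs w M 0 (win L1 n N) := by
  induction N with
  | zero => simp [win, bs]
  | succ N ih =>
    rw [sum_range_succ, ih, bs_add (Nat.zero_le _) win_mono]

open Classical in
theorem bs_range : bs w M 0 n = ((range n).filter fun i => BS w M i).card := by
  unfold bs
  rw [range_eq_Ico]

/-- **all windows** : `win L1 n v ≤ k v ≤ win L1 n (v + 1)` -/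
theorem exists_ks {J K L1 : ℕ}
    (H1 : ∀ i, i + J ≤ n → ∃ j, i ≤ j ∧ j < i + J ∧ w j = false)
    (hK : 1 ≤ K) (hL : 1 ≤ L1) : ∃ k : ℕ → ℕ,
      (∀ v, win L1 n v ≤ k v ∧ k v ≤ win L1 n (v + 1)) ∧
      (∀ v, win L1 n v < k v → na w (k v) + K ≤ na w (win L1 n (v + 1)) ∧
        nr w (k v) + K ≤ nr w (win L1 n (v + 1))) ∧
      ∑ v ∈ range (n / L1 + 1), (win L1 n (v + 1) - k v) ≤
        (n / L1 + 1) * (K * (M + J + 2)) + bs w M 0 n := by
  have h := fun v => exists_k (M := M) (i := win L1 n v) (i' := win L1 n (v + 1)) H1 hK win_mono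
    win_le
  choose k hk1 hk2 hk3 hk4 using h
  refine ⟨k, fun v => ⟨hk1 v, hk2 v⟩, hk3, ?_⟩
  refine (sum_le_sum fun v _ => hk4 v).trans (le_of_eq ?_)
  rw [sum_add_distrib, sum_bs, win_last hL]
  simp only [sum_const, card_range, smul_eq_mul]

/-- the blocks of the steps that are counted -/
theorem counted {L1 : ℕ} (hL : 1 ≤ L1) {k : ℕ → ℕ}
    (hk : ∀ v, win L1 n v ≤ k v ∧ k v ≤ win L1 n (v + 1)) :
    2 * na w n + nr w n ≤
      ∑ v ∈ range (n / L1 + 1), (2 * (na w (k v) - na w (win L1 n v)) +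
        (nr w (k v) - nr w (win L1 n v))) +
      2 * ∑ v ∈ range (n / L1 + 1), (win L1 n (v + 1) - k v) := by
  have h1 : ∀ N, 2 * na w (win L1 n N) + nr w (win L1 n N) ≤
      ∑ v ∈ range N, (2 * (na w (k v) - na w (win L1 n v)) +
        (nr w (k v) - nr w (win L1 n v))) +
      2 * ∑ v ∈ range N, (win L1 n (v + 1) - k v) := by
    intro N
    induction N with
    | zero => simp [win_zero, na_zero, nr_zero]
    | succ N ih =>
      rw [sum_range_succ, sum_range_succ]
      obtain ⟨g1, g2⟩ := hk N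
      have e1 := na_add_nr (w := w) (k N)
      have e2 := na_add_nr (w := w) (win L1 n (N + 1))
      have e3 := na_mono (w := w) g1
      have e4 := nr_mono (w := w) g1
      have e5 := na_mono (w := w) g2
      have e6 := nr_mono (w := w) g2
      omega
  have h2 := h1 (n / L1 + 1)
  rwa [win_last hL] at h2

/-! ### the word of a path -/

/-- the word of a path -/
def wd {Ω : Type} (C : Pth Ω) (i : ℕ) : Bool := decide (C.a i < C.a (i + 1))

section path

variable {Ω : Type} {C : Pth Ω} {m : ℕ}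

theorem wd_true {i : ℕ} : wd C i = true ↔ C.a i < C.a (i + 1) := by simp [wd]

theorem wd_false {i : ℕ} : wd C i = false ↔ C.a (i + 1) = C.a i := by
  have := C.ha (Nat.le_succ i)
  simp only [wd, decide_eq_false_iff_not, not_lt, Nat.succ_eq_add_one] at *
  omega

/-- an a-step of a path which advances by blocks -/
theorem step_true (hB : Blk C m n) {i : ℕ} (hi : i < n) (h : wd C i = true) :
    C.a (i + 1) = C.a i + m ∧ C.r (i + 1) = C.r i := by
  rw [wd_true] at h
  rcases hB i hi with h1 | h1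
  · exact h1
  · omega

/-- an r-step of a path which advances by blocks -/
theorem step_false (hm : 1 ≤ m) (hB : Blk C m n) {i : ℕ} (hi : i < n) (h : wd C i = false) :
    C.a (i + 1) = C.a i ∧ C.r (i + 1) = C.r i + m := by
  rw [wd_false] at h
  rcases hB i hi with h1 | h1
  · omega
  · exact h1

theorem a_eq (hm : 1 ≤ m) (hB : Blk C m n) {i : ℕ} (hi : i ≤ n) :
    C.a i = C.a 0 + m * na (wd C) i := by
  induction i with
  | zero => simp [na_zero]
  | succ i ih =>
    have h1 := ih (by omega)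
    rw [na_succ]
    cases h : wd C i
    · rw [(step_false hm hB (by omega) h).1, h1]
      simp
    · rw [(step_true hB (by omega) h).1, h1]
      simp only [if_true]
      ring

theorem r_eq (hm : 1 ≤ m) (hB : Blk C m n) {i : ℕ} (hi : i ≤ n) :
    C.r i = C.r 0 + m * nr (wd C) i := by
  induction i with
  | zero => simp [nr_zero]
  | succ i ih =>
    have h1 := ih (by omega)
    rw [nr_succ]
    cases h : wd C i
    · rw [(step_false hm hB (by omega) h).2, h1]
      simp only [if_true]
      ring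
    · rw [(step_true hB (by omega) h).2, h1]
      simp

/-- the event of `Hyp.runs` -/
theorem BS_iff {i : ℕ} : BS (wd C) M i ↔ C.a (i + M) = C.a i := by
  constructor
  · intro h
    have h1 : ∀ j, j ≤ M → C.a (i + j) = C.a i := by
      intro j hj
      induction j with
      | zero => rfl
      | succ j ih =>
        have h2 := ih (by omega)
        have h3 := wd_false.1 (h (i + j) (by omega) (by omega))
        rw [← Nat.add_assoc, h3, h2]
    exact h1 M le_rfl
  · intro h j h1 h2
    rw [wd_false]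
    have h3 := C.ha h1
    have h4 := C.ha (Nat.le_succ j)
    have h5 := C.ha (Nat.succ_le_of_lt h2)
    simp only [Nat.succ_eq_add_one] at *
    omega

/-- the number of long runs -/
theorem bs_eq_runs : bs (wd C) M 0 n = ((range n).filter fun i => C.a (i + M) = C.a i).card := by
  classical
  rw [bs_range]
  congr 1
  ext i
  simp only [mem_filter, BS_iff]

/-- forced r-steps -/
theorem forced_wd {J : ℕ} (hB : Blk C m n) (H : ∀ i, i + J ≤ n → C.r i < C.r (i + J)) :
    ∀ i, i + J ≤ n → ∃ j, i ≤ j ∧ j < i + J ∧ wd C j = false := by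
  intro i hi
  by_contra hc
  push Not at hc
  have h1 : ∀ j, j ≤ J → C.r (i + j) = C.r i := by
    intro j hj
    induction j with
    | zero => rfl
    | succ j ih =>
      have h2 := ih (by omega)
      have h3 := hc (i + j) (by omega) (by omega)
      rw [← Nat.add_assoc, (step_true hB (by omega) (by simpa using h3)).2, h2]
  have h2 := H i hi
  rw [h1 J le_rfl] at h2
  omega

/-- **N1** : the windows.  `k v` = end of the steps that are counted in the window `v`; the levels of
`k v` are `K m` above those of the end of the window; few steps are lost. -/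
theorem windows {J K L1 : ℕ} (hm : 1 ≤ m) (hB : Blk C m n)
    (H : ∀ i, i + J ≤ n → C.r i < C.r (i + J)) (hK : 1 ≤ K) (hL : 1 ≤ L1) : ∃ k : ℕ → ℕ,
      (∀ v, win L1 n v ≤ k v ∧ k v ≤ win L1 n (v + 1)) ∧
      (∀ v, win L1 n v < k v → C.a (k v) + K * m ≤ C.a (win L1 n (v + 1)) ∧
        C.r (k v) + K * m ≤ C.r (win L1 n (v + 1))) ∧
      ∑ v ∈ range (n / L1 + 1), (win L1 n (v + 1) - k v) ≤
        (n / L1 + 1) * (K * (M + J + 2)) + ((range n).filter fun i => C.a (i + M) = C.a i).card := by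
  obtain ⟨k, h1, h2, h3⟩ := exists_ks (w := wd C) (M := M) (n := n) (K := K) (L1 := L1)
    (forced_wd hB H) hK hL
  rw [bs_eq_runs] at h3
  refine ⟨k, h1, fun v hv => ?_, h3⟩
  obtain ⟨h4, h5⟩ := h2 v hv
  have h6 : win L1 n (v + 1) ≤ n := win_le
  rw [a_eq hm hB h6, a_eq hm hB ((h1 v).2.trans h6), r_eq hm hB h6,
    r_eq hm hB ((h1 v).2.trans h6)]
  constructor
  · calc _ = C.a 0 + m * (na (wd C) (k v) + K) := by ring
      _ ≤ _ := by gcongr
  · calc _ = C.r 0 + m * (nr (wd C) (k v) + K) := by ring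
      _ ≤ _ := by gcongr

/-- the levels that are counted -/
theorem counted_levels (hm : 1 ≤ m) (hB : Blk C m n) {L1 : ℕ} (hL : 1 ≤ L1) {k : ℕ → ℕ}
    (hk : ∀ v, win L1 n v ≤ k v ∧ k v ≤ win L1 n (v + 1)) :
    2 * ((C.a n : ℝ) - C.a 0) + ((C.r n : ℝ) - C.r 0) ≤
      ∑ v ∈ range (n / L1 + 1), (2 * ((C.a (k v) : ℝ) - C.a (win L1 n v)) +
        ((C.r (k v) : ℝ) - C.r (win L1 n v))) +
      2 * m * ∑ v ∈ range (n / L1 + 1), ((win L1 n (v + 1) - k v : ℕ) : ℝ) := by
  have h := counted (w := wd C) hL hk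
  have h' : ((2 * na (wd C) n + nr (wd C) n : ℕ) : ℝ) ≤
      ((∑ v ∈ range (n / L1 + 1), (2 * (na (wd C) (k v) - na (wd C) (win L1 n v)) +
        (nr (wd C) (k v) - nr (wd C) (win L1 n v))) +
      2 * ∑ v ∈ range (n / L1 + 1), (win L1 n (v + 1) - k v) : ℕ) : ℝ) := by exact_mod_cast h
  rw [Nat.cast_add, Nat.cast_add, Nat.cast_mul, Nat.cast_sum, Nat.cast_mul, Nat.cast_sum] at h'
  have h2 := mul_le_mul_of_nonneg_left h' (Nat.cast_nonneg (α := ℝ) m)
  have e1 : 2 * ((C.a n : ℝ) - C.a 0) + ((C.r n : ℝ) - C.r 0) =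
      (m : ℝ) * (((2 : ℕ) : ℝ) * na (wd C) n + nr (wd C) n) := by
    rw [a_eq hm hB le_rfl, r_eq hm hB le_rfl]
    push_cast
    ring
  rw [e1]
  refine h2.trans (le_of_eq ?_)
  rw [mul_add, mul_sum]
  congr 1
  · refine sum_congr rfl fun v _ => ?_
    obtain ⟨g1, g2⟩ := hk v
    have e3 := na_mono (w := wd C) g1
    have e4 := nr_mono (w := wd C) g1
    have h6 : win L1 n (v + 1) ≤ n := win_le
    rw [a_eq hm hB (g2.trans h6), a_eq hm hB ((g1.trans g2).trans h6),
      r_eq hm hB (g2.trans h6), r_eq hm hB ((g1.trans g2).trans h6)]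
    push_cast [Nat.cast_sub e3, Nat.cast_sub e4]
    ring
  · push_cast
    ring

/-- the next a-step of a step which is not the start of a long run -/
theorem next_a {i : ℕ} (h : C.a (i + M) ≠ C.a i) :
    i ≤ nx (wd C) i ∧ nx (wd C) i < i + M ∧ C.a (nx (wd C) i) = C.a i ∧
      C.a (nx (wd C) i) < C.a (nx (wd C) i + 1) := by
  have h0 : ¬ BS (wd C) M i := fun hc => h (BS_iff.1 hc)
  obtain ⟨h1, h2, h3, h4⟩ := nx_of_not_BS h0
  refine ⟨h1, h2, ?_, wd_true.1 h3⟩
  have h5 : ∀ d, i + d ≤ nx (wd C) i → C.a (i + d) = C.a i := by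
    intro d
    induction d with
    | zero => intro _; rfl
    | succ d ih =>
      intro hd
      have := wd_false.1 (h4 (i + d) (by omega) (by omega))
      rw [← Nat.add_assoc, this, ih (by omega)]
  have h6 := h5 (nx (wd C) i - i) (by omega)
  rwa [Nat.add_sub_cancel' h1] at h6

/-- the slope level of the next a-step -/
theorem next_a_r {i : ℕ} (hm : 1 ≤ m) (hB : Blk C m n) (h : C.a (i + M) ≠ C.a i)
    (hn : nx (wd C) i ≤ n) : C.r (nx (wd C) i) ≤ C.r i + (M - 1) * m := by
  have h0 : ¬ BS (wd C) M i := fun hc => h (BS_iff.1 hc)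
  obtain ⟨h1, h2, h3, h4⟩ := nx_of_not_BS h0
  have h5 := (nx_levels h0).2
  rw [r_eq hm hB hn, r_eq hm hB (h1.trans hn)]
  calc C.r 0 + m * nr (wd C) (nx (wd C) i) ≤ C.r 0 + m * (nr (wd C) i + (M - 1)) := by gcongr
    _ = _ := by ring

/-- the next a-step is before every later step of larger time level -/
theorem next_a_lt {i k : ℕ} (hm : 1 ≤ m) (hB : Blk C m n) (hik : i ≤ k) (hk : k ≤ n)
    (h : C.a i < C.a k) : nx (wd C) i < k := by
  refine nx_lt hik ?_
  rw [a_eq hm hB hk, a_eq hm hB (hik.trans hk)] at h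
  by_contra hc
  push Not at hc
  have : m * na (wd C) k ≤ m * na (wd C) i := Nat.mul_le_mul_left _ hc
  omega

/-- **N2** : every a-step is the next a-step of at most `M` steps -/
theorem sum_next_a (f : ℕ → ℝ) (hf : ∀ i, 0 ≤ f i) (s : Finset ℕ)
    (hs : ∀ j ∈ s, C.a (j + M) ≠ C.a j ∧ nx (wd C) j < n) :
    ∑ j ∈ s, f (nx (wd C) j) ≤ M * ∑ i ∈ (range n).filter (fun i => C.a i < C.a (i + 1)), f i := by
  have h := sum_nx_le (w := wd C) (M := M) (n := n) f hf s
    fun j hj => ⟨fun hc => (hs j hj).1 (BS_iff.1 hc), (hs j hj).2⟩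
  refine h.trans (le_of_eq ?_)
  congr 2
  ext i
  simp only [mem_filter, wd_true]

end path

/-! ### parameters -/

open Filter Asymptotics

theorem log_le_real (h : ℕ) (hh : 1 ≤ h) : (Nat.log 2 h : ℝ) ≤ Real.log h / Real.log 2 := by
  have h2 : 0 < Real.log 2 := Real.log_pos (by norm_num)
  rw [le_div_iff₀ h2, ← Real.log_pow]
  refine Real.log_le_log (by positivity) ?_
  exact_mod_cast Nat.pow_log_le_self 2 (by omega)

/-- `log^c h * h^s = o(h)` -/
theorem polylog (A : ℝ) (c : ℕ) {s ε : ℝ} (hs : s < 1) (hε : 0 < ε) :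
    ∀ᶠ h : ℕ in atTop, A * (Nat.log 2 h : ℝ) ^ c * (h : ℝ) ^ s ≤ ε * h := by
  have h2 : 0 < Real.log 2 := Real.log_pos (by norm_num)
  have h1 := isLittleO_log_rpow_rpow_atTop (c : ℝ) (s := 1 - s) (by linarith)
  have h3 : 0 < ε * Real.log 2 ^ c / (|A| + 1) := by positivity
  have h4 := (h1.bound h3)
  have h5 := tendsto_natCast_atTop_atTop (R := ℝ) |>.eventually h4
  filter_upwards [h5, eventually_ge_atTop 1] with h hh h1
  have hh1 : (1 : ℝ) ≤ h := by exact_mod_cast h1
  have hpos : (0 : ℝ) < h := by linarith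
  have hl : 0 ≤ Real.log h := Real.log_nonneg hh1
  rw [Real.rpow_natCast, Real.norm_of_nonneg (by positivity),
    Real.norm_of_nonneg (by positivity)] at hh
  have e1 : (Nat.log 2 h : ℝ) ^ c ≤ (Real.log h / Real.log 2) ^ c :=
    pow_le_pow_left₀ (by positivity) (log_le_real h h1) c
  have e2 : (Real.log h / Real.log 2) ^ c ≤ ε / (|A| + 1) * (h : ℝ) ^ (1 - s) := by
    rw [div_pow, div_le_iff₀ (by positivity)]
    calc Real.log h ^ c ≤ ε * Real.log 2 ^ c / (|A| + 1) * (h : ℝ) ^ (1 - s) := hh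
      _ = ε / (|A| + 1) * (h : ℝ) ^ (1 - s) * Real.log 2 ^ c := by ring
  have e3 : (h : ℝ) ^ (1 - s) * (h : ℝ) ^ s = h := by
    rw [← Real.rpow_add hpos]
    simp
  have e4 : 0 ≤ (h : ℝ) ^ s := by positivity
  calc A * (Nat.log 2 h : ℝ) ^ c * (h : ℝ) ^ s
      ≤ (|A| + 1) * (Nat.log 2 h : ℝ) ^ c * (h : ℝ) ^ s := by
        have : A ≤ |A| + 1 := by linarith [le_abs_self A]
        gcongr
    _ ≤ (|A| + 1) * (ε / (|A| + 1) * (h : ℝ) ^ (1 - s)) * (h : ℝ) ^ s := by
        have := e1.trans e2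
        gcongr
    _ = ε * ((h : ℝ) ^ (1 - s) * (h : ℝ) ^ s) := by
        have : |A| + 1 ≠ 0 := by positivity
        field_simp
    _ = ε * h := by rw [e3]

/-- powers of two with a small exponent -/
theorem two_pow_le {a m h : ℕ} {s : ℝ} (hh : 1 ≤ h) (ha : (a : ℝ) * m ≤ s * Nat.log 2 h) :
    (2 : ℝ) ^ (a * m) ≤ (h : ℝ) ^ s := by
  have h1 : ((2 : ℝ) ^ (a * m)) = (2 : ℝ) ^ ((a : ℝ) * m) := by
    rw [← Real.rpow_natCast]
    push_cast
    rfl
  rw [h1]
  by_cases hs : 0 ≤ s
  · calc (2 : ℝ) ^ ((a : ℝ) * m) ≤ (2 : ℝ) ^ (s * Nat.log 2 h) :=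
          Real.rpow_le_rpow_of_exponent_le (by norm_num) ha
      _ = ((2 : ℝ) ^ (Nat.log 2 h)) ^ s := by
          rw [mul_comm, Real.rpow_mul (by norm_num), Real.rpow_natCast]
      _ ≤ (h : ℝ) ^ s := by
          refine Real.rpow_le_rpow (by positivity) ?_ hs
          exact_mod_cast Nat.pow_log_le_self 2 (by omega)
  · have h2 : 0 ≤ (a : ℝ) * m := by positivity
    have h3 : s * Nat.log 2 h ≤ 0 :=
      mul_nonpos_of_nonpos_of_nonneg (by linarith) (by positivity)
    have h4 : (a : ℝ) * m = 0 := le_antisymm (ha.trans h3) h2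
    have h5 : s * Nat.log 2 h = 0 := le_antisymm h3 (by rw [← h4]; exact ha)
    rcases mul_eq_zero.1 h5 with h6 | h6
    · exact absurd h6.ge hs
    · have h7 : h = 1 := by
        have : Nat.log 2 h = 0 := by exact_mod_cast h6
        rcases Nat.log_eq_zero_iff.1 this with h8 | h8 <;> omega
      rw [h4, h7]
      simp

/-- **N3** : the lost steps are few -/
theorem param (A : ℝ) (c0 : ℕ) {ε : ℝ} (hε : 0 < ε) :
    ∀ᶠ h : ℕ in atTop, ∀ m K L1 Q n : ℕ,
      (K : ℝ) * m ≤ A * Nat.log 2 h → (Nat.log 2 h : ℝ) ^ 2 ≤ L1 * m →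
      (L1 : ℝ) * m ≤ A * (Nat.log 2 h : ℝ) ^ 2 → Q * L1 ≤ n → (n : ℝ) * m ≤ A * h →
      (((Q * (K * c0) + L1 : ℕ) : ℝ)) * m ≤ ε * h := by
  have h1 := polylog A 2 (s := 0) (ε := ε / 2) (by norm_num) (by positivity)
  have h3 : ∀ᶠ h : ℕ in atTop, A ^ 2 * c0 ≤ ε / 2 * Nat.log 2 h := by
    obtain ⟨N, hN⟩ := exists_nat_ge (A ^ 2 * c0 / (ε / 2))
    filter_upwards [eventually_ge_atTop (2 ^ N)] with h hh
    have h4 : N ≤ Nat.log 2 h := Nat.le_log_of_pow_le (by norm_num) hh
    rw [div_le_iff₀ (by positivity)] at hN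
    have h5 : (N : ℝ) ≤ Nat.log 2 h := by exact_mod_cast h4
    nlinarith
  filter_upwards [h1, h3, eventually_ge_atTop 2] with h h1 h3 h2 m K L1 Q n hK hL hL' hQ hn
  have hlog : 1 ≤ Nat.log 2 h := Nat.le_log_of_pow_le (by norm_num) (by simpa using h2)
  have hlog' : (1 : ℝ) ≤ Nat.log 2 h := by exact_mod_cast hlog
  set Λ : ℝ := (Nat.log 2 h : ℝ) with hΛ
  have hh : (0 : ℝ) < h := by
    have : 0 < h := by omega
    exact_mod_cast this
  rw [Real.rpow_zero, mul_one] at h1
  -- `Q Λ² ≤ A h`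
  have e1 : (Q : ℝ) * L1 ≤ n := by exact_mod_cast hQ
  have e2 : (Q : ℝ) * Λ ^ 2 ≤ A * h := by
    have hQ0 : (0 : ℝ) ≤ Q := by positivity
    have hm0 : (0 : ℝ) ≤ m := by positivity
    calc (Q : ℝ) * Λ ^ 2 ≤ Q * (L1 * m) := mul_le_mul_of_nonneg_left hL hQ0
      _ = Q * L1 * m := by ring
      _ ≤ n * m := mul_le_mul_of_nonneg_right e1 hm0
      _ ≤ A * h := hn
  have hA : 0 ≤ A := by
    by_contra hc
    push Not at hc
    have : A * h < 0 := mul_neg_of_neg_of_pos hc hh
    have h0 : (0 : ℝ) ≤ (Q : ℝ) * Λ ^ 2 := by positivity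
    linarith
  -- `Q K m c0 ≤ A² c0 h / Λ`
  have e3 : (Q : ℝ) * (K * c0) * m * Λ ≤ A ^ 2 * c0 * h := by
    calc (Q : ℝ) * (K * c0) * m * Λ = (Q * Λ) * c0 * (K * m) := by ring
      _ ≤ (Q * Λ) * c0 * (A * Λ) := by
          refine mul_le_mul_of_nonneg_left hK ?_
          positivity
      _ = (Q * Λ ^ 2) * (A * c0) := by ring
      _ ≤ (A * h) * (A * c0) := mul_le_mul_of_nonneg_right e2 (by positivity)
      _ = A ^ 2 * c0 * h := by ring
  have e4 : (Q : ℝ) * (K * c0) * m ≤ ε / 2 * h := by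
    have hΛ0 : 0 < Λ := by linarith
    have : (Q : ℝ) * (K * c0) * m * Λ ≤ ε / 2 * h * Λ := by
      refine e3.trans ?_
      calc A ^ 2 * c0 * h ≤ ε / 2 * Λ * h := mul_le_mul_of_nonneg_right h3 hh.le
        _ = ε / 2 * h * Λ := by ring
    exact le_of_mul_le_mul_right this hΛ0
  push_cast
  calc ((Q : ℝ) * (K * c0) + L1) * m = (Q : ℝ) * (K * c0) * m + L1 * m := by ring
    _ ≤ ε / 2 * h + ε / 2 * h := add_le_add e4 (hL'.trans h1)
    _ = ε * h := by ring

end Vale.Agent.P127.U.Mic.Num
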