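import Vale.Agent.P127.U.Mic.Props
import Vale.Agent.P127.U.Mic.Colp2

/-!
# P127 / U / Mic : the lemmas COLL for `coll` of `Props` (helper420)

`coll` (Props) is `colp` (Colp) by definition. New here: `coll_values` (a further condition with few
values), `coll_amb` (the condition is determined off an event).
-/

set_option autoImplicit false

namespace Vale.Agent.P127.U.Mic

open Finset Vale.Agent.P127 Vale.Agent.P127.Stk Vale.Agent.P127.U.Pin

variable {Ω : Type} [Fintype Ω] {S S' T T' U : Type*} (P : Law Ω)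

theorem coll_eq_colp (X : Ω → S) (Z : Ω → T) : coll P X Z = colp P X Z := rfl

theorem coll_nonneg (X : Ω → S) (Z : Ω → T) : 0 ≤ coll P X Z := colp_nonneg P X Z

theorem coll_le_one (X : Ω → S) (Z : Ω → T) : coll P X Z ≤ 1 := colp_le_one P X Z

theorem coll_mono_cond (X : Ω → S) {Z : Ω → T} {Z' : Ω → T'} (hZ : Fn P Z' Z) :
    coll P X Z' ≤ coll P X Z := colp_mono_cond P X hZ

theorem coll_mono_var {X : Ω → S} {X' : Ω → S'} (Z : Ω → T)
    (hX : Fn P X' (fun ω => (X ω, Z ω))) : coll P X Z ≤ coll P X' Z := colp_mono_var P Z hX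

theorem coll_congr {X : Ω → S} {X' : Ω → S'} {Z : Ω → T} {Z' : Ω → T'}
    (h1 : Fn P X (fun ω => (X' ω, Z ω))) (h2 : Fn P X' (fun ω => (X ω, Z ω)))
    (h3 : Fn P Z Z') (h4 : Fn P Z' Z) : coll P X Z = coll P X' Z' := colp_congr P h1 h2 h3 h4

theorem coll_off (X : Ω → S) (C C' : Ω → U) (η : ℝ)
    (hη : P.ex (fun ω => Law.ind (C ω ≠ C' ω)) ≤ η) :
    coll P X C ≤ 2 * coll P X C' + 3 * η := colp_off P X C C' η hη

theorem coll_off_fn (X : Ω → S) (C : Ω → U) (Z : Ω → T) (F : T → U) (η : ℝ)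
    (hη : P.ex (fun ω => Law.ind (C ω ≠ F (Z ω))) ≤ η) :
    coll P X C ≤ 2 * coll P X Z + 3 * η := colp_off_fn P X C Z F η hη

theorem coll_event {V : Type*} (E : Ω → V) (v : V) (hv : 0 < P.pr E v) (X : Ω → S) (Z : Ω → T)
    (κ : ℝ) (hκ : 0 < κ) :
    coll (P.cond E v) X Z ≤ coll P X Z / (κ * P.pr E v ^ 2) + κ := colp_event P E v hv X Z κ hκ

theorem coll_dom (Q : Law Ω) (X : Ω → S) (Z : Ω → T) (K κ : ℝ) (hκ : 0 < κ) (hK : 0 ≤ K)
    (hQ : ∀ ω, Q.w ω ≤ K * P.w ω) :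
    coll Q X Z ≤ K ^ 2 / κ * coll P X Z + κ := colp_dom P Q X Z K κ hκ hK hQ

/-- the event that the condition `C` is not determined by `Z` -/
theorem coll_amb (X : Ω → S) (C : Ω → U) (Z : Ω → T) (η : ℝ)
    (hη : P.ex (fun ω => Law.ind (∃ ω', 0 < P.w ω' ∧ Z ω' = Z ω ∧ C ω' ≠ C ω)) ≤ η) :
    coll P X C ≤ 2 * coll P X Z + 3 * η := by
  classical
  have hF : ∀ z : T, ∃ u : U, ∀ ω, 0 < P.w ω → Z ω = z →
      (¬ ∃ ω', 0 < P.w ω' ∧ Z ω' = Z ω ∧ C ω' ≠ C ω) → C ω = u := by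
    intro z
    by_cases hz : ∃ ω, 0 < P.w ω ∧ Z ω = z
    · obtain ⟨ω₀, h0, rfl⟩ := hz
      refine ⟨C ω₀, fun ω hω hz h => ?_⟩
      by_contra hne
      exact h ⟨ω₀, h0, hz.symm, fun e => hne e.symm⟩
    · rcases isEmpty_or_nonempty U with hU | hU
      · have hex : Nonempty Ω := by
          by_contra hcon
          rw [not_nonempty_iff] at hcon
          have := P.sum_one
          simp at this
        exact (hU.false (C hex.some)).elim
      · exact ⟨hU.some, fun ω hω e => absurd ⟨ω, hω, e⟩ hz⟩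
  choose F hF' using hF
  refine coll_off_fn P X C Z F η (le_trans ?_ hη)
  refine P.ex_mono fun ω hω => ind_mono fun hne => ?_
  by_contra hcon
  exact hne (hF' (Z ω) ω hω rfl hcon)

/-- a further condition with at most `N` values -/
theorem coll_values (X : Ω → S) (Z : Ω → T) (Z' : Ω → T') (N : ℕ)
    (h : ∀ ω, 0 < P.w ω → ∃ F : Finset T', F.card ≤ N ∧
      ∀ ω', 0 < P.w ω' → Z ω' = Z ω → Z' ω' ∈ F) (κ : ℝ) (hκ : 0 < κ) :
    coll P X (fun ω => (Z ω, Z' ω)) ≤ coll P X Z / κ + N * κ := by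
  classical
  let bad : T → T' → Prop := fun z z' => P.pr (fun ω => (Z ω, Z' ω)) (z, z') < κ * P.pr Z z
  have key : ∀ ω, 0 < P.w ω → cq P X (fun ω => (Z ω, Z' ω)) (X ω) (Z ω, Z' ω) ≤
      κ⁻¹ * cq P X Z (X ω) (Z ω) + Law.ind (bad (Z ω) (Z' ω)) := by
    intro ω hω
    have hz := P.pr_pos Z hω
    have hzz := P.pr_pos (fun ω => (Z ω, Z' ω)) hω
    have h0 := cq_nonneg P X Z (X ω) (Z ω)
    by_cases hb : bad (Z ω) (Z' ω)
    · rw [Law.ind_of hb]
      have h1 := cq_le_one P X (fun ω => (Z ω, Z' ω)) (X ω) (Z ω, Z' ω)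
      have h2 : 0 ≤ κ⁻¹ * cq P X Z (X ω) (Z ω) := mul_nonneg (inv_nonneg.2 hκ.le) h0
      linarith
    · rw [Law.ind_not hb, add_zero]
      unfold cq
      have hb' : κ * P.pr Z (Z ω) ≤ P.pr (fun ω => (Z ω, Z' ω)) (Z ω, Z' ω) := not_lt.1 hb
      have hn : P.pr (fun ω => (X ω, (Z ω, Z' ω))) (X ω, (Z ω, Z' ω)) ≤
          P.pr (fun ω => (X ω, Z ω)) (X ω, Z ω) :=
        pr_le_pr P fun ω' e => by
          simp only [Prod.mk.injEq] at e ⊢
          exact ⟨e.1, e.2.1⟩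
      have hn0 := P.pr_nonneg (fun ω => (X ω, Z ω)) (X ω, Z ω)
      rw [inv_mul_eq_div, div_div, div_le_div_iff₀ hzz (mul_pos hz hκ)]
      have h3 := mul_le_mul hn hb' (mul_pos hκ hz).le hn0
      calc P.pr (fun ω => (X ω, (Z ω, Z' ω))) (X ω, (Z ω, Z' ω)) * (P.pr Z (Z ω) * κ)
          = P.pr (fun ω => (X ω, (Z ω, Z' ω))) (X ω, (Z ω, Z' ω)) * (κ * P.pr Z (Z ω)) := by ring
        _ ≤ P.pr (fun ω => (X ω, Z ω)) (X ω, Z ω) * P.pr (fun ω => (Z ω, Z' ω)) (Z ω, Z' ω) := h3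
  have h1 := P.ex_mono key
  rw [P.ex_add, P.ex_const_mul] at h1
  have h2 : P.ex (fun ω => Law.ind (bad (Z ω) (Z' ω))) ≤ N * κ := by
    -- condition on `Z`
    rw [← ex_cond P Z (fun ω => Law.ind (bad (Z ω) (Z' ω)))]
    have h3 : ∀ ω, 0 < P.w ω →
        (P.cond Z (Z ω)).ex (fun ω => Law.ind (bad (Z ω) (Z' ω))) ≤ N * κ := by
      intro ω hω
      obtain ⟨F, hF1, hF2⟩ := h ω hω
      have hz := P.pr_pos Z hω
      set R := P.cond Z (Z ω) with hR
      have h4 : R.ex (fun ω => Law.ind (bad (Z ω) (Z' ω))) ≤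
          R.ex (fun ω' => ∑ z' ∈ F, Law.ind (Z' ω' = z') * Law.ind (bad (Z ω) z')) := by
        refine R.ex_mono fun ω' h' => ?_
        obtain ⟨e1, e2⟩ := cond_supp P Z hz h'
        have e3 := hF2 ω' e2 e1
        rw [← Finset.add_sum_erase F _ e3, Law.ind_of (p := Z' ω' = Z' ω') rfl, one_mul, e1]
        have : 0 ≤ ∑ z' ∈ F.erase (Z' ω'), Law.ind (Z' ω' = z') * Law.ind (bad (Z ω) z') :=
          Finset.sum_nonneg fun _ _ => mul_nonneg (ind_nonneg _) (ind_nonneg _)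
        linarith
      refine h4.trans ?_
      have h5 : R.ex (fun ω' => ∑ z' ∈ F, Law.ind (Z' ω' = z') * Law.ind (bad (Z ω) z')) =
          ∑ z' ∈ F, R.ex (fun ω' => Law.ind (bad (Z ω) z') * Law.ind (Z' ω' = z')) := by
        unfold Law.ex
        simp only [Finset.mul_sum]
        rw [Finset.sum_comm]
        refine Finset.sum_congr rfl fun z' _ => Finset.sum_congr rfl fun ω' _ => ?_
        ring
      rw [h5]
      have h6 : ∀ z' ∈ F, R.ex (fun ω' => Law.ind (bad (Z ω) z') * Law.ind (Z' ω' = z')) ≤ κ := by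
        intro z' _
        rw [R.ex_const_mul, ← Law.pr_eq_ex, hR, P.cond_pr Z _ hz]
        by_cases hb : bad (Z ω) z'
        · rw [Law.ind_of hb, one_mul, div_le_iff₀ hz]
          have e4 : P.pr (fun ω => (Z' ω, Z ω)) (z', Z ω) =
              P.pr (fun ω => (Z ω, Z' ω)) (Z ω, z') := pr_swap P Z' Z z' (Z ω)
          rw [e4]
          exact hb.le
        · rw [Law.ind_not hb, zero_mul]
          exact hκ.le
      refine (Finset.sum_le_sum h6).trans ?_
      rw [Finset.sum_const, nsmul_eq_mul]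
      exact mul_le_mul_of_nonneg_right (by exact_mod_cast hF1) hκ.le
    have h7 := P.ex_mono (f := fun ω => (P.cond Z (Z ω)).ex
      (fun ω => Law.ind (bad (Z ω) (Z' ω)))) (g := fun _ => (N : ℝ) * κ) h3
    rwa [P.ex_const] at h7
  have h8 : coll P X Z / κ = κ⁻¹ * P.ex (fun ω => cq P X Z (X ω) (Z ω)) := by
    rw [inv_mul_eq_div]
    rfl
  rw [h8]
  exact h1.trans (by linarith)

/-- at most `N` values: loss of a square root -/
theorem coll_values_sqrt (X : Ω → S) (Z : Ω → T) (Z' : Ω → T') (N : ℕ)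
    (h : ∀ ω, 0 < P.w ω → ∃ F : Finset T', F.card ≤ N ∧
      ∀ ω', 0 < P.w ω' → Z ω' = Z ω → Z' ω' ∈ F) :
    coll P X (fun ω => (Z ω, Z' ω)) ≤ 2 * Real.sqrt (N * coll P X Z) := by
  set a := coll P X Z with ha
  have ha0 : 0 ≤ a := coll_nonneg P X Z
  have hN0 : (0 : ℝ) ≤ N := Nat.cast_nonneg N
  have hex : ∃ ω, 0 < P.w ω := by
    by_contra hcon
    push Not at hcon
    have : ∑ ω, P.w ω ≤ 0 := Finset.sum_nonpos fun ω _ => hcon ω
    rw [P.sum_one] at this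
    linarith
  obtain ⟨ω0, hω0⟩ := hex
  have hN : 0 < N := by
    obtain ⟨F, h1, h2⟩ := h ω0 hω0
    exact lt_of_lt_of_le (Finset.card_pos.2 ⟨_, h2 ω0 hω0 rfl⟩) h1
  have hN' : (0 : ℝ) < N := by exact_mod_cast hN
  rcases ha0.eq_or_lt with h0 | h0
  · -- `a = 0` : impossible, but the bound for all `κ` suffices
    rw [← h0, mul_zero, Real.sqrt_zero, mul_zero]
    refine le_of_forall_pos_le_add fun δ hδ => ?_
    have h1 := coll_values P X Z Z' N h (δ / N) (by positivity)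
    rw [← ha, ← h0, zero_div, zero_add] at h1
    have h2 : (N : ℝ) * (δ / N) = δ := by field_simp
    linarith
  · have hk : 0 < Real.sqrt (a / N) := Real.sqrt_pos.2 (by positivity)
    have h1 := coll_values P X Z Z' N h (Real.sqrt (a / N)) hk
    have e1 : Real.sqrt (N * a) = N * Real.sqrt (a / N) := by
      rw [show (N : ℝ) * a = (N : ℝ) ^ 2 * (a / N) by field_simp,
        Real.sqrt_mul (by positivity), Real.sqrt_sq hN0]
    have e2 : a / Real.sqrt (a / N) = N * Real.sqrt (a / N) := by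
      rw [div_eq_iff hk.ne', mul_assoc, Real.mul_self_sqrt (by positivity)]
      field_simp
    rw [← ha, e2] at h1
    rw [e1]
    linarith

/-- at most `8` values -/
theorem coll_values8 (X : Ω → S) (Z : Ω → T) (Z' : Ω → T')
    (h : ∀ ω, 0 < P.w ω → ∃ F : Finset T', F.card ≤ 8 ∧
      ∀ ω', 0 < P.w ω' → Z ω' = Z ω → Z' ω' ∈ F) :
    coll P X (fun ω => (Z ω, Z' ω)) ≤ 6 * Real.sqrt (coll P X Z) := by
  have h1 := coll_values_sqrt P X Z Z' 8 h
  refine h1.trans ?_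
  have h0 := coll_nonneg P X Z
  rw [Nat.cast_ofNat, Real.sqrt_mul (by norm_num)]
  have h2 : Real.sqrt 8 ≤ 3 := by
    rw [Real.sqrt_le_left (by norm_num)]
    norm_num
  have h3 := Real.sqrt_nonneg (coll P X Z)
  nlinarith

end Vale.Agent.P127.U.Mic
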