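import Vale.Agent.P127.U.Mic.Props
import Vale.Agent.P127.U.Mic.Coll

/-!
# P127 / U / Mic : the translated label given the label (helper449)

The label `box` of the translated configuration takes at most `8` values given the label of the
configuration itself. Hence (`colp_box_trn`) the collision hypothesis `cy` of `Hyp` survives the generic
translation.
-/

set_option autoImplicit false

namespace Vale.Agent.P127.U.Mic

open Finset Vale.Agent.P127 Vale.Agent.P127.Stk Vale.Agent.P127.U.CellD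

/-- a floor moves by the floor of the translation, or by one more -/
theorem fl1_add_cases (k : ℕ) (x c : ℝ) :
    fl1 k (x + c) = fl1 k x + fl1 k c ∨ fl1 k (x + c) = fl1 k x + fl1 k c + 1 := by
  unfold fl1
  rw [mul_add]
  have h1 := Int.le_floor_add ((2 : ℝ) ^ k * x) ((2 : ℝ) ^ k * c)
  have h2 := Int.le_floor_add_floor ((2 : ℝ) ^ k * x) ((2 : ℝ) ^ k * c)
  omega

/-- the possible labels of the translated configuration -/
noncomputable def boxVal (h q : ℕ) (o1 o2 o3 : ℝ) (z : ℤ × ℤ × ℤ × ℤ × ℤ × ℤ) :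
    Finset (ℤ × ℤ × ℤ × ℤ × ℤ × ℤ) :=
  (univ : Finset (Fin 2 × Fin 2 × Fin 2)).image fun e =>
    (z.1, z.2.1, z.2.2.1, z.2.2.2.1 + fl1 q o3 + (e.1 : ℕ), z.2.2.2.2.1 + fl1 h o1 + (e.2.1 : ℕ),
      z.2.2.2.2.2 + fl1 (h + q) (o2 + (z.1 : ℝ) / 2 ^ h * o3 - (z.2.1 : ℝ) / 2 ^ q * o1) + (e.2.2 : ℕ))

theorem card_boxVal (h q : ℕ) (o1 o2 o3 : ℝ) (z : ℤ × ℤ × ℤ × ℤ × ℤ × ℤ) :
    (boxVal h q o1 o2 o3 z).card ≤ 8 := by
  refine Finset.card_image_le.trans ?_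
  simp [Fintype.card_prod]

theorem cases_fin2 {a b : ℤ} (h : a = b ∨ a = b + 1) : ∃ e : Fin 2, a = b + (e : ℕ) := by
  rcases h with h | h
  · exact ⟨0, by simp [h]⟩
  · exact ⟨1, by simp [h]⟩

theorem box_trn_mem {Ω : Type} (C : Pth Ω) (h q : ℕ) (o1 o2 o3 : ℝ) (ω : Ω) :
    box (trn C o1 o2 o3) h q ω ∈ boxVal h q o1 o2 o3 (box C h q ω) := by
  obtain ⟨e1, h1⟩ := cases_fin2 (fl1_add_cases q (C.y2 ω - rd q (C.v ω) * C.y1 ω) o3)
  obtain ⟨e2, h2⟩ := cases_fin2 (fl1_add_cases h (C.x1 ω + rd h (C.t ω) * C.y1 ω) o1)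
  obtain ⟨e3, h3⟩ := cases_fin2 (fl1_add_cases (h + q)
    (C.x2 ω + rd h (C.t ω) * C.y2 ω - rd q (C.v ω) * (C.x1 ω + rd h (C.t ω) * C.y1 ω))
    (o2 + rd h (C.t ω) * o3 - rd q (C.v ω) * o1))
  refine Finset.mem_image.2 ⟨(e1, e2, e3), Finset.mem_univ _, ?_⟩
  have g1 : C.y2 ω + o3 - rd q (C.v ω) * C.y1 ω = C.y2 ω - rd q (C.v ω) * C.y1 ω + o3 := by ring
  have g2 : C.x1 ω + o1 + rd h (C.t ω) * C.y1 ω = C.x1 ω + rd h (C.t ω) * C.y1 ω + o1 := by ring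
  have g3 : C.x2 ω + o2 + rd h (C.t ω) * (C.y2 ω + o3) -
      rd q (C.v ω) * (C.x1 ω + o1 + rd h (C.t ω) * C.y1 ω) =
      C.x2 ω + rd h (C.t ω) * C.y2 ω - rd q (C.v ω) * (C.x1 ω + rd h (C.t ω) * C.y1 ω) +
        (o2 + rd h (C.t ω) * o3 - rd q (C.v ω) * o1) := by ring
  simp only [box, trn, Prod.mk.injEq, true_and]
  refine ⟨?_, ?_, ?_⟩
  · rw [g1, h1]
  · rw [g2, h2]
  · rw [g3, h3]; rfl

/-- the translated label takes at most `8` values given the label -/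
theorem box_trn_values {Ω : Type} (C : Pth Ω) (h q : ℕ) (o1 o2 o3 : ℝ) (ω : Ω) :
    ∃ F : Finset (ℤ × ℤ × ℤ × ℤ × ℤ × ℤ), F.card ≤ 8 ∧
      ∀ ω', box C h q ω' = box C h q ω → box (trn C o1 o2 o3) h q ω' ∈ F :=
  ⟨boxVal h q o1 o2 o3 (box C h q ω), card_boxVal _ _ _ _ _ _, fun ω' e => by
    rw [← e]; exact box_trn_mem C h q o1 o2 o3 ω'⟩

/-- the collision probabilities given the label survive the translation -/
theorem colp_box_trn {Ω : Type} [Fintype Ω] {S T : Type*} (P : Law Ω) (C : Pth Ω) (h q : ℕ)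
    (o1 o2 o3 : ℝ) (X : Ω → S) (Y : Ω → T) :
    colp P X (fun ω => (box (trn C o1 o2 o3) h q ω, Y ω)) ≤
      6 * Real.sqrt (colp P X (fun ω => (box C h q ω, Y ω))) := by
  refine (colp_mono_cond P X (Z := fun ω => ((box C h q ω, Y ω), box (trn C o1 o2 o3) h q ω))
    fun ω ω' _ _ e => ?_).trans
    (coll_values8 P X (fun ω => (box C h q ω, Y ω)) (box (trn C o1 o2 o3) h q) fun ω _ => ?_)
  · simp only [Prod.mk.injEq] at e ⊢
    exact ⟨e.2, e.1.2⟩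
  · obtain ⟨F, h1, h2⟩ := box_trn_values C h q o1 o2 o3 ω
    exact ⟨F, h1, fun ω' _ e => h2 ω' (Prod.mk.inj e).1⟩

end Vale.Agent.P127.U.Mic
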