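import Vale.Agent.P127.U.Mic.CollX

/-!
# P127 / U / Mic : the nondegeneracy inputs of the assembly, from `Hyp` (helper652)

`tk C o1 o2 o3 k` : the path of the translated line, margin `k`.
* `colp_tv` : collision probabilities at the step `j` from the next a-step `i`.
* `sum_tv` : their sum over the steps followed by an a-step within `M` steps.
* `colp_y` : collision probability of the block of `y1` given the cell.
-/

set_option autoImplicit false

namespace Vale.Agent.P127.U.Mic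

open Finset Vale.Agent.P127 Vale.Agent.P127.Stk Vale.Agent.P127.U.CellD

/-- the translated line, margin `k` -/
def tk {Ω : Type} (C : Pth Ω) (o1 o2 o3 : ℝ) (k : ℕ) : Pth Ω := { trn C o1 o2 o3 with κ := k }

section

variable {Ω : Type} {C : Pth Ω} {o1 o2 o3 : ℝ} {k : ℕ}

lemma tk_T (i : ℕ) : (tk C o1 o2 o3 k).T i = C.T i := rfl

lemma tk_ln {ω ω' : Ω} (h : C.ln ω = C.ln ω') :
    (tk C o1 o2 o3 k).ln ω = (tk C o1 o2 o3 k).ln ω' := by
  unfold Pth.ln at *
  simp only [Prod.mk.injEq] at h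
  obtain ⟨h1, h2, h3, h4⟩ := h
  simp only [tk, trn, Prod.mk.injEq]
  exact ⟨by rw [h1], by rw [h2], h3, by rw [h4]⟩

lemma tk_J {i b : ℕ} {ω ω' : Ω} (hl : C.ln ω = C.ln ω') (h : C.T i ω = C.T i ω') :
    (tk C o1 o2 o3 k).J i b ω = (tk C o1 o2 o3 k).J i b ω' :=
  Pth.J_congr (tk_ln hl) h

end

/-! ### levels -/

section levels

variable {Ω : Type} {C : Pth Ω} {m n : ℕ}

lemma Blk.r_le (h : Blk C m n) {j i : ℕ} (hji : j ≤ i) (hi : i ≤ n) :
    C.r i ≤ C.r j + m * (i - j) := by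
  induction i, hji using Nat.le_induction with
  | base => simp
  | succ i hji ih =>
    have h1 := ih (by omega)
    have h2 : C.r (i + 1) ≤ C.r i + m := by
      rcases h i (by omega) with h | h <;> omega
    have h3 : i + 1 - j = (i - j) + 1 := by omega
    rw [h3, Nat.mul_add, Nat.mul_one]
    omega

/-- the next a-step -/
lemma next_a (C : Pth Ω) {j M : ℕ} (h : C.a j < C.a (j + M)) :
    ∃ i, j ≤ i ∧ i < j + M ∧ C.a i = C.a j ∧ C.a i < C.a (i + 1) := by
  induction M with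
  | zero => simp at h
  | succ M ih =>
    by_cases h1 : C.a j < C.a (j + M)
    · obtain ⟨i, h2, h3, h4, h5⟩ := ih h1
      exact ⟨i, h2, by omega, h4, h5⟩
    · have h2 : C.a j ≤ C.a (j + M) := C.ha (by omega)
      refine ⟨j + M, by omega, by omega, by omega, ?_⟩
      have h3 : j + (M + 1) = j + M + 1 := by ring
      rw [h3] at h
      omega

end levels

variable {Ω : Type} [Fintype Ω] (P : Law Ω) {C : Pth Ω} {m n : ℕ}

/-- finer digits collide less -/
lemma colp_fl1 {S : Type*} {s s' : ℕ} (h : s ≤ s') (x : Ω → ℝ) (Z : Ω → S) :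
    colp P (fun ω => fl1 s' (x ω)) Z ≤ colp P (fun ω => fl1 s (x ω)) Z :=
  colp_mono_var P Z fun _ _ _ _ e => fl1_fl1 h (Prod.mk.inj e).1

/-- collision probabilities at the step `j` from the next a-step `i` -/
lemma colp_tv (hB : Blk C m n) {M j i b : ℕ} (o1 o2 o3 : ℝ) (k : ℕ) (hji : j ≤ i) (hi : i < j + M)
    (hin : i ≤ n) (ha : C.a i = C.a j) :
    colp P (fun ω => fl1 (C.a j + (M + 1) * m) (C.t ω)) ((tk C o1 o2 o3 k).J j b) ≤
        colp P (fun ω => fl1 (C.a i + m) (C.t ω)) (fun ω => (C.ln ω, C.T i ω)) ∧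
      colp P (fun ω => fl1 (C.r j + (M + 1) * m) (C.v ω)) ((tk C o1 o2 o3 k).J j b) ≤
        colp P (fun ω => fl1 (C.r i + m) (C.v ω)) (fun ω => (C.ln ω, C.T i ω)) := by
  have hJ : Fn P ((tk C o1 o2 o3 k).J j b) (fun ω => (C.ln ω, C.T i ω)) := by
    intro ω ω' _ _ e
    simp only [Prod.mk.injEq] at e
    exact tk_J e.1 (Pth.T_mono hji e.2)
  constructor
  · refine (colp_mono_cond P _ hJ).trans (colp_fl1 P ?_ _ _)
    rw [ha]
    have : m ≤ (M + 1) * m := Nat.le_mul_of_pos_left m (Nat.succ_pos M)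
    omega
  · refine (colp_mono_cond P _ hJ).trans (colp_fl1 P ?_ _ _)
    have h1 := hB.r_le hji hin
    have h2 : m * (i - j) ≤ m * M := Nat.mul_le_mul_left m (by omega)
    have h3 : (M + 1) * m = m * M + m := by ring
    omega

/-- a sum over the next a-steps -/
lemma sum_next {M : ℕ} (s A : Finset ℕ) (f c : ℕ → ℝ) (hc : ∀ i, 0 ≤ c i)
    (h : ∀ j ∈ s, ∃ i ∈ A, j ≤ i ∧ i < j + M ∧ f j ≤ c i) :
    ∑ j ∈ s, f j ≤ M * ∑ i ∈ A, c i := by
  classical
  have h1 : ∀ j ∈ s, f j ≤ ∑ i ∈ A, if j ≤ i ∧ i < j + M then c i else 0 := by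
    intro j hj
    obtain ⟨i, hi, h2, h3, h4⟩ := h j hj
    refine h4.trans ?_
    have h5 := Finset.single_le_sum (s := A) (f := fun i => if j ≤ i ∧ i < j + M then c i else 0)
      (fun i _ => by
        show 0 ≤ (if j ≤ i ∧ i < j + M then c i else 0)
        split_ifs
        · exact hc i
        · exact le_rfl) hi
    simp only [if_pos (⟨h2, h3⟩ : j ≤ i ∧ i < j + M)] at h5
    exact h5
  refine (Finset.sum_le_sum h1).trans ?_
  rw [Finset.sum_comm, Finset.mul_sum]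
  refine Finset.sum_le_sum fun i _ => ?_
  rw [← Finset.sum_filter, Finset.sum_const, nsmul_eq_mul]
  refine mul_le_mul_of_nonneg_right ?_ (hc i)
  have h2 : (s.filter fun j => j ≤ i ∧ i < j + M) ⊆ Finset.Ico (i + 1 - M) (i + 1) := by
    intro j hj
    rw [Finset.mem_filter] at hj
    rw [Finset.mem_Ico]
    omega
  have h3 := Finset.card_le_card h2
  rw [Nat.card_Ico] at h3
  have h4 : i + 1 - (i + 1 - M) ≤ M := by omega
  exact_mod_cast h3.trans h4

/-- **the sums over the counted steps** -/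
theorem sum_tv {h q M J b1 b2 : ℕ} {lam ε : ℝ} {B : Finset ℕ}
    (H : Hyp P C m n h q M J b1 b2 lam ε B) (o1 o2 o3 : ℝ) (k b : ℕ) (s : Finset ℕ)
    (hs : ∀ j ∈ s, j + M ≤ n ∧ C.a j < C.a (j + M)) :
    ∑ j ∈ s, (colp P (fun ω => fl1 (C.a j + (M + 1) * m) (C.t ω)) ((tk C o1 o2 o3 k).J j b) +
      colp P (fun ω => fl1 (C.r j + (M + 1) * m) (C.v ω)) ((tk C o1 o2 o3 k).J j b)) ≤
      M * (2 * ε * n) := by
  have h1 := sum_next (M := M) s ((range n).filter fun i => C.a i < C.a (i + 1))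
    (fun j => colp P (fun ω => fl1 (C.a j + (M + 1) * m) (C.t ω)) ((tk C o1 o2 o3 k).J j b) +
      colp P (fun ω => fl1 (C.r j + (M + 1) * m) (C.v ω)) ((tk C o1 o2 o3 k).J j b))
    (fun i => colp P (fun ω => fl1 (C.a i + m) (C.t ω)) (fun ω => (C.ln ω, C.T i ω)) +
      colp P (fun ω => fl1 (C.r i + m) (C.v ω)) (fun ω => (C.ln ω, C.T i ω)))
    (fun i => add_nonneg (colp_nonneg P _ _) (colp_nonneg P _ _)) ?_
  · refine h1.trans (mul_le_mul_of_nonneg_left ?_ (Nat.cast_nonneg _))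
    rw [Finset.sum_add_distrib]
    have := H.ct
    have := H.cv
    linarith
  · intro j hj
    obtain ⟨h2, h3⟩ := hs j hj
    obtain ⟨i, h4, h5, h6, h7⟩ := next_a C h3
    refine ⟨i, ?_, h4, h5, ?_⟩
    · rw [Finset.mem_filter, Finset.mem_range]
      exact ⟨by omega, h7⟩
    · obtain ⟨h8, h9⟩ := colp_tv P H.blk o1 o2 o3 k (b := b) h4 h5 (by omega) h6
      exact add_le_add h8 h9

/-! ### the block of `y1` -/

/-- **the block of `y1` given the cell** ; `N` = number of values of the label of the translated line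
given the label of the line -/
theorem colp_y {h q M J b1 b2 : ℕ} {lam ε : ℝ} {B : Finset ℕ}
    (H : Hyp P C m n h q M J b1 b2 lam ε B) (o1 o2 o3 : ℝ) (κ N : ℕ)
    (hN : ∀ ω, 0 < P.w ω → ∃ F : Finset (ℤ × ℤ × ℤ × ℤ × ℤ × ℤ), F.card ≤ N ∧
      ∀ ω', 0 < P.w ω' → box C h q ω' = box C h q ω → box (tk C o1 o2 o3 κ) h q ω' ∈ F)
    {x : ℕ} (hx : x ∈ B) (j g : ℕ) (hg : m ≤ g) :
    colp P (fun ω => fl1 (m * x + g) (C.y1 ω)) ((tk C o1 o2 o3 κ).J j (m * x)) ≤
      4 * Real.sqrt (N * ε) + 3 * amb P (tk C o1 o2 o3 κ) h q (m * x) j := by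
  classical
  set C2 := tk C o1 o2 o3 κ with hC2
  set X : Ω → ℤ := fun ω => fl1 (m * x + m) (C.y1 ω) with hX
  have h1 : colp P (fun ω => fl1 (m * x + g) (C.y1 ω)) (C2.J j (m * x)) ≤
      colp P X (C2.J j (m * x)) := colp_fl1 P (by omega) _ _
  have h2 : coll P X (C2.J j (m * x)) ≤
      2 * coll P X (fun ω => (box C2 h q ω, fl1 (m * x) (C.y1 ω))) +
        3 * amb P C2 h q (m * x) j := by
    refine coll_amb P X _ _ _ (le_of_eq ?_)
    unfold amb
    refine P.ex_congr fun ω _ => ?_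
    have hiff : (∃ ω', 0 < P.w ω' ∧ (fun ω => (box C2 h q ω, fl1 (m * x) (C.y1 ω))) ω' =
        (fun ω => (box C2 h q ω, fl1 (m * x) (C.y1 ω))) ω ∧ C2.J j (m * x) ω' ≠ C2.J j (m * x) ω) ↔
        (∃ ω', 0 < P.w ω' ∧ box C2 h q ω' = box C2 h q ω ∧
          fl1 (m * x) (C2.y1 ω') = fl1 (m * x) (C2.y1 ω) ∧
          C2.J j (m * x) ω' ≠ C2.J j (m * x) ω) := by
      constructor
      · rintro ⟨ω', p, e, ne⟩
        simp only [Prod.mk.injEq] at e
        exact ⟨ω', p, e.1, e.2, ne⟩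
      · rintro ⟨ω', p, e1, e2, ne⟩
        exact ⟨ω', p, Prod.ext e1 e2, ne⟩
    by_cases hc : (∃ ω', 0 < P.w ω' ∧ box C2 h q ω' = box C2 h q ω ∧
          fl1 (m * x) (C2.y1 ω') = fl1 (m * x) (C2.y1 ω) ∧
          C2.J j (m * x) ω' ≠ C2.J j (m * x) ω)
    · rw [if_pos hc, Law.ind_of (hiff.2 hc)]
    · rw [if_neg hc, Law.ind_not (fun hh => hc (hiff.1 hh))]
  have h3 : coll P X (fun ω => (box C2 h q ω, fl1 (m * x) (C.y1 ω))) ≤
      coll P X (fun ω => ((box C h q ω, fl1 (m * x) (C.y1 ω)), box C2 h q ω)) :=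
    coll_mono_cond P X fun ω ω' _ _ e => by
      simp only [Prod.mk.injEq] at e ⊢
      exact ⟨e.2, e.1.2⟩
  have h4 : coll P X (fun ω => ((box C h q ω, fl1 (m * x) (C.y1 ω)), box C2 h q ω)) ≤
      2 * Real.sqrt (N * coll P X (fun ω => (box C h q ω, fl1 (m * x) (C.y1 ω)))) :=
    coll_values_sqrt P X (fun ω => (box C h q ω, fl1 (m * x) (C.y1 ω))) (box C2 h q) N
      fun ω hω => by
        obtain ⟨F, h5, h6⟩ := hN ω hω
        refine ⟨F, h5, fun ω' hω' e => h6 ω' hω' ?_⟩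
        simp only [Prod.mk.injEq] at e
        exact e.1
  have h5 : Real.sqrt (N * coll P X (fun ω => (box C h q ω, fl1 (m * x) (C.y1 ω)))) ≤
      Real.sqrt (N * ε) :=
    Real.sqrt_le_sqrt (mul_le_mul_of_nonneg_left (H.cy x hx) (Nat.cast_nonneg _))
  have h6 : colp P X (C2.J j (m * x)) = coll P X (C2.J j (m * x)) := rfl
  rw [← h6] at h2
  linarith

/-- the same with the constant of `CollX` -/
theorem colp_y8 {h q M J b1 b2 : ℕ} {lam ε : ℝ} {B : Finset ℕ}
    (H : Hyp P C m n h q M J b1 b2 lam ε B) (o1 o2 o3 : ℝ) (κ : ℕ)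
    {x : ℕ} (hx : x ∈ B) (j g : ℕ) (hg : m ≤ g) :
    colp P (fun ω => fl1 (m * x + g) (C.y1 ω)) ((tk C o1 o2 o3 κ).J j (m * x)) ≤
      12 * Real.sqrt ε + 3 * amb P (tk C o1 o2 o3 κ) h q (m * x) j := by
  have h1 := colp_y P H o1 o2 o3 κ 8 (fun ω _ => by
    obtain ⟨F, h1, h2⟩ := box_trn_values C h q o1 o2 o3 ω
    exact ⟨F, h1, fun ω' _ e => h2 ω' e⟩) hx j g hg
  have h2 : Real.sqrt ((8 : ℕ) * ε) ≤ 3 * Real.sqrt ε := by
    rw [Nat.cast_ofNat, Real.sqrt_mul (by norm_num)]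
    refine mul_le_mul_of_nonneg_right ?_ (Real.sqrt_nonneg _)
    rw [Real.sqrt_le_left (by norm_num)]
    norm_num
  linarith

end Vale.Agent.P127.U.Mic
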