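import Vale.Agent.P127.U.Mic.Count
import Vale.Agent.P127.U.Mic.Colp

/-!
# P127 / U / Mic : pieces of the assembly of `PMic` (helper518)

* `next_a` : the next a-step.
* `Sub C C'` : `C'` has the same path as `C` and its line is a function of the line of `C`
  (translations, other margin).
* `colp_t_le`, `colp_v_le` : collision given the cell against collision given the line and the path at
  the next a-step.
* `sum_next_le` : every a-step is used at most `M` times.
* `sum_colp_le` : the sum of the collisions over the counted steps.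
* `r_forced` : levels.
-/

set_option autoImplicit false

namespace Vale.Agent.P127.U.Mic.Pc

open Finset Vale.Agent.P127 Vale.Agent.P127.Stk Vale.Agent.P127.U.CellD

/-- the next a-step -/
theorem next_a {Ω : Type} (C : Pth Ω) {j k : ℕ} (h : C.a j < C.a k) :
    ∃ s, j ≤ s ∧ s < k ∧ C.a s = C.a j ∧ C.a s < C.a (s + 1) := by
  classical
  have hex : ∃ i, C.a j < C.a i := ⟨k, h⟩
  set i := Nat.find hex with hi
  have h1 : C.a j < C.a i := Nat.find_spec hex
  have h2 : i ≤ k := Nat.find_min' hex h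
  have h3 : j < i := by
    by_contra hcon
    exact absurd (C.ha (not_lt.1 hcon)) (not_le.2 h1)
  obtain ⟨s, hs⟩ : ∃ s, i = s + 1 := ⟨i - 1, by omega⟩
  have h4 : ¬ C.a j < C.a s := Nat.find_min hex (by omega)
  rw [hs] at h1 h2 h3
  have h5 : C.a s = C.a j := le_antisymm (not_lt.1 h4) (C.ha (by omega))
  exact ⟨s, by omega, by omega, h5, by rw [h5]; exact h1⟩

/-- levels at the next a-step -/
theorem r_next {Ω : Type} {C : Pth Ω} {m n : ℕ} (hB : Blk C m n) {j s M : ℕ} (hjs : j ≤ s)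
    (hs : s < j + M) (hn : s ≤ n) (ha : C.a s = C.a j) : C.r s ≤ C.r j + M * m := by
  have h1 := hB.sum_eq (i := s) hn
  have h2 := hB.sum_eq (i := j) (hjs.trans hn)
  obtain ⟨d, rfl⟩ := Nat.exists_eq_add_of_le hjs
  have h3 : m * (j + d) = m * j + m * d := by ring
  have h4 : m * d ≤ m * M := Nat.mul_le_mul_left _ (by omega)
  have h5 : m * M = M * m := Nat.mul_comm _ _
  omega

/-- `C'` has the same path as `C`, and its line is a function of the line of `C` -/
structure Sub {Ω : Type} (C C' : Pth Ω) : Prop where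
  a : C'.a = C.a
  r : C'.r = C.r
  t : C'.t = C.t
  v : C'.v = C.v
  y1 : C'.y1 = C.y1
  ln : ∀ ω ω', C.ln ω = C.ln ω' → C'.ln ω = C'.ln ω'

/-- translations and changes of the margin -/
theorem sub_trn {Ω : Type} (C : Pth Ω) (o1 o2 o3 : ℝ) (k : ℕ) :
    Sub C { trn C o1 o2 o3 with κ := k } where
  a := rfl
  r := rfl
  t := rfl
  v := rfl
  y1 := rfl
  ln := fun ω ω' e => by
    unfold Pth.ln trn at *
    simp only [Prod.mk.injEq] at e ⊢
    exact ⟨by rw [e.1], by rw [e.2.1], e.2.2.1, by rw [e.2.2.2]⟩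

theorem Sub.T {Ω : Type} {C C' : Pth Ω} (h : Sub C C') : C'.T = C.T := by
  funext i ω
  unfold Pth.T
  rw [h.a, h.r, h.t, h.v]

/-- the cells of `C'` are functions of the line and the path of `C` -/
theorem Sub.fn {Ω : Type} [Fintype Ω] (P : Law Ω) {C C' : Pth Ω} (h : Sub C C') {j s : ℕ} (b : ℕ)
    (hjs : j ≤ s) : Fn P (C'.J j b) (fun ω => (C.ln ω, C.T s ω)) := by
  intro ω ω' _ _ e
  simp only [Prod.mk.injEq] at e
  refine Pth.J_congr (h.ln ω ω' e.1) (Pth.T_mono hjs ?_)
  rw [h.T]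
  exact e.2

variable {Ω : Type} [Fintype Ω] {P : Law Ω} {C C' : Pth Ω} {m : ℕ}

/-- collisions of the time -/
theorem colp_t_le (h : Sub C C') {j s b g : ℕ} (hjs : j ≤ s) (ha : C.a s = C.a j) (hg : m ≤ g) :
    colp P (fun ω => fl1 (C'.a j + g) (C'.t ω)) (C'.J j b) ≤
      colp P (fun ω => fl1 (C.a s + m) (C.t ω)) (fun ω => (C.ln ω, C.T s ω)) := by
  refine (colp_mono_var P _ ?_).trans (colp_mono_cond P _ (h.fn P b hjs))
  intro ω ω' _ _ e
  simp only [Prod.mk.injEq] at e
  have e1 := e.1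
  rw [h.t, h.a] at e1
  exact fl1_fl1 (by omega) e1

/-- collisions of the slope -/
theorem colp_v_le (h : Sub C C') {j s b g : ℕ} (hjs : j ≤ s) (hr : C.r s + m ≤ C.r j + g) :
    colp P (fun ω => fl1 (C'.r j + g) (C'.v ω)) (C'.J j b) ≤
      colp P (fun ω => fl1 (C.r s + m) (C.v ω)) (fun ω => (C.ln ω, C.T s ω)) := by
  refine (colp_mono_var P _ ?_).trans (colp_mono_cond P _ (h.fn P b hjs))
  intro ω ω' _ _ e
  simp only [Prod.mk.injEq] at e
  have e1 := e.1
  rw [h.v, h.r] at e1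
  exact fl1_fl1 (by omega) e1

/-- every a-step is used at most `M` times -/
theorem sum_next_le (A G : Finset ℕ) (s : ℕ → ℕ) (M : ℕ) (f : ℕ → ℝ) (hf : ∀ i ∈ A, 0 ≤ f i)
    (hs : ∀ j ∈ G, j ≤ s j ∧ s j < j + M ∧ s j ∈ A) :
    ∑ j ∈ G, f (s j) ≤ M * ∑ i ∈ A, f i := by
  classical
  rw [← Finset.sum_fiberwise_of_maps_to (g := s) (t := A) fun j hj => (hs j hj).2.2,
    Finset.mul_sum]
  refine Finset.sum_le_sum fun i hi => ?_
  have h1 : ∑ j ∈ G.filter (fun j => s j = i), f (s j) =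
      ((G.filter fun j => s j = i).card : ℝ) * f i := by
    rw [Finset.sum_congr rfl fun j hj => by rw [(Finset.mem_filter.1 hj).2], Finset.sum_const,
      nsmul_eq_mul]
  rw [h1]
  refine mul_le_mul_of_nonneg_right ?_ (hf i hi)
  have h3 : G.filter (fun j => s j = i) ⊆ Finset.Icc (i + 1 - M) i := by
    intro j hj
    rw [Finset.mem_filter] at hj
    obtain ⟨a1, a2, _⟩ := hs j hj.1
    rw [hj.2] at a1 a2
    rw [Finset.mem_Icc]
    omega
  have h4 := Finset.card_le_card h3
  rw [Nat.card_Icc] at h4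
  have h5 : (G.filter fun j => s j = i).card ≤ M := by omega
  exact_mod_cast h5

/-- **the sum of the collisions over the counted steps** -/
theorem sum_colp_le (h : Sub C C') {n M : ℕ} {ε : ℝ} (hB : Blk C m n)
    (ct : ∑ i ∈ (range n).filter (fun i => C.a i < C.a (i + 1)),
      colp P (fun ω => fl1 (C.a i + m) (C.t ω)) (fun ω => (C.ln ω, C.T i ω)) ≤ ε * n)
    (cv : ∑ i ∈ (range n).filter (fun i => C.a i < C.a (i + 1)),
      colp P (fun ω => fl1 (C.r i + m) (C.v ω)) (fun ω => (C.ln ω, C.T i ω)) ≤ ε * n)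
    (G : Finset ℕ) (hG : ∀ j ∈ G, C.a j < C.a (min n (j + M))) (b : ℕ) :
    ∑ j ∈ G, (colp P (fun ω => fl1 (C'.a j + (M + 1) * m) (C'.t ω)) (C'.J j b) +
      colp P (fun ω => fl1 (C'.r j + (M + 1) * m) (C'.v ω)) (C'.J j b)) ≤ 2 * M * ε * n := by
  classical
  have h1 : ∀ j, ∃ s, j ∈ G → (j ≤ s ∧ s < j + M ∧
      s ∈ (range n).filter (fun i => C.a i < C.a (i + 1)) ∧ C.a s = C.a j) := by
    intro j
    by_cases hj : j ∈ G
    · obtain ⟨s, s1, s2, s3, s4⟩ := next_a C (hG j hj)
      refine ⟨s, fun _ => ⟨s1, by omega, ?_, s3⟩⟩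
      rw [Finset.mem_filter, Finset.mem_range]
      exact ⟨by omega, s4⟩
    · exact ⟨0, fun h => absurd h hj⟩
  choose s hs using h1
  set F : ℕ → ℝ := fun i => colp P (fun ω => fl1 (C.a i + m) (C.t ω)) (fun ω => (C.ln ω, C.T i ω)) +
    colp P (fun ω => fl1 (C.r i + m) (C.v ω)) (fun ω => (C.ln ω, C.T i ω)) with hF
  have hF0 : ∀ i, 0 ≤ F i := fun i => add_nonneg (colp_nonneg P _ _) (colp_nonneg P _ _)
  have h2 : ∀ j ∈ G, colp P (fun ω => fl1 (C'.a j + (M + 1) * m) (C'.t ω)) (C'.J j b) +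
      colp P (fun ω => fl1 (C'.r j + (M + 1) * m) (C'.v ω)) (C'.J j b) ≤ F (s j) := by
    intro j hj
    obtain ⟨s1, s2, s3, s4⟩ := hs j hj
    have hsn : s j < n := Finset.mem_range.1 (Finset.mem_filter.1 s3).1
    have hr := r_next hB s1 s2 hsn.le s4
    have hg : m ≤ (M + 1) * m := Nat.le_mul_of_pos_left _ (Nat.succ_pos _)
    have hr2 : C.r (s j) + m ≤ C.r j + (M + 1) * m := by
      have : (M + 1) * m = M * m + m := by ring
      omega
    have k1 := colp_t_le (P := P) h (b := b) s1 s4 hg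
    have k2 := colp_v_le (P := P) h (b := b) s1 hr2
    exact add_le_add k1 k2
  have h3 : ∑ i ∈ (range n).filter (fun i => C.a i < C.a (i + 1)), F i ≤ ε * n + ε * n := by
    rw [hF, Finset.sum_add_distrib]
    exact add_le_add ct cv
  have h4 := sum_next_le ((range n).filter (fun i => C.a i < C.a (i + 1))) G s M F
    (fun i _ => hF0 i) (fun j hj => ⟨(hs j hj).1, (hs j hj).2.1, (hs j hj).2.2.1⟩)
  have h5 := Finset.sum_le_sum h2
  have h6 := mul_le_mul_of_nonneg_left h3 (Nat.cast_nonneg (α := ℝ) M)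
  linarith

omit [Fintype Ω] in
/-- the levels of the slope grow at the forced steps -/
theorem r_forced {n J : ℕ} (hB : Blk C m n) (hJ : ∀ i, i + J ≤ n → C.r i < C.r (i + J))
    (K i : ℕ) (hi : i + K * J ≤ n) : C.r i + K * m ≤ C.r (i + K * J) := by
  have hmul : ∀ i d, i + d ≤ n → ∃ e, C.r (i + d) = C.r i + m * e := by
    intro i d
    induction d with
    | zero => intro _; exact ⟨0, by simp⟩
    | succ d ih =>
      intro hd
      obtain ⟨e, he⟩ := ih (by omega)
      have e1 : i + (d + 1) = i + d + 1 := by omega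
      rcases hB (i + d) (by omega) with ⟨_, e2⟩ | ⟨_, e2⟩
      · exact ⟨e, by rw [e1, e2, he]⟩
      · exact ⟨e + 1, by rw [e1, e2, he]; ring⟩
  have h1 : ∀ i, i + J ≤ n → C.r i + m ≤ C.r (i + J) := by
    intro i hi
    obtain ⟨e, he⟩ := hmul i J hi
    have h2 := hJ i hi
    rcases Nat.eq_zero_or_pos e with rfl | he0
    · omega
    · have : m * 1 ≤ m * e := Nat.mul_le_mul_left _ he0
      omega
  induction K with
  | zero => simp
  | succ K ih =>
    have e1 : i + (K + 1) * J = i + K * J + J := by ring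
    have e2 : (K + 1) * m = K * m + m := by ring
    have h2 := ih (by rw [e1] at hi; omega)
    have h3 := h1 (i + K * J) (by rw [e1] at hi; omega)
    rw [e1, e2]
    omega

end Vale.Agent.P127.U.Mic.Pc
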